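import Vale.Agent.P106.U.H824.XF
import Vale.Agent.P106.U.H428.ClsC
import Vale.Agent.P106.U.S3.F2
import Vale.Agent.P106.U.S3.ExtR

/-!
# P106 / U / H465 : the prefix data of the young levels over helper565's run (row [PFD] of `S3.F2`; helper465)

* `C2.X i` = helper824's `pX` : the letter `pfA` (class integers of all levels `≤ a_i`, all revealed depths);
  `C2.erun` = `runX` : the run with this further letter (helper404's `Run.ext`).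
* `C2.HX` : the letter is a function of the closure, the slope of the closure is its number; `C1.mk2_hx` : for `C1.mk2`.
* `C2.pfd k0 Bb : S3.Pf` : the data; `k0 i` = line precision in blocks of the numbers of `mt0` (any `k0 ≤ L.k`, monotone), `Bb`
  = depth of `Ao` below the index, in blocks.
* fields of `S3.F2` (namespace `C2`): `pfW pfZ pfH pfC pfT gvA gvF lo0 gv0A aoA`, `cut_step` (off the cuts `cutS`), `erun_ok`.
-/

set_option autoImplicit false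

namespace Vale.Agent.P106.U.H565

open Finset Vale.Agent.P127 Vale.Agent.P127.Stk Vale.Agent.P127.U Vale.Agent.P106.W
open Vale.Agent.P106.K (Ry RyOk bl Bin)
open Vale.Agent.P127.U.CellD (q2 rd q2_pos q2_le q2_mul_pow)
open Vale.Agent.P106.U Vale.Agent.P106.U.H449 Vale.Agent.P106.U.StripL Vale.Agent.P106.U.StripE
open Vale.Agent.P106.U.LinkR Vale.Agent.P106.U.InsL Vale.Agent.P106.U.InpC Vale.Agent.P106.U.LSide
open Vale.Agent.P106.U.LinkW2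
open Vale.Agent.P106.U.H823.NumG
open Vale.Agent.P106.U.H428.Cls (Dt)

variable {Ω : Type} [Fintype Ω]

namespace C2

variable (c : C2 Ω) (hm : 3 ≤ c.I.m)

/-- **the prefix letter** of the step `i` (helper824's `pX`) -/
noncomputable abbrev X (i : ℕ) (ω : Ω) : ℕ → ℤ → Option ℤ := c.pX hm i ω

theorem X_anti {i j : ℕ} (hij : i ≤ j) {ω ω' : Ω} (h : c.X hm j ω = c.X hm j ω') : c.X hm i ω = c.X hm i ω' := by
  unfold X pX at *
  rw [Dt.pfA_res (c.D.li_mono hij) (fun _ _ => le_rfl) ω, Dt.pfA_res (c.D.li_mono hij) (fun _ _ => le_rfl) ω', h]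

theorem X_nest (i : ℕ) (ω ω' : Ω) (h : c.X hm (i + 1) ω = c.X hm (i + 1) ω') : c.X hm i ω = c.X hm i ω' :=
  c.pX_nest hm i ω ω' h

/-- **the run with the prefix letter** (helper824's `runX`) -/
noncomputable abbrev erun : S3.Run Ω (List (ℤ × ℤ × ℤ × ℤ) × (ℕ → ℤ → Option ℤ)) (ℤ × S1) := c.runX hm

/-- the letter is a function of the closure, and the slope of the closure is its number -/
structure HX : Prop where
  fx : ∀ a ≤ c.I.ha, Fn c.Q ((c.dt hm).pfA c.RC a) c.G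
  gx : ∀ a ≤ c.I.ha, ∀ ω, 0 < c.Q.w ω → c.g a ω = (c.dt hm).gv a (c.RC a) ((c.dt hm).pfR c.RC a ω)

/-- the slope at the depth `y` below the level `v` -/
noncomputable def slo (v : ℕ) (y : ℤ) (ω : Ω) : ℝ :=
  - absl c.I.m c.d0 (((c.dt hm).L v y ω + 1 / 2) * ((2 : ℝ) ^ c.I.m) ^ (-y))

/-- **the data of the young levels** -/
noncomputable def pfd (k0 : ℕ → ℕ) (hk : Monotone k0) (hl : ∀ i, k0 i ≤ c.D.L.k (c.D.ix i)) (Bb : ℕ) :
    S3.Pf (c.erun hm) (ℕ → ℤ → Option ℤ) where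
  pf := c.X hm
  gv := fun i v => - absl c.I.m c.d0 ((c.dt hm).gv (c.D.li i) (c.RC (c.D.li i)) (v (c.D.li i)))
  gv0 := fun i v => - absl c.I.m c.d0 ((c.dt hm).gv (c.D.li i) (k0 i) (v (c.D.li i)))
  rk0 := fun i => c.D.r0 + c.D.m * k0 i
  m0 := fun _ _ h => Nat.add_le_add_left (Nat.mul_le_mul_left _ (hk h)) _
  l0 := fun i => Nat.add_le_add_left (Nat.mul_le_mul_left _ (hl i)) _
  Ao := fun v ω => c.slo hm v ((c.RC v : ℤ) - v + Bb) ω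

variable {c hm}

/-! ### general facts -/

theorem dt_B : (c.dt hm).B = 2 ^ c.I.m := rfl
theorem dt_N : (c.dt hm).N = c.I.ha := rfl
theorem dt_al (a : ℕ) (ω : Ω) : (c.dt hm).al a ω = c.alR c.E1 a ω := rfl

theorem dsu (in0 : ∀ ω, c.d0.In (c.tW ω) (c.κ ω)) : (c.dt hm).Su c.Q := H465.GcK.su c.cn2 (C0.isL0 in0)

/-- **the number of the letter at any smaller depth** -/
theorem gv_near (in0 : ∀ ω, c.d0.In (c.tW ω) (c.κ ω)) {a R : ℕ} (ha : a ≤ c.I.ha) (hR : R ≤ c.RC a) {ω : Ω}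
    (hω : 0 < c.Q.w ω) : |c.alR c.E1 a ω - (c.dt hm).gv a R ((c.dt hm).pfR c.RC a ω)| ≤
      ((2 : ℝ) ^ c.I.m) ^ ((a : ℤ) - R) := by
  have hs := dsu (c := c) (hm := hm) in0
  rcases Nat.eq_zero_or_pos R with h0 | h0
  · subst h0
    have h1 := hs.bd a ω hω
    unfold Dt.gv
    rw [if_neg (by omega), sub_zero]
    have e1 : (a : ℤ) - (0 : ℕ) = (a : ℤ) := by simp
    rw [e1]
    exact h1
  · have h2 := hs.L_near a ((R : ℤ) - a) hω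
    have h3 : (c.dt hm).gv a R ((c.dt hm).pfR c.RC a ω) =
        (((c.dt hm).L a ((R : ℤ) - a) ω : ℝ) + 1 / 2) * (c.dt hm).B ^ ((a : ℤ) - R) := by
      unfold Dt.gv
      rw [if_pos h0, Dt.pfR_some (by rw [dt_N]; omega) (by omega)]
      rfl
    have h4 : (c.dt hm).B ^ ((R : ℤ) - a) * (c.dt hm).B ^ ((a : ℤ) - R) = 1 := by
      rw [(c.dt hm).zp_mul]
      simp
    have h5 : (c.dt hm).al a ω - (((c.dt hm).L a ((R : ℤ) - a) ω : ℝ) + 1 / 2) * (c.dt hm).B ^ ((a : ℤ) - R) =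
        ((c.dt hm).al a ω * (c.dt hm).B ^ ((R : ℤ) - a) - ((c.dt hm).L a ((R : ℤ) - a) ω + 1 / 2)) *
          (c.dt hm).B ^ ((a : ℤ) - R) := by
      rw [sub_mul, mul_assoc, h4, mul_one]
    have h6 : 0 < (c.dt hm).B ^ ((a : ℤ) - R) := (c.dt hm).zp _
    show |(c.dt hm).al a ω - _| ≤ (c.dt hm).B ^ ((a : ℤ) - R)
    rw [h3, h5, abs_mul, abs_of_pos h6]
    have h7 := mul_le_mul_of_nonneg_right h2 h6.le
    linarith

/-- the slope of the entry at any depth -/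
theorem slo_near (in0 : ∀ ω, c.d0.In (c.tW ω) (c.κ ω)) (a : ℕ) (R : ℕ) {ω : Ω} (hω : 0 < c.Q.w ω) :
    |c.alR c.E1 a ω - (((c.dt hm).L a ((R : ℤ) - a) ω : ℝ) + 1 / 2) * ((2 : ℝ) ^ c.I.m) ^ (-((R : ℤ) - a))| ≤
      ((2 : ℝ) ^ c.I.m) ^ ((a : ℤ) - R) := by
  have hs := dsu (c := c) (hm := hm) in0
  have h2 := hs.L_near a ((R : ℤ) - a) hω
  have e0 : -((R : ℤ) - a) = (a : ℤ) - R := by ring
  have h4 : (c.dt hm).B ^ ((R : ℤ) - a) * (c.dt hm).B ^ ((a : ℤ) - R) = 1 := by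
    rw [(c.dt hm).zp_mul]
    simp
  have h5 : (c.dt hm).al a ω - (((c.dt hm).L a ((R : ℤ) - a) ω : ℝ) + 1 / 2) * (c.dt hm).B ^ ((a : ℤ) - R) =
      ((c.dt hm).al a ω * (c.dt hm).B ^ ((R : ℤ) - a) - ((c.dt hm).L a ((R : ℤ) - a) ω + 1 / 2)) *
        (c.dt hm).B ^ ((a : ℤ) - R) := by
    rw [sub_mul, mul_assoc, h4, mul_one]
  have h6 : 0 < (c.dt hm).B ^ ((a : ℤ) - R) := (c.dt hm).zp _
  rw [e0]
  show |(c.dt hm).al a ω - _ * (c.dt hm).B ^ ((a : ℤ) - R)| ≤ (c.dt hm).B ^ ((a : ℤ) - R)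
  rw [h5, abs_mul, abs_of_pos h6]
  have h7 := mul_le_mul_of_nonneg_right h2 h6.le
  linarith

variable {Rm : ℕ} {cc : ℝ} {Ac rc : ℕ} (H : c.Hyp Rm cc Ac rc)

/-- the slope of the ray side -/
theorem al_abs {i : ℕ} {ω : Ω} (hω : 0 < c.Q.w ω) : c.run.al i ω = - absl c.I.m c.d0 (c.alR c.E1 (c.D.li i) ω) := by
  have h1 := aI_alR (m := c.I.m) (d0 := c.d0) c.cn2 (c.D.li i) hω
  show _ = - absl c.I.m c.d0 (alR c.I.m c.d0 c.rule c.P c.I.pm.n c.E1 (c.D.li i) ω)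
  rw [← h1]
  rfl

include H

theorem kb2 : 2 ≤ c.I.kb := (hw H).κ2

theorem li_ha (i : ℕ) : c.D.li i ≤ c.I.ha := ((hw H).li i).trans (hw H).AA

/-- distance of two slopes in the units of the letter -/
theorem near_q2' {a R : ℕ} {x y : ℝ} (h : |x - y| ≤ ((2 : ℝ) ^ c.I.m) ^ ((a : ℤ) - R)) :
    |(- absl c.I.m c.d0 x) - (- absl c.I.m c.d0 y)| * q2 (c.I.m * a) ≤ q2 (c.I.m * (c.I.kb - 2 + R)) := by
  have h1 := near_absl (d0 := c.d0) h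
  have e1 : (- absl c.I.m c.d0 x) - (- absl c.I.m c.d0 y) = -(absl c.I.m c.d0 x - absl c.I.m c.d0 y) := by ring
  rw [e1, abs_neg, ← InpR.pr_q2 (m := c.I.m) (d0 := c.d0) (kb2 H) H.st.k0 H.st.a0 a R]
  exact mul_le_mul_of_nonneg_right h1 (q2_pos _).le

theorem ra_eq (i : ℕ) : c.run.C.a i = c.I.m * c.D.li i := (hw H).la_eq i

theorem rk_eq (i : ℕ) : c.run.C.rk i = c.I.m * (c.I.kb - 2 + c.D.L.k (c.D.ix i)) := (hw H).lk_eq i

theorem kk_le (i : ℕ) : c.D.L.k (c.D.ix i) ≤ c.RC (c.D.li i) := (hw H).kk_le i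

theorem lv_eq (i : ℕ) : S3.lv (c.erun hm) i = c.D.li i := by
  unfold S3.lv
  show c.run.C.a i / c.I.m = _
  rw [ra_eq H, Nat.mul_div_cancel_left _ (by omega)]

/-! ### the fields -/

variable {k0 : ℕ → ℕ} {hk : Monotone k0} {hl : ∀ i, k0 i ≤ c.D.L.k (c.D.ix i)} {Bb : ℕ}

theorem pfW (HX : c.HX hm) (i : ℕ) : Fn (c.erun hm).Q ((c.pfd hm k0 hk hl Bb).pf i) (c.erun hm).W' :=
  HX.fx _ (li_ha H i)

omit H in
theorem pfH (i : ℕ) : Fn (c.erun hm).Q ((c.pfd hm k0 hk hl Bb).pf i) ((c.pfd hm k0 hk hl Bb).pf (i + 1)) :=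
  fun ω ω' _ _ h => c.X_nest hm i ω ω' h

omit H in
theorem pfT (i : ℕ) : Fn (c.erun hm).Q ((c.pfd hm k0 hk hl Bb).pf i) ((c.erun hm).C.T i) :=
  fun _ _ _ _ h => congrArg Prod.snd h

theorem pfZ (i : ℕ) : Fn (c.erun hm).Q ((c.pfd hm k0 hk hl Bb).pf i) ((c.erun hm).Z i) := by
  intro ω ω' hω hω' e
  have h1 : Fn c.Q (fun ω => c.rule.T c.P (ia c.I.pm.n c.E1 (c.D.li i)) ω) (c.run.Z i) := (hasW H).ZT i
  have h2 := h1 ω ω' hω hω' e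
  have h3 : ∀ b ≤ c.D.li i, ∀ y, (c.dt hm).L b y ω = (c.dt hm).L b y ω' := by
    intro b hb y
    unfold Dt.L Dt.z
    have h4 : (c.dt hm).al ((c.dt hm).rep b y) ω = (c.dt hm).al ((c.dt hm).rep b y) ω' := by
      have h5 := (c.dt hm).rep_le b y
      have h6 := Rl.T_mono (e := c.rule) (P := c.P) (ia_mono c.cn2 (h5.trans hb)) h2
      show alR c.I.m c.d0 c.rule c.P c.I.pm.n c.E1 _ ω = alR c.I.m c.d0 c.rule c.P c.I.pm.n c.E1 _ ω'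
      unfold alR
      rw [if_pos (c.cn2.hE ω hω), if_pos (c.cn2.hE ω' hω'), h6]
    rw [h4]
  show c.X hm i ω = c.X hm i ω'
  unfold X pX
  funext b y
  by_cases hb : b ≤ c.D.li i
  · rw [Dt.pfA_le hb, Dt.pfA_le hb]
    unfold Dt.pfR
    rw [h3 b hb y]
  · rw [Dt.pfA_gt (by omega), Dt.pfA_gt (by omega)]

theorem gvA {K : ℝ} (hK : 1 ≤ K) (i : ℕ) (ω : Ω) (hω : 0 < (c.erun hm).Q.w ω) :
    |(c.erun hm).al i ω - (c.pfd hm k0 hk hl Bb).gv i ((c.pfd hm k0 hk hl Bb).pf i ω)| * q2 ((c.erun hm).C.a i) ≤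
      K * q2 ((c.erun hm).C.rk i) := by
  have hω' : 0 < c.Q.w ω := hω
  show |c.run.al i ω - (- absl c.I.m c.d0 ((c.dt hm).gv (c.D.li i) (c.RC (c.D.li i)) (c.X hm i ω (c.D.li i))))| *
    q2 (c.run.C.a i) ≤ K * q2 (c.run.C.rk i)
  rw [al_abs hω', ra_eq H, rk_eq H]
  unfold X pX
  rw [Dt.pfA_le le_rfl]
  refine (near_q2' H (gv_near (hm := hm) H.st.in0 (li_ha H i) le_rfl hω')).trans ?_
  have h1 : q2 (c.I.m * (c.I.kb - 2 + c.RC (c.D.li i))) ≤ q2 (c.I.m * (c.I.kb - 2 + c.D.L.k (c.D.ix i))) :=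
    q2_le (Nat.mul_le_mul_left _ (Nat.add_le_add_left (kk_le H i) _))
  have := q2_pos (c.I.m * (c.I.kb - 2 + c.D.L.k (c.D.ix i)))
  nlinarith

theorem gvF {K : ℝ} (hK : 4 ≤ K) (i : ℕ) (ω : Ω) (hω : 0 < (c.erun hm).Q.w ω) :
    |((c.erun hm).C.F i ω).al - (c.pfd hm k0 hk hl Bb).gv i ((c.pfd hm k0 hk hl Bb).pf i ω)| *
      q2 ((c.erun hm).C.a i) ≤ K * q2 ((c.erun hm).C.rk i) := by
  have hω' : 0 < c.Q.w ω := hω
  have h1 := gvA (hm := hm) (hk := hk) (hl := hl) (Bb := Bb) H (le_refl (1 : ℝ)) i ω hω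
  have h2 := c.inp.al_err i ω
  have h3 := near_q2 c.cn2 H.gc (kb2 H) H.st.k0 H.st.a0 (li_ha H i) (kk_le H i) hω'
  have e1 : (c.run.C.F i ω).al = c.inp.al' i ω := c.inp.F_al i ω
  have e2 : c.run.al i ω = - aI c.I.m c.d0 (c.rule.T c.P (ia c.I.pm.n c.E1 (c.D.li i)) ω) := rfl
  have e3 : c.inp.gA i ω = - gAc c.I.m c.d0 c.g (c.D.li i) ω := rfl
  set gg := (c.pfd hm k0 hk hl Bb).gv i ((c.pfd hm k0 hk hl Bb).pf i ω) with hgg
  have e4 : (c.erun hm).al i ω = c.run.al i ω := rfl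
  have e5 : ((c.erun hm).C.F i ω).al = (c.run.C.F i ω).al := rfl
  have e6 : (c.erun hm).C.a i = c.run.C.a i := rfl
  have e7 : (c.erun hm).C.rk i = c.run.C.rk i := rfl
  have e8 : c.inp.a i = c.run.C.a i := rfl
  have e9 : c.inp.rk i = c.run.C.rk i := rfl
  rw [e4, e6, e7] at h1
  rw [e5, e6, e7, e1]
  rw [e8, e9, e3] at h2
  rw [← ra_eq H, ← rk_eq H] at h3
  have hq := q2_pos (c.run.C.a i)
  have hr := q2_pos (c.run.C.rk i)
  have h4 : |c.inp.al' i ω - gg| ≤ |c.inp.al' i ω - (- gAc c.I.m c.d0 c.g (c.D.li i) ω)| +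
      |aI c.I.m c.d0 (c.rule.T c.P (ia c.I.pm.n c.E1 (c.D.li i)) ω) - gAc c.I.m c.d0 c.g (c.D.li i) ω| +
      |c.run.al i ω - gg| := by
    have t1 := abs_add_le (c.inp.al' i ω - (- gAc c.I.m c.d0 c.g (c.D.li i) ω) +
      (aI c.I.m c.d0 (c.rule.T c.P (ia c.I.pm.n c.E1 (c.D.li i)) ω) - gAc c.I.m c.d0 c.g (c.D.li i) ω))
      (c.run.al i ω - gg)
    have t2 := abs_add_le (c.inp.al' i ω - (- gAc c.I.m c.d0 c.g (c.D.li i) ω))
      (aI c.I.m c.d0 (c.rule.T c.P (ia c.I.pm.n c.E1 (c.D.li i)) ω) - gAc c.I.m c.d0 c.g (c.D.li i) ω)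
    have e0 : c.inp.al' i ω - (- gAc c.I.m c.d0 c.g (c.D.li i) ω) +
      (aI c.I.m c.d0 (c.rule.T c.P (ia c.I.pm.n c.E1 (c.D.li i)) ω) - gAc c.I.m c.d0 c.g (c.D.li i) ω) +
      (c.run.al i ω - gg) = c.inp.al' i ω - gg := by rw [e2]; ring
    rw [e0] at t1
    linarith
  have h5 := mul_le_mul_of_nonneg_right h4 hq.le
  rw [add_mul, add_mul] at h5
  nlinarith

omit H in
theorem lo0 (i : ℕ) : (c.erun hm).r0 ≤ (c.pfd hm k0 hk hl Bb).rk0 i := Nat.le_add_right _ _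

theorem rk0_eq (i : ℕ) : (c.pfd hm k0 hk hl Bb).rk0 i = c.I.m * (c.I.kb - 2 + k0 i) := by
  show c.D.r0 + c.D.m * k0 i = _
  rw [(hw H).Dr, (hw H).Dm]
  ring

theorem gv0A {K : ℝ} (hK : 1 ≤ K) (i : ℕ) (ω : Ω) (hω : 0 < (c.erun hm).Q.w ω) :
    |(c.erun hm).al i ω - (c.pfd hm k0 hk hl Bb).gv0 i ((c.pfd hm k0 hk hl Bb).pf i ω)| * q2 ((c.erun hm).C.a i) ≤
      K * q2 ((c.pfd hm k0 hk hl Bb).rk0 i) := by
  have hω' : 0 < c.Q.w ω := hω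
  rw [rk0_eq H]
  show |c.run.al i ω - (- absl c.I.m c.d0 ((c.dt hm).gv (c.D.li i) (k0 i) (c.X hm i ω (c.D.li i))))| *
    q2 (c.run.C.a i) ≤ K * q2 (c.I.m * (c.I.kb - 2 + k0 i))
  rw [al_abs hω', ra_eq H]
  unfold X pX
  rw [Dt.pfA_le le_rfl]
  refine (near_q2' H (gv_near (hm := hm) H.st.in0 (li_ha H i) ((hl i).trans (kk_le H i)) hω')).trans ?_
  have := q2_pos (c.I.m * (c.I.kb - 2 + k0 i))
  nlinarith

theorem pfC (HX : c.HX hm) (i : ℕ) :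
    Fn (c.erun hm).Q (fun ω => ((c.erun hm).C.F i ω).al) ((c.pfd hm k0 hk hl Bb).pf i) := by
  intro ω ω' hω hω' e
  have e1 : ∀ ω, ((c.erun hm).C.F i ω).al = c.inp.al' i ω := fun ω => c.inp.F_al i ω
  have h1 : c.g (c.D.li i) ω = c.g (c.D.li i) ω' := by
    rw [HX.gx _ (li_ha H i) ω hω, HX.gx _ (li_ha H i) ω' hω']
    have h2 : (c.dt hm).pfR c.RC (c.D.li i) ω = (c.dt hm).pfR c.RC (c.D.li i) ω' := Dt.pfA_R le_rfl e
    rw [h2]
  show ((c.erun hm).C.F i ω).al = ((c.erun hm).C.F i ω').al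
  rw [e1, e1]
  unfold S3.PthW.Inp.al' S3.PthW.Inp.aN
  have h3 : c.inp.gA i ω = c.inp.gA i ω' := by
    show - gAc c.I.m c.d0 c.g (c.D.li i) ω = - gAc c.I.m c.d0 c.g (c.D.li i) ω'
    unfold gAc
    rw [h1]
  rw [h3]

theorem aoA {K : ℝ} (hK : 1 ≤ K) (i : ℕ) (ω : Ω) (hω : 0 < (c.erun hm).Q.w ω) :
    |(c.erun hm).al i ω - (c.pfd hm k0 hk hl Bb).Ao (S3.lv (c.erun hm) i) ω| * q2 ((c.erun hm).C.a i) ≤
      K * q2 ((c.erun hm).C.rk i + (c.erun hm).m * Bb) := by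
  have hω' : 0 < c.Q.w ω := hω
  rw [lv_eq H]
  show |c.run.al i ω - (- absl c.I.m c.d0 _)| * q2 (c.run.C.a i) ≤ K * q2 (c.run.C.rk i + c.I.m * Bb)
  rw [al_abs hω', ra_eq H, rk_eq H]
  have h1 := slo_near (hm := hm) H.st.in0 (c.D.li i) (c.RC (c.D.li i) + Bb) hω'
  have e1 : (((c.RC (c.D.li i) + Bb : ℕ) : ℤ) - (c.D.li i : ℕ)) = (c.RC (c.D.li i) : ℤ) - (c.D.li i : ℕ) + Bb := by
    push_cast
    ring
  rw [e1] at h1
  refine (near_q2' H h1).trans ?_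
  have h2 : q2 (c.I.m * (c.I.kb - 2 + (c.RC (c.D.li i) + Bb))) ≤
      q2 (c.I.m * (c.I.kb - 2 + c.D.L.k (c.D.ix i)) + c.I.m * Bb) := by
    refine q2_le ?_
    rw [← Nat.mul_add]
    refine Nat.mul_le_mul_left _ ?_
    have := kk_le H i
    omega
  have := q2_pos (c.I.m * (c.I.kb - 2 + c.D.L.k (c.D.ix i)) + c.I.m * Bb)
  nlinarith

/-- **the run with the prefix letter is a run** -/
theorem erun_ok (HX : c.HX hm) {K g' gU gR : ℝ} (hK : 648 ≤ K) (hc0 : 0 ≤ cc) (W0 : Fn c.Q (c.Fy c.b1) c.G)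
    (prW : Stk.hc c.Q c.G (c.Fy c.b1) ≤ gU) (prT : 3 * PrT.LS.Lg 6 3 * ((c.D.n + c.I.J : ℕ) + 1) ≤ g')
    (prU : Stk.hc c.run.Q (c.run.U 0) c.run.ry + ∑ i ∈ range (c.run.n + c.num.J), Stk.hc c.run.Q (c.run.U (i + 1))
      (fun ω => (c.run.Z i ω, fl1 (c.run.C.a (i + 1)) (c.run.t ω))) ≤ gR) (hg : gR ≤ gU) :
    (c.erun hm).Ok c.num K cc g' gU :=
  S3.Run.Ok.ext (ok H hK hc0 W0 prW prT prU hg) (fun i _ => HX.fx _ (li_ha H i))
    (fun i _ => pfZ (hm := hm) (k0 := fun _ => 0) (hk := fun _ _ _ => le_rfl) (hl := fun _ => Nat.zero_le _)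
      (Bb := 0) H i)

/-! ### the cuts -/

omit H in
variable (c hm) in
/-- the levels of `Vs` with a cut at the depth `RC v - v + Bb` -/
noncomputable def cutS (Bb : ℕ) (Vs : Finset ℕ) : Finset ℕ :=
  Vs.filter fun v => (c.dt hm).rep (v + 1) ((c.RC v : ℤ) - v + Bb) = v + 1

/-- **one variable along a run, off the cuts** -/
theorem cut_step {Vs : Finset ℕ} (hd : ∀ v ∈ Vs, v + 1 ∈ Vs → v + 1 ≤ c.I.ha → c.RC (v + 1) = c.RC v + 1)
    {i j : ℕ} (hij : i ≤ j)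
    (hi : S3.lv (c.erun hm) i ∈ Vs) (hj : S3.lv (c.erun hm) j ∈ Vs)
    (hl1 : S3.lv (c.erun hm) j ≤ S3.lv (c.erun hm) i + 1)
    (hC : S3.lv (c.erun hm) i = S3.lv (c.erun hm) j ∨ S3.lv (c.erun hm) i ∉ c.cutS hm Bb Vs) :
    Fn (c.erun hm).Q ((c.pfd hm k0 hk hl Bb).pf j) ((c.pfd hm k0 hk hl Bb).pf i) ∧
      ∀ ω, 0 < (c.erun hm).Q.w ω → (c.pfd hm k0 hk hl Bb).Ao (S3.lv (c.erun hm) j) ω =
        (c.pfd hm k0 hk hl Bb).Ao (S3.lv (c.erun hm) i) ω := by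
  have e1 := lv_eq (hm := hm) H i
  have e2 := lv_eq (hm := hm) H j
  rcases Nat.lt_or_ge (S3.lv (c.erun hm) i) (S3.lv (c.erun hm) j) with h1 | h1
  · have hne : S3.lv (c.erun hm) i ≠ S3.lv (c.erun hm) j := h1.ne
    have hcu := hC.resolve_left hne
    have ej : c.D.li j = c.D.li i + 1 := by omega
    rw [e1] at hcu hi
    rw [e2, ej] at hj
    have hR := hd _ hi hj (by rw [← ej]; exact li_ha H j)
    have hrep : (c.dt hm).rep (c.D.li i + 1) ((c.RC (c.D.li i) : ℤ) - c.D.li i + Bb) ≠ c.D.li i + 1 := by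
      intro h
      exact hcu (mem_filter.2 ⟨hi, h⟩)
    refine ⟨?_, fun ω _ => ?_⟩
    · show Fn c.Q ((c.dt hm).pfA c.RC (c.D.li j)) ((c.dt hm).pfA c.RC (c.D.li i))
      rw [ej]
      exact Dt.fn_A_step c.Q hR (y0 := (c.RC (c.D.li i) : ℤ) - c.D.li i + Bb) (by omega) hrep
    · rw [e1, e2, ej]
      show c.slo hm (c.D.li i + 1) ((c.RC (c.D.li i + 1) : ℤ) - (c.D.li i + 1 : ℕ) + Bb) ω =
        c.slo hm (c.D.li i) ((c.RC (c.D.li i) : ℤ) - c.D.li i + Bb) ω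
      have e3 : (c.RC (c.D.li i + 1) : ℤ) - (c.D.li i + 1 : ℕ) + Bb = (c.RC (c.D.li i) : ℤ) - c.D.li i + Bb := by
        rw [hR]
        push_cast
        ring
      rw [e3]
      unfold slo
      rw [Dt.L_step hrep le_rfl ω]
  · have e3 : c.D.li i = c.D.li j := by
      have h2 := c.D.li_mono hij
      omega
    refine ⟨?_, fun ω _ => ?_⟩
    · show Fn c.Q ((c.dt hm).pfA c.RC (c.D.li j)) ((c.dt hm).pfA c.RC (c.D.li i))
      rw [e3]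
      exact fun _ _ _ _ h => h
    · rw [e1, e2, e3]

omit H in
/-- **the number of cuts** : `k` blocks of lag -/
theorem cut_card {Vs : Finset ℕ} (hd : ∀ v ∈ Vs, v + 1 ∈ Vs → c.RC (v + 1) = c.RC v + 1) {k : ℕ} (hk1 : 1 ≤ k)
    (hV : ∀ v ∈ Vs, c.RC v + Bb + 1 + k ≤ Rw c.I.pm.n c.E1 1 v) :
    ((c.cutS hm Bb Vs).card : ℝ) ≤ 2 * (Vs.filter fun v => v + 1 ∉ Vs).card +
      8 * Vs.card * ((2 : ℝ) ^ c.I.m) ^ (-(k : ℤ)) := by
  classical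
  have h1 := (c.dt hm).cuts_path (fun v => (c.RC v : ℤ) - v + Bb) Vs (k := k) (by omega) (fun v hv => by
    have h2 := hV v hv
    show (c.RC v : ℤ) - v + Bb ≤ ((Rw c.I.pm.n c.E1 1 v : ℕ) : ℤ) - v - (0 : ℕ) - 1 - k
    push_cast
    omega)
  refine (le_of_eq ?_).trans (h1.trans ?_)
  · rfl
  · have h2 : (Vs.filter fun v => ¬ (v + 1 ∈ Vs ∧ ((c.RC (v + 1) : ℤ) - (v + 1 : ℕ) + Bb) = (c.RC v : ℤ) - v + Bb)) ⊆
        Vs.filter fun v => v + 1 ∉ Vs := by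
      intro v hv
      rw [mem_filter] at hv ⊢
      refine ⟨hv.1, fun h => hv.2 ⟨h, ?_⟩⟩
      rw [hd v hv.1 h]
      push_cast
      ring
    have h3 : ((Vs.filter fun v => ¬ (v + 1 ∈ Vs ∧ ((c.RC (v + 1) : ℤ) - (v + 1 : ℕ) + Bb) =
        (c.RC v : ℤ) - v + Bb)).card : ℝ) ≤ (Vs.filter fun v => v + 1 ∉ Vs).card := by
      exact_mod_cast card_le_card h2
    have h4 : (c.dt hm).B ^ (-(k : ℤ)) = ((2 : ℝ) ^ c.I.m) ^ (-(k : ℤ)) := rfl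
    rw [h4]
    linarith

end C2

namespace C1

variable {c : C1 Ω} {hm : 3 ≤ c.I.m} {cc : ℝ} {in0 : ∀ ω, c.d0.In (c.tW ω) (c.κ ω)} {hc : 0 ≤ cc} {b : ℕ} {V : Type}
  {w : Ω → V} {z : V} {hz : 0 < c.Q1.pr w z} {ps : ℕ} {o : Fin 7 → ℝ} {oK oG oN : ℝ}

/-- **the prefix letter is a function of the closure** -/
theorem mk2_hx (hw : ∀ ω ω', 0 < c.Q1.w ω → 0 < c.Q1.w ω' → w ω = w ω' → ∀ a ≤ c.I.ha,
      c.RT hm cc c.Q1 b a ω = c.RT hm cc c.Q1 b a ω') :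
    (c.mk2 hm cc in0 hc b w z hz ps o oK oG oN).HX hm := by
  have hkw := H465.GcK.kw (A := c.I.ha) (hm := hm) (F := c.Fy) (c := cc) c.cn (C0.isL0 in0) hc b
  have hR : ∀ ω, 0 < (c.mk2 hm cc in0 hc b w z hz ps o oK oG oN).Q.w ω → ∀ a ≤ c.I.ha,
      (H465.GcK.dC c.I.m c.d0 c.rule c.P c.I.pm.n c.E1 c.I.ha hm (rR_mono c.cn)).RT
        (((H465.GcK.dC c.I.m c.d0 c.rule c.P c.I.pm.n c.E1 c.I.ha hm (rR_mono c.cn)).clD cc).Rd c.Q1 c.Fy b ω) a =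
      c.rcx hm cc b w z a := by
    intro ω hω a ha
    obtain ⟨h1, h2⟩ := mk2_sup hω
    rw [← H465.GcK.RTC_eq c.cn b a ω]
    exact rcx_eq hw hz ha h1 h2
  constructor
  · intro a ha
    exact hkw.fn_A (Q := (c.mk2 hm cc in0 hc b w z hz ps o oK oG oN).Q) (RC := c.rcx hm cc b w z) ha (Nat.zero_le _)
      (fun ω hω a' ha' => hR ω hω a' (ha'.trans ha))
  · intro a ha ω hω
    have h1 := hkw.gT_num (RC := c.rcx hm cc b w z) (ω := ω) (a := a) ha (Nat.zero_le _) (hR ω hω a ha) ω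
    rw [← H465.GcK.gTC_eq c.cn b a ω] at h1
    exact h1

end C1

end Vale.Agent.P106.U.H565
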