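import Vale.Agent.P106.U.H565.PF2
import Vale.Agent.P106.U.H465.PfD

/-!
# P106 / U / H465 : restriction of the words of a window, family of the data (rows of `PF2`; helper465)

* `res k z` : restriction of a value of the word to the caps `≤ k`; **`zW_res`** : `zW b0 k ω = res k (zW b0 k2 ω)` for `k ≤ k2`,
  every `ω`; `zW_nest`, `zW_fn`, `pr_res`, `res_res`, `res_bit`.
* `zW_bit`, `zW_rt`, `zW_hw` (the word determines the second paths), `zW_hf` (it is a function of the closure at the last cap).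
* `C2.inp_hy`, `C2.inp_ok`, `C2.erun_pok` : class of the path at every point of the support.
* **`C0.fam`** : the data of the value `z` of the word at the cap `b0 + k s` as a total function (`fam_eq` : it is `c.c2 ..` when the
  value has positive probability).
-/

set_option autoImplicit false

namespace Vale.Agent.P106.U.H565

open Finset Vale.Agent.P127 Vale.Agent.P127.Stk Vale.Agent.P127.U Vale.Agent.P106.W
open Vale.Agent.P106.K (Ry RyOk bl Bin)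
open Vale.Agent.P127.U.CellD (q2 rd)
open Vale.Agent.P106.U Vale.Agent.P106.U.H449 Vale.Agent.P106.U.StripL Vale.Agent.P106.U.StripE
open Vale.Agent.P106.U.LinkR Vale.Agent.P106.U.InsL Vale.Agent.P106.U.InpC
open Vale.Agent.P106.U.H823.NumW Vale.Agent.P106.U.H823.PathNum
open Vale.Agent.P127.U.Nonat Vale.Agent.P127.U.YPat Vale.Agent.P127.U.JSB

/-- restriction of a value of the word to the caps `≤ k` -/
def res (k : ℕ) (z : (ℕ → Bool) × (ℕ → ℕ → ℕ)) : (ℕ → Bool) × (ℕ → ℕ → ℕ) :=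
  (fun j => if j ≤ k then z.1 j else false, fun j => if j ≤ k then z.2 j else fun _ => 0)

theorem res_res {k k2 : ℕ} (hk : k ≤ k2) (z : (ℕ → Bool) × (ℕ → ℕ → ℕ)) : res k (res k2 z) = res k z := by
  refine Prod.ext (funext fun j => ?_) (funext fun j => ?_)
  · show (if j ≤ k then (if j ≤ k2 then z.1 j else false) else false) = if j ≤ k then z.1 j else false
    by_cases hj : j ≤ k
    · rw [if_pos hj, if_pos (hj.trans hk), if_pos hj]
    · rw [if_neg hj, if_neg hj]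
  · show (if j ≤ k then (if j ≤ k2 then z.2 j else fun _ => 0) else fun _ => 0) = if j ≤ k then z.2 j else fun _ => 0
    by_cases hj : j ≤ k
    · rw [if_pos hj, if_pos (hj.trans hk), if_pos hj]
    · rw [if_neg hj, if_neg hj]

theorem res_bit {k k2 : ℕ} (hk : k ≤ k2) {z : (ℕ → Bool) × (ℕ → ℕ → ℕ)} (h : ∀ j ≤ k2, z.1 j = true) :
    ∀ j ≤ k, (res k z).1 j = true := by
  intro j hj
  show (if j ≤ k then z.1 j else false) = true
  rw [if_pos hj]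
  exact h j (hj.trans hk)

theorem res_1 {k j : ℕ} (hj : j ≤ k) (z : (ℕ → Bool) × (ℕ → ℕ → ℕ)) : (res k z).1 j = z.1 j := if_pos hj

theorem res_2 {k j : ℕ} (hj : j ≤ k) (z : (ℕ → Bool) × (ℕ → ℕ → ℕ)) : (res k z).2 j = z.2 j := if_pos hj

namespace C0

variable {Ω : Type} [Fintype Ω] {c : C0 Ω} {hm : 3 ≤ c.I.m} {cc : ℝ} {s : ℕ} {bt : Law Ω → ℕ → ℕ → Ω → Bool} {Q : Law Ω}
  {b0 : ℕ}

/-- **the word of fewer caps is the restriction** -/
theorem zW_res {k k2 : ℕ} (hk : k ≤ k2) (ω : Ω) : c.zW hm cc s bt Q b0 k ω = res k (c.zW hm cc s bt Q b0 k2 ω) := by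
  refine Prod.ext (funext fun j => ?_) (funext fun j => ?_)
  · show (if j ≤ k then bt Q b0 j ω else false) = if j ≤ k then (if j ≤ k2 then bt Q b0 j ω else false) else false
    by_cases hj : j ≤ k
    · rw [if_pos hj, if_pos hj, if_pos (hj.trans hk)]
    · rw [if_neg hj, if_neg hj]
  · by_cases hj : j ≤ k
    · have e1 : (res k (c.zW hm cc s bt Q b0 k2 ω)).2 j = (c.zW hm cc s bt Q b0 k2 ω).2 j := res_2 hj _
      rw [e1]
      unfold zW G480.ZwC H339W.jws H300.jw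
      simp only
      rw [if_pos hj, if_pos (hj.trans hk)]
    · have e1 : (res k (c.zW hm cc s bt Q b0 k2 ω)).2 j = fun _ => 0 := if_neg hj
      rw [e1]
      unfold zW G480.ZwC H339W.jws H300.jw
      simp only
      rw [if_neg hj]

theorem zW_nest {k k2 : ℕ} (hk : k ≤ k2) {ω ω' : Ω}
    (h : c.zW hm cc s bt Q b0 k2 ω = c.zW hm cc s bt Q b0 k2 ω') :
    c.zW hm cc s bt Q b0 k ω = c.zW hm cc s bt Q b0 k ω' := by
  rw [zW_res hk ω, zW_res hk ω', h]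

theorem zW_fn (P : Law Ω) {k k2 : ℕ} (hk : k ≤ k2) : Fn P (c.zW hm cc s bt Q b0 k) (c.zW hm cc s bt Q b0 k2) :=
  fun _ _ _ _ h => zW_nest hk h

/-- a value of positive probability restricts to a value of positive probability -/
theorem pr_res (P : Law Ω) {k k2 : ℕ} (hk : k ≤ k2) {z : (ℕ → Bool) × (ℕ → ℕ → ℕ)}
    (hz : 0 < P.pr (c.zW hm cc s bt Q b0 k2) z) : 0 < P.pr (c.zW hm cc s bt Q b0 k) (res k z) := by
  obtain ⟨ω, hω⟩ := H465.GcK.ex_supp (P.cond (c.zW hm cc s bt Q b0 k2) z)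
  obtain ⟨h1, h2⟩ := supp_cond hz hω
  rw [← h2, ← zW_res hk ω]
  exact P.pr_pos _ h1

/-- the bits -/
theorem zW_bit {k j : ℕ} (hj : j ≤ k) {ω : Ω} {z : (ℕ → Bool) × (ℕ → ℕ → ℕ)} (hz : c.zW hm cc s bt Q b0 k ω = z) :
    z.1 j = bt Q b0 j ω := by
  rw [← hz]
  exact if_pos hj

/-- the second paths -/
theorem zW_rt {k j a : ℕ} (hj : j ≤ k) (ha : a ≤ c.I.ha) {ω : Ω} {z : (ℕ → Bool) × (ℕ → ℕ → ℕ)}
    (hz : c.zW hm cc s bt Q b0 k ω = z) : c.RT hm cc Q (b0 + j * s) a ω = z.2 j a - (c.I.ha - a) :=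
  G480.ZwC_rt hz hj ha

/-- **the word determines the second paths** (hypothesis `hw` of `mk2_gc`, `mk2_hx`, ..) at every cap `j ≤ k` -/
theorem zW_hw (P : Law Ω) {k j : ℕ} (hj : j ≤ k) : ∀ ω ω', 0 < P.w ω → 0 < P.w ω' →
    c.zW hm cc s bt Q b0 k ω = c.zW hm cc s bt Q b0 k ω' → ∀ a ≤ c.I.ha,
      c.RT hm cc Q (b0 + j * s) a ω = c.RT hm cc Q (b0 + j * s) a ω' := by
  intro ω ω' _ _ h a ha
  rw [zW_rt hj ha h, zW_rt hj ha rfl]

/-- **the word is a function of the closure at the last cap** -/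
theorem zW_hf {E : List (Lt 2)} {x : ℝ} (cn : Cn c.rule c.P Q c.I.pm.n E x) (in0 : ∀ ω, c.d0.In (c.tW ω) (c.κ ω))
    (hc : 0 ≤ cc) {k : ℕ} (hb : ∀ j ≤ k, Dtm Q (c.Gb hm cc Q (b0 + j * s)) (bt Q b0 j)) :
    Fn Q (c.zW hm cc s bt Q b0 k) (c.Gb hm cc Q (b0 + k * s)) := by
  intro ω ω' hω hω' h
  refine Prod.ext (funext fun j => ?_) ?_
  · show (if j ≤ k then bt Q b0 j ω else false) = if j ≤ k then bt Q b0 j ω' else false
    by_cases hj : j ≤ k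
    · rw [if_pos hj, if_pos hj]
      exact hb j hj ω ω' hω hω' (gb_nest cn (Nat.add_le_add_left (Nat.mul_le_mul_right s hj) b0) h)
    · rw [if_neg hj, if_neg hj]
  · exact zr_fn cn in0 hc h

end C0

namespace C2

variable {Ω : Type} [Fintype Ω] {c : C2 Ω} {hm : 3 ≤ c.I.m} {Rm : ℕ} {cc : ℝ} {Ac rc : ℕ}

/-- hypotheses of the letter, class `6` -/
theorem inp_hy (H : c.Hyp Rm cc Ac rc) {ω : Ω} (hω : 0 < c.Q.w ω) : c.inp.Hy 6 c.I.num.A' ω := (hw H).hy hω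

/-- class of the path `648` -/
theorem inp_ok (H : c.Hyp Rm cc Ac rc) {ω : Ω} (hω : 0 < c.Q.w ω) : c.inp.pth.Ok 648 ω := (hw H).ok hω

/-- class of the path with the prefix letter -/
theorem erun_pok (H : c.Hyp Rm cc Ac rc) {ω : Ω} (hω : 0 < c.Q.w ω) : (c.erun hm).C.Ok 648 ω :=
  S3.Run.extC_Ok (hX := c.pX_nest hm) (inp_ok H hω)

end C2

namespace C0

variable {Ω : Type} [Fintype Ω] (c : C0 Ω) (hm : 3 ≤ c.I.m) (cc : ℝ)

open Classical in
/-- **the family** : data of the value `z` of the word of the caps `≤ k`, at the cap `b0 + k s`; total in `z` -/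
noncomputable def fam {K1 : ℝ} {N0 : ℕ} (good : c.I.Good K1 N0) {Q1 : Law Ω} {E1 : List (Lt 2)} {x1 : ℝ}
    (cn : Cn c.rule c.P Q1 c.I.pm.n E1 x1) (in0 : ∀ ω, c.d0.In (c.tW ω) (c.κ ω)) (hc : 0 ≤ cc) (s : ℕ)
    (bt : Law Ω → ℕ → ℕ → Ω → Bool) (b0 k : ℕ) (z : (ℕ → Bool) × (ℕ → ℕ → ℕ)) (o : Fin 7 → ℝ) (oK oG oN : ℝ) : C2 Ω :=
  if hz : 0 < Q1.pr (c.zW hm cc s bt Q1 b0 k) z then c.c2 hm cc good cn in0 hc s bt b0 k z hz o oK oG oN
  else c.c2 hm cc good cn in0 hc s bt b0 k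
    (c.zW hm cc s bt Q1 b0 k (H465.GcK.ex_supp Q1).choose)
    (Q1.pr_pos _ (H465.GcK.ex_supp Q1).choose_spec) o oK oG oN

variable {c hm cc}

theorem fam_eq {K1 : ℝ} {N0 : ℕ} {good : c.I.Good K1 N0} {Q1 : Law Ω} {E1 : List (Lt 2)} {x1 : ℝ}
    {cn : Cn c.rule c.P Q1 c.I.pm.n E1 x1} {in0 : ∀ ω, c.d0.In (c.tW ω) (c.κ ω)} {hc : 0 ≤ cc} {s : ℕ}
    {bt : Law Ω → ℕ → ℕ → Ω → Bool} {b0 k : ℕ} {z : (ℕ → Bool) × (ℕ → ℕ → ℕ)} {o : Fin 7 → ℝ} {oK oG oN : ℝ}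
    (hz : 0 < Q1.pr (c.zW hm cc s bt Q1 b0 k) z) :
    c.fam hm cc good cn in0 hc s bt b0 k z o oK oG oN = c.c2 hm cc good cn in0 hc s bt b0 k z hz o oK oG oN :=
  dif_pos hz

section two

variable {K1 : ℝ} {N0 : ℕ} {good : c.I.Good K1 N0} {Q1 : Law Ω} {E1 : List (Lt 2)} {x1 : ℝ}
  {cn : Cn c.rule c.P Q1 c.I.pm.n E1 x1} {in0 : ∀ ω, c.d0.In (c.tW ω) (c.κ ω)} {hc : 0 ≤ cc} {s : ℕ}
  {bt : Law Ω → ℕ → ℕ → Ω → Bool} {b0 k k2 : ℕ} {z z2 : (ℕ → Bool) × (ℕ → ℕ → ℕ)} {o : Fin 7 → ℝ} {oK oG oN : ℝ}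

/-- the support of the law of a place -/
theorem c2_sup {hz : 0 < Q1.pr (c.zW hm cc s bt Q1 b0 k) z} {ω : Ω} :
    0 < (c.c2 hm cc good cn in0 hc s bt b0 k z hz o oK oG oN).Q.w ω ↔
      0 < Q1.w ω ∧ c.zW hm cc s bt Q1 b0 k ω = z := by
  classical
  refine ⟨fun h => supp_cond hz h, fun h => ?_⟩
  show 0 < (Q1.cond (c.zW hm cc s bt Q1 b0 k) z).w ω
  rw [Q1.cond_w _ z hz, if_pos h.2]
  exact div_pos h.1 hz

/-- the support of a place of more caps -/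
theorem c2_sup_res (hk : k ≤ k2) {hz : 0 < Q1.pr (c.zW hm cc s bt Q1 b0 k) (res k z2)}
    {hz2 : 0 < Q1.pr (c.zW hm cc s bt Q1 b0 k2) z2} {ω : Ω}
    (h : 0 < (c.c2 hm cc good cn in0 hc s bt b0 k2 z2 hz2 o oK oG oN).Q.w ω) :
    0 < (c.c2 hm cc good cn in0 hc s bt b0 k (res k z2) hz o oK oG oN).Q.w ω := by
  rw [c2_sup] at h ⊢
  exact ⟨h.1, by rw [zW_res hk ω, h.2]⟩

/-- the precisions of the data, from the value of the word -/
theorem c2_RC {hz : 0 < Q1.pr (c.zW hm cc s bt Q1 b0 k) z} {a : ℕ} (ha : a ≤ c.I.ha) :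
    (c.c2 hm cc good cn in0 hc s bt b0 k z hz o oK oG oN).RC a = z.2 k a - (c.I.ha - a) := by
  obtain ⟨ω, hω⟩ := H465.GcK.ex_supp (Q1.cond (c.zW hm cc s bt Q1 b0 k) z)
  obtain ⟨h1, h2⟩ := supp_cond hz hω
  rw [← zW_rt le_rfl ha h2]
  exact (C1.rcx_eq (c := c.c1 good cn) (hm := hm) (cc := cc) (zW_hw Q1 le_rfl) hz ha h1 h2).symm

end two

end C0

end Vale.Agent.P106.U.H565
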