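import Vale.Agent.P106.U.H61.Mac

/-!
# P106 / U / H465 : SUB = step (5) of helper61's TEXT S1 (note 17579), exact Props

Everything here is deterministic geometry of real boxes of one shape `(b, R)` around a common ray (no straightening).

* `Shp c b R B` : `B` has the shape `(b, R)` and a frame of class `c`.
* `nrm B l` : normal vector of the slab of `B` at the ray `l` (`n_θ + κ (s - v) - 2 α (y - p)`).
* `Agr δ B B' l` : the frames of `B`, `B'` at `l` agree up to `δ` in units of the cap, up to a sign.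
* `PJoin` : `J j B` = slab of shape `(b, R - j)` around `B`, and at most `N` values for all `B` which agree with a given box.
* `PMeet` : if the frames agree up to `2^X 2^-(R-b)` and not better, the rays of `B ∩ B'` are in `C 2^(3p - X)` boxes of shape
  `(b + p, R)`, `X / 2 ≤ p ≤ X` up to constants.
-/

set_option autoImplicit false

namespace Vale.Agent.P106.U

open Vale.Agent.P127 Vale.Agent.P127.Stk Vale.Agent.P127.U Vale.Agent.P106.W Vale.Agent.P106.K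

/-- `B` has the shape `(b, R)` and a frame of class `c` -/
structure Shp (c : ℝ) (b R : ℕ) (B : Cbx) : Prop where
  u2 : B.u2 = (1 / 2 : ℝ) ^ b
  u1 : B.u1 = (1 / 2 : ℝ) ^ R
  α2 : |B.α| * B.u2 ≤ c
  κ2 : |B.κ| * B.u2 ≤ c

/-- the normal vector of the slab of `B` at the ray `l` -/
noncomputable def nrm (B : Cbx) (l : Ry) : Fin 2 → ℝ := fun k =>
  ![-Real.sin B.θ, Real.cos B.θ] k + B.κ * (l.s k - B.v k) - 2 * B.α * (l.y k - B.p k)

/-- the frames of `B` and `B'` at the ray `l` agree up to `δ` (units of the cap), up to the sign -/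
def Agr (δ : ℝ) (B B' : Cbx) (l : Ry) : Prop :=
  ∃ σ : ℝ, (σ = 1 ∨ σ = -1) ∧ (∀ k, |nrm B' l k - σ * nrm B l k| ≤ δ) ∧ |B'.κ - σ * B.κ| * B.u2 ≤ δ ∧
    |B'.α - σ * B.α| * B.u2 ≤ δ

/-- **[JOIN]** -/
def PJoin : Prop :=
  ∀ c : ℝ, 1 ≤ c → ∃ (c' : ℝ) (N : ℕ), 1 ≤ c' ∧ ∀ b R : ℕ, b ≤ R → ∃ J : ℕ → Cbx → Cbx, ∀ j : ℕ, j ≤ R - b →
    (∀ B, Shp c b R B → Shp c' b (R - j) (J j B) ∧ ∀ l, Bin c B 0 l → Bin c' (J j B) 0 l) ∧
    ∀ B', Shp c b R B' → ∃ S : Finset Cbx, S.card ≤ N ∧ ∀ B l, Shp c b R B → Bin c B 0 l → Bin c B' 0 l →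
      (Agr (2 ^ j * (1 / 2) ^ (R - b)) B B' l ∨ j = R - b) → J j B ∈ S

/-- **[MEET]** -/
def PMeet : Prop :=
  ∀ c : ℝ, 1 ≤ c → ∃ (c' : ℝ) (C : ℕ), 1 ≤ c' ∧ ∀ (b R X : ℕ) (B B' : Cbx) (l0 : Ry), b ≤ R → X ≤ R - b →
    Shp c b R B → Shp c b R B' → Bin c B 0 l0 → Bin c B' 0 l0 →
    (Agr (2 ^ X * (1 / 2) ^ (R - b)) B B' l0 ∨ X = R - b) →
    (X = 0 ∨ ¬ Agr (2 ^ (X - 1) * (1 / 2) ^ (R - b)) B B' l0) →
    ∃ p n : ℕ, b + p ≤ R ∧ X ≤ 2 * p + C ∧ p ≤ X ∧ (n : ℝ) * 2 ^ X ≤ C * 2 ^ (3 * p) ∧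
      ∃ M : Fin n → Cbx, (∀ i, Shp c' (b + p) R (M i)) ∧
        ∀ l, Bin c B 0 l → Bin c B' 0 l → ∃ i, Bin c' (M i) 0 l

end Vale.Agent.P106.U
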