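import Vale.Agent.P106.U.H465.PthL
import Vale.Agent.P106.U.H786.Adp2
import Vale.Agent.P106.U.H428.Slb1
import Vale.Agent.P106.U.H428.Join

/-!
# P106 / U / H465 : the functional of the label in the coordinates of the cells

`W0 (1 / 1000) h q W l t` (label of level `h`, shape `(0, q)`), own normal of the label near `(-sin θ, cos θ)`:
the functional `FW θ h W t` (helper786) is unit at the ray up to `2^-q`, `cN ∈ [1/2, 2]`, small own slope; the point of the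
label `(XcW, NcW)`; `pW` = own slope.
-/

set_option autoImplicit false

namespace Vale.Agent.P106.U.H465.FWn

open Finset Vale.Agent.P127 Vale.Agent.P127.Stk Vale.Agent.P127.U Vale.Agent.P106.W
open Vale.Agent.P106.K (Ry RyOk bl Bin)
open Vale.Agent.P122.C2 (fw fn)
open Vale.Agent.P106.U.H786 Vale.Agent.P106.U.H786.Adp
open Vale.Agent.P106.U.H428 (W0 nv own_sq)
open Vale.Agent.P127.U.CellD (rd rd_err q2 q2_pos q2_le)
open Vale.Agent.P106.U.H465.PthL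

/-- point of the label, V-coordinate -/
noncomputable def XcW (θ : ℝ) (h : ℕ) (W : Cbx) : ℝ := fw θ W.p / 2 ^ h

/-- point of the label, N-coordinate -/
noncomputable def NcW (θ : ℝ) (h : ℕ) (W : Cbx) : ℝ := fn θ W.p / 2 ^ h

/-- own slope of the label at the ray -/
noncomputable def pW (θ : ℝ) (h : ℕ) (W : Cbx) (l : Ry) (t : ℝ) : ℝ :=
  (FW θ h W t).cV (toR θ l) (qa h t) / (FW θ h W t).cN (toR θ l) (qa h t)

theorem cN_eq (θ : ℝ) (h : ℕ) (W : Cbx) (l : Ry) (t : ℝ) :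
    (FW θ h W t).cN (toR θ l) (qa h t) = fn θ (nv W (bl h l t)) := by
  rw [FW_cN]
  congr 1
  funext k
  exact fuW_cov h W t l k

theorem cV_eq (θ : ℝ) (h : ℕ) (W : Cbx) (l : Ry) (t : ℝ) :
    (FW θ h W t).cV (toR θ l) (qa h t) = -(fw θ (nv W (bl h l t))) := by
  rw [FW_cV]
  congr 2
  funext k
  exact fuW_cov h W t l k

/-- a direction from a unit normal -/
theorem angle {ν : Fin 2 → ℝ} (h : ν 0 ^ 2 + ν 1 ^ 2 = 1) : ∃ θ : ℝ, ν 0 = -Real.sin θ ∧ ν 1 = Real.cos θ := by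
  have hn : ‖(⟨ν 1, -ν 0⟩ : ℂ)‖ = 1 := by
    rw [Complex.norm_def, Complex.normSq_mk]
    rw [show ν 1 * ν 1 + -ν 0 * -ν 0 = ν 0 ^ 2 + ν 1 ^ 2 by ring, h, Real.sqrt_one]
  have hne : (⟨ν 1, -ν 0⟩ : ℂ) ≠ 0 := by
    intro h0
    rw [h0, norm_zero] at hn
    norm_num at hn
  refine ⟨Complex.arg ⟨ν 1, -ν 0⟩, ?_, ?_⟩
  · rw [Complex.sin_arg, hn]
    simp
  · rw [Complex.cos_arg hne, hn]
    simp

/-- output -/
structure FWok (θ : ℝ) (h q Rm : ℕ) (W : Cbx) (l : Ry) (t : ℝ) : Prop where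
  v2 : |(toR θ l).v| ≤ 2
  w2 : |(toR θ l).w| ≤ 2
  unit : |(FW θ h W t).cN (toR θ l) (rd h t) ^ 2 + (FW θ h W t).cV (toR θ l) (rd h t) ^ 2 - 1| ≤ 1 / 100 * q2 q
  c1 : 3 / 4 ≤ (FW θ h W t).cN (toR θ l) (rd h t)
  c2 : (FW θ h W t).cN (toR θ l) (rd h t) ≤ 5 / 4
  cp : pW θ h W l t * (FW θ h W t).cN (toR θ l) (rd h t) = (FW θ h W t).cV (toR θ l) (rd h t)
  un' : |(FW θ h W t).cN (toR θ l) (rd h t) - un (pW θ h W l t)| ≤ 1 / 100 * q2 q
  p1 : |pW θ h W l t| ≤ 4 * q2 Rm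
  ka : |(FW θ h W t).ka| ≤ 1 / 1000
  al : |(FW θ h W t).al| * q2 h ≤ 1 / 500
  N : |(toR θ l).N (rd h t) - NcW θ h W| ≤ 1 / 500 * q2 h
  X : |(toR θ l).X (rd h t) - XcW θ h W| ≤ 1 / 500 * q2 h

theorem div_pos_le {h : ℕ} {x y c : ℝ} (e : |2 ^ h * x - y| ≤ c) : |x - y / 2 ^ h| ≤ c * q2 h := by
  have h2 : (0 : ℝ) < 2 ^ h := by positivity
  have e1 : x - y / 2 ^ h = (2 ^ h * x - y) / 2 ^ h := by field_simp
  rw [e1, abs_div, abs_of_pos h2]
  unfold q2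
  rw [div_pow, one_pow, mul_one_div]
  exact div_le_div_of_nonneg_right e h2.le

theorem fwok {θ : ℝ} {h q Rm : ℕ} {W : Cbx} {l : Ry} {t : ℝ} (H : W0 (1 / 1000) h q W l t) (hR : 3 ≤ Rm)
    (h0 : |nrm W (bl h l t) 0 + Real.sin θ| ≤ (1 / 2 : ℝ) ^ Rm)
    (h1 : |nrm W (bl h l t) 1 - Real.cos θ| ≤ (1 / 2 : ℝ) ^ Rm) : FWok θ h q Rm W l t := by
  have hn : nrm W (bl h l t) = nv W (bl h l t) := H428.nrm_eq _ _
  rw [hn] at h0 h1
  have hε : (1 / 2 : ℝ) ^ Rm ≤ 1 / 8 := by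
    calc (1 / 2 : ℝ) ^ Rm ≤ (1 / 2 : ℝ) ^ 3 := pow_le_pow_of_le_one (by norm_num) (by norm_num) hR
      _ = 1 / 8 := by norm_num
  have hε0 : (0 : ℝ) < (1 / 2 : ℝ) ^ Rm := by positivity
  set ε := (1 / 2 : ℝ) ^ Rm with hεd
  have hsc := Real.sin_sq_add_cos_sq θ
  set n := nv W (bl h l t) with hnd
  have hd : ∀ k, |(fun k => n k - ![-Real.sin θ, Real.cos θ] k) k| ≤ ε := by
    intro k
    fin_cases k
    · show |n 0 - -Real.sin θ| ≤ ε
      rw [sub_neg_eq_add]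
      exact h0
    · exact h1
  have f1 : |fn θ n - 1| ≤ 2 * ε := by
    have := fn_le θ hd
    have e : fn θ (fun k => n k - ![-Real.sin θ, Real.cos θ] k) = fn θ n - 1 := by
      simp only [fn, Matrix.cons_val_zero, Matrix.cons_val_one]
      linear_combination -hsc
    rwa [e] at this
  have f2 : |fw θ n| ≤ 2 * ε := by
    have := fw_le θ hd
    have e : fw θ (fun k => n k - ![-Real.sin θ, Real.cos θ] k) = fw θ n := by
      simp only [fw, Matrix.cons_val_zero, Matrix.cons_val_one]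
      ring
    rwa [e] at this
  have c1 : 3 / 4 ≤ fn θ n := by have := (abs_le.1 f1).1; linarith
  have c2 : fn θ n ≤ 5 / 4 := by have := (abs_le.1 f1).2; linarith
  have cpos : 0 < fn θ n := by linarith
  have hu : |fn θ n ^ 2 + (-(fw θ n)) ^ 2 - 1| ≤ 1 / 100 * q2 q := by
    have e : fn θ n ^ 2 + (-(fw θ n)) ^ 2 - 1 = n 0 ^ 2 + n 1 ^ 2 - 1 := by
      have := norm_sq θ n
      linarith
    rw [e]
    exact own_sq H
  have eN : (FW θ h W t).cN (toR θ l) (rd h t) = fn θ n := cN_eq θ h W l t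
  have eV : (FW θ h W t).cV (toR θ l) (rd h t) = -(fw θ n) := cV_eq θ h W l t
  have ep : pW θ h W l t = -(fw θ n) / fn θ n := by
    unfold pW
    rw [cN_eq, cV_eq]
  obtain ⟨i1, i2, -, -, -⟩ := H.inn
  rw [H.u2, mul_one] at i1 i2
  have hby : ∀ k, |(fun k => (bl h l t).y k - W.p k) k| ≤ 1 / 1000 := i1
  refine ⟨?_, ?_, ?_, ?_, ?_, ?_, ?_, ?_, ?_, ?_, ?_, ?_⟩
  · have := fw_le θ (d := l.s) (x := 1) H.ok.2.1
    show |fw θ l.s| ≤ 2
    linarith
  · have := fn_le θ (d := l.s) (x := 1) H.ok.2.1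
    show |fn θ l.s| ≤ 2
    linarith
  · rw [eN, eV]
    exact hu
  · rw [eN]; exact c1
  · rw [eN]; exact c2
  · rw [ep, eN, eV]
    field_simp
  · rw [ep, eN]
    exact cN_un cpos hu
  · rw [ep, abs_div, abs_neg, abs_of_pos cpos, div_le_iff₀ cpos]
    show |fw θ n| ≤ 4 * ε * fn θ n
    nlinarith
  · rw [FW_ka, abs_neg]
    exact H.κ
  · rw [FW_al]
    have h2 : (0 : ℝ) < 2 ^ h := by positivity
    rw [abs_mul, abs_mul, abs_two, abs_of_pos h2, mul_assoc, pow_q2, mul_one]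
    have := H.α
    linarith
  · refine div_pos_le ?_
    have e := bl_N θ h l t
    have e2 : (2 : ℝ) ^ h * (toR θ l).N (rd h t) - fn θ W.p = fn θ (fun k => (bl h l t).y k - W.p k) := by
      rw [← fn_sub, e]
      rfl
    rw [e2]
    exact (fn_le θ hby).trans (by norm_num)
  · refine div_pos_le ?_
    have e := bl_X θ h l t
    have e2 : (2 : ℝ) ^ h * (toR θ l).X (rd h t) - fw θ W.p = fw θ (fun k => (bl h l t).y k - W.p k) := by
      rw [← fw_sub, e]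
      rfl
    rw [e2]
    exact (fw_le θ hby).trans (by norm_num)

/-- the functional of the label is a function of `(W, t_h)` -/
theorem FW_fn {θ : ℝ} {h : ℕ} {W W' : Cbx} {t t' : ℝ} (e : W = W') (et : fl1 h t = fl1 h t') :
    FW θ h W t = FW θ h W' t' := by
  subst e
  refine FW_congr ?_
  unfold qa
  rw [et]

end Vale.Agent.P106.U.H465.FWn
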