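import Vale.Agent.P106.U.H465.CloG
import Vale.Agent.P106.U.H428.ClsC
import Vale.Agent.P106.U.H824.GCof

/-!
# P106 / U / H465 : the concrete closure (helper465)

From word 1 (helper449 / 824: `Cn`, `IsL`) to the closure of helper465 / 428 and to helper824's `GC`.
The past letters `F b` are arbitrary (in the application `F b = (W, t_h, y_b)`).

* `dC` : 428's data for `alR`, `rR n E`, `s = 0`, `B = 2 ^ m`, levels `≤ A`; `su` : the bounds.
* `ev Q` : the value of word 1 under the law `Q`; `GbC Q b`, `RTC Q b a`, `gTC Q b a` : closure, second path,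
  value, defined for EVERY law `Q` (as helper480's `pSelG` wants them); `GbC_eq`, `RTC_eq`, `gTC_eq`.
* `kw` : the interface `Kw`.
* `RTC_fn`, `gTC_fn`, `RTC_mono`, `GbC_nest` : functions of the closure, monotone in the base.
* `gc` : **`GC` for the law conditioned on a word which is a function of the closure at the cap `b`** and
  determines the second path at `b` (as 824's `gc_gb`, law-uniform letters); `w2` : 823's `W2`.
* `zw` : joint word of the caps `b0, b0 + s, .., b0 + kk s`; `zw_fn`, `zw_det`.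
* `fin2C`, `gpC`, `prWC` : the hypotheses of helper480's `pSelG` on the closures, prices; `gpC'`, `prWC'` :
  explicit, with 428's `card_ix` and `alp`.
-/

set_option autoImplicit false

namespace Vale.Agent.P106.U.H465.GcK

open Finset Vale.Agent.P127 Vale.Agent.P127.Stk Vale.Agent.P106.U.H449 Vale.Agent.P106.U.StripL
open Vale.Agent.P106.U.StripE Vale.Agent.P106.U.LinkW2 Vale.Agent.P106.U.LSide Vale.Agent.P106.U.LinkR
open Vale.Agent.P106.U.InpC Vale.Agent.P106.U.H823.NumG Vale.Agent.P106.U.GCof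

variable {Ω : Type} [Fintype Ω] {γ ζ₁ ζ₂ : Type} {T : Type*}

/-- the data of the classes for the word `E` -/
noncomputable def dC (m : ℕ) (d0 : Ld) (e : Rl Ω 2 (ℤ × ℤ) γ ζ₁ ζ₂) (P : Law Ω) (n : ℕ) (E : List (Lt 2))
    (A : ℕ) (hm : 3 ≤ m) (hE : Monotone (rR n E)) : H428.Cls.Dt Ω where
  al := alR m d0 e P n E
  RI := rR n E
  s := 0
  B := 2 ^ m
  N := A
  hB8 := by
    calc (8 : ℝ) = 2 ^ 3 := by norm_num
      _ ≤ 2 ^ m := pow_le_pow_right₀ (by norm_num) hm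
  hRI := hE

theorem ex_supp (Q : Law Ω) : ∃ ω, 0 < Q.w ω := by
  by_contra hcon
  push Not at hcon
  have h1 := Q.sum_one
  have h2 : ∑ ω, Q.w ω ≤ 0 := Finset.sum_nonpos fun ω _ => hcon ω
  linarith

/-- the value of word 1 under the law `Q` (at some point of the support) -/
noncomputable def ev (e : Rl Ω 2 (ℤ × ℤ) γ ζ₁ ζ₂) (P : Law Ω) (n : ℕ) (Q : Law Ω) : List (Lt 2) :=
  e.wd P n (ex_supp Q).choose

theorem ev_eq {e : Rl Ω 2 (ℤ × ℤ) γ ζ₁ ζ₂} {P Q : Law Ω} {n : ℕ} {E : List (Lt 2)} {q : ℝ}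
    (h : Cn e P Q n E q) : ev e P n Q = E := h.hE _ (ex_supp Q).choose_spec

section defs

variable (m : ℕ) (d0 : Ld) (e : Rl Ω 2 (ℤ × ℤ) γ ζ₁ ζ₂) (P : Law Ω) (n A : ℕ) (hm : 3 ≤ m) (c : ℝ) (F : ℕ → Ω → T)

open Classical in
/-- **the closure under the law `Q`** -/
noncomputable def GbC (Q : Law Ω) : ℕ → Ω → Set Ω :=
  if h : Monotone (rR n (ev e P n Q)) then ((dC m d0 e P n (ev e P n Q) A hm h).clD c).Gb Q F else fun _ _ => ∅

open Classical in
/-- **the second path** at the base `b`, level `a` -/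
noncomputable def RTC (Q : Law Ω) (b a : ℕ) (ω : Ω) : ℕ :=
  if h : Monotone (rR n (ev e P n Q)) then
    (dC m d0 e P n (ev e P n Q) A hm h).RT (((dC m d0 e P n (ev e P n Q) A hm h).clD c).Rd Q F b ω) a else 0

open Classical in
/-- **the value** of the slope at the base `b`, level `a` -/
noncomputable def gTC (Q : Law Ω) (b a : ℕ) (ω : Ω) : ℝ :=
  if h : Monotone (rR n (ev e P n Q)) then
    (dC m d0 e P n (ev e P n Q) A hm h).gT (((dC m d0 e P n (ev e P n Q) A hm h).clD c).Rd Q F b ω) a ω else 0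

end defs

section main

variable {m : ℕ} {d0 : Ld} {e : Rl Ω 2 (ℤ × ℤ) γ ζ₁ ζ₂} {P : Law Ω} {n A : ℕ} {hm : 3 ≤ m} {c : ℝ} {F : ℕ → Ω → T}
  {Q : Law Ω} {E : List (Lt 2)} {q : ℝ} {t κ : Ω → ℝ}

theorem GbC_eq (h : Cn e P Q n E q) :
    GbC m d0 e P n A hm c F Q = ((dC m d0 e P n E A hm (rR_mono h)).clD c).Gb Q F := by
  have h1 := ev_eq h
  subst h1
  unfold GbC
  rw [dif_pos (rR_mono h)]

theorem RTC_eq (h : Cn e P Q n E q) (b a : ℕ) (ω : Ω) :
    RTC m d0 e P n A hm c F Q b a ω = (dC m d0 e P n E A hm (rR_mono h)).RT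
      (((dC m d0 e P n E A hm (rR_mono h)).clD c).Rd Q F b ω) a := by
  have h1 := ev_eq h
  subst h1
  unfold RTC
  rw [dif_pos (rR_mono h)]

theorem gTC_eq (h : Cn e P Q n E q) (b a : ℕ) (ω : Ω) :
    gTC m d0 e P n A hm c F Q b a ω = (dC m d0 e P n E A hm (rR_mono h)).gT
      (((dC m d0 e P n E A hm (rR_mono h)).clD c).Rd Q F b ω) a ω := by
  have h1 := ev_eq h
  subst h1
  unfold gTC
  rw [dif_pos (rR_mono h)]

/-- the bounds -/
theorem su (h : Cn e P Q n E q) (hL : IsL m d0 t κ e) :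
    (dC m d0 e P n E A hm (rR_mono h)).Su Q where
  bd a ω _ := alR_bd h hL hm a ω
  ag a ω hω := alR_ag h hL hm a ω hω

/-- **428's interface** -/
theorem kw (h : Cn e P Q n E q) (hL : IsL m d0 t κ e) (hc : 0 ≤ c) (b : ℕ) :
    (dC m d0 e P n E A hm (rR_mono h)).Kw Q c (GbC m d0 e P n A hm c F Q b)
      (((dC m d0 e P n E A hm (rR_mono h)).clD c).Rd Q F b) := by
  rw [GbC_eq h]
  exact H428.Cls.Dt.kw_gb (su h hL) hc F b

theorem GbC_nest (h : Cn e P Q n E q) {b b' : ℕ} (hb : b ≤ b') {ω ω' : Ω}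
    (he : GbC m d0 e P n A hm c F Q b' ω' = GbC m d0 e P n A hm c F Q b' ω) :
    GbC m d0 e P n A hm c F Q b ω' = GbC m d0 e P n A hm c F Q b ω := by
  rw [GbC_eq h] at he ⊢
  exact H465.Clo.Dat.gb_nest' hb he

theorem GbC_F (h : Cn e P Q n E q) {b : ℕ} {ω ω' : Ω}
    (he : GbC m d0 e P n A hm c F Q b ω' = GbC m d0 e P n A hm c F Q b ω) : F b ω' = F b ω := by
  rw [GbC_eq h] at he
  exact H465.Clo.Dat.gb_fn he

/-- the second path and the value are functions of the closure -/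
theorem RTC_fn (h : Cn e P Q n E q) (hL : IsL m d0 t κ e) (hc : 0 ≤ c) {b : ℕ} {ω ω' : Ω}
    (he : GbC m d0 e P n A hm c F Q b ω' = GbC m d0 e P n A hm c F Q b ω) (a : ℕ) :
    RTC m d0 e P n A hm c F Q b a ω' = RTC m d0 e P n A hm c F Q b a ω ∧
      gTC m d0 e P n A hm c F Q b a ω' = gTC m d0 e P n A hm c F Q b a ω := by
  rw [RTC_eq h, RTC_eq h, gTC_eq h, gTC_eq h]
  exact (kw h hL hc b).congr he a

/-- the same for an earlier base -/
theorem RTC_fn' (h : Cn e P Q n E q) (hL : IsL m d0 t κ e) (hc : 0 ≤ c) {b b' : ℕ} (hb : b ≤ b') {ω ω' : Ω}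
    (he : GbC m d0 e P n A hm c F Q b' ω' = GbC m d0 e P n A hm c F Q b' ω) (a : ℕ) :
    RTC m d0 e P n A hm c F Q b a ω' = RTC m d0 e P n A hm c F Q b a ω ∧
      gTC m d0 e P n A hm c F Q b a ω' = gTC m d0 e P n A hm c F Q b a ω :=
  RTC_fn h hL hc (GbC_nest h hb he) a

/-- the second path is nondecreasing in the base -/
theorem RTC_mono (h : Cn e P Q n E q) {b b' : ℕ} (hb : b ≤ b') (ω : Ω) (a : ℕ) :
    RTC m d0 e P n A hm c F Q b a ω ≤ RTC m d0 e P n A hm c F Q b' a ω := by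
  rw [RTC_eq h, RTC_eq h]
  exact H428.Cls.Dt.gb_RT_mono F hb ω a

theorem RTC_le (h : Cn e P Q n E q) (b a : ℕ) (ω : Ω) :
    RTC m d0 e P n A hm c F Q b a ω ≤ rR n E a := by
  rw [RTC_eq h]
  exact H428.Cls.Dt.RT_le' _ _

/-- the value is right at every point of the support -/
theorem gTC_spec (h : Cn e P Q n E q) (hL : IsL m d0 t κ e) (b a : ℕ) {ω : Ω} (hω : 0 < Q.w ω) :
    |alR m d0 e P n E a ω - gTC m d0 e P n A hm c F Q b a ω| ≤
      ((2 : ℝ) ^ m) ^ ((a : ℤ) - RTC m d0 e P n A hm c F Q b a ω) := by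
  rw [gTC_eq h, RTC_eq h]
  exact (su h hL).gT_spec _ a hω

/-- **`GC` under the law conditioned on a word** : `w` is a function of the closure at the base `b`, and determines the
second path at `b` -/
theorem gc (h : Cn e P Q n E q) (hL : IsL m d0 t κ e) (hc : 0 ≤ c) {V : Type*} (b : ℕ) (w : Ω → V) (x : V)
    (RC : ℕ → ℕ) (hz : 0 < Q.pr w x) (hw : Fn Q w (GbC m d0 e P n A hm c F Q b))
    (hR : ∀ a ≤ A, ∀ ω, 0 < Q.w ω → w ω = x → RTC m d0 e P n A hm c F Q b a ω = RC a) :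
    GC m d0 e P n E (Q.cond w x) A (GbC m d0 e P n A hm c F Q b) RC (gTC m d0 e P n A hm c F Q b) c 0 := by
  refine gc_of_cond hz hw (RTC m d0 e P n A hm c F Q b) hR (fun a _ ω _ => RTC_le h b a ω)
    (fun a _ ω hω => ?_) (fun a _ ω ω' _ _ he => (RTC_fn h hL hc he a).2) (fun a ha ω _ hlt y => ?_)
  · have h1 := gTC_spec (A := A) (hm := hm) (c := c) (F := F) h hL b a hω
    have h2 : (0 : ℝ) < ((2 : ℝ) ^ m) ^ ((a : ℤ) - RTC m d0 e P n A hm c F Q b a ω) := by positivity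
    linarith
  · have h1 := (kw (A := A) (hm := hm) (F := F) h hL hc b).unk (ω := ω) (a := a) ha (by
      rw [RTC_eq h] at hlt
      exact hlt) y
    rw [RTC_eq h]
    have e1 : (a : ℤ) - ((dC m d0 e P n E A hm (rR_mono h)).RT
        (((dC m d0 e P n E A hm (rR_mono h)).clD c).Rd Q F b ω) a : ℤ) - 1 =
        (a : ℤ) - ((dC m d0 e P n E A hm (rR_mono h)).RT
        (((dC m d0 e P n E A hm (rR_mono h)).clD c).Rd Q F b ω) a + 1) := by ring
    rw [e1]
    exact h1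

/-- 823's `W2` -/
theorem w2 (h : Cn e P Q n E q) (hL : IsL m d0 t κ e) (hc : 0 ≤ c) (b : ℕ) (ω : Ω) :
    W2 (rR n E) (ext (rR n E) (fun a => RTC m d0 e P n A hm c F Q b a ω) A) 0 := by
  have h1 := w2_gb (N := A) (c := c) h hm hL h hc F b ω
  have e1 : (fun a => RTC m d0 e P n A hm c F Q b a ω) = fun a => (dtR h hm d0 A).RT
      (((dtR h hm d0 A).clD c).Rd Q F b ω) a := by
    funext a
    exact RTC_eq h b a ω
  rw [e1]
  exact h1

/-! ### the joint word -/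

variable (m d0 e P n A hm c F) in
/-- joint word of the caps `b0, b0 + s, .., b0 + kk s` -/
noncomputable def zw (s : ℕ) (Q : Law Ω) (b0 kk : ℕ) (ω : Ω) (j a : ℕ) : ℕ :=
  if j ≤ kk ∧ a ≤ A then RTC m d0 e P n A hm c F Q (b0 + j * s) a ω else 0

/-- the joint word is a function of the closure at the last cap -/
theorem zw_fn (h : Cn e P Q n E q) (hL : IsL m d0 t κ e) (hc : 0 ≤ c) {s b0 kk : ℕ} {ω ω' : Ω}
    (he : GbC m d0 e P n A hm c F Q (b0 + kk * s) ω' = GbC m d0 e P n A hm c F Q (b0 + kk * s) ω) :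
    zw m d0 e P n A hm c F s Q b0 kk ω' = zw m d0 e P n A hm c F s Q b0 kk ω := by
  funext j a
  unfold zw
  by_cases hj : j ≤ kk ∧ a ≤ A
  · rw [if_pos hj, if_pos hj]
    exact (RTC_fn' h hL hc (Nat.add_le_add_left (Nat.mul_le_mul_right s hj.1) b0) he a).1
  · rw [if_neg hj, if_neg hj]

/-- the joint word determines the second paths -/
theorem zw_det {s b0 kk : ℕ} {ω ω' : Ω}
    (he : zw m d0 e P n A hm c F s Q b0 kk ω' = zw m d0 e P n A hm c F s Q b0 kk ω) {j a : ℕ} (hj : j ≤ kk)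
    (ha : a ≤ A) : RTC m d0 e P n A hm c F Q (b0 + j * s) a ω' = RTC m d0 e P n A hm c F Q (b0 + j * s) a ω := by
  have h1 := congrFun (congrFun he j) a
  unfold zw at h1
  rw [if_pos ⟨hj, ha⟩, if_pos ⟨hj, ha⟩] at h1
  exact h1

/-! ### the hypotheses of the selection -/

/-- **`Fin2`** of helper480 -/
theorem fin2C {S : Type*} {B : ℕ} {Y : ℕ → Ω → S} (h : Cn e P Q n E q)
    (F1 : ∀ b < B, Fn Q (F (b + 1)) (fun ω => (F b ω, Y b ω)))
    (F2 : ∀ b < B, Fn Q (F b) (F (b + 1))) (F3 : ∀ b < B, Fn Q (Y b) (F (b + 1))) :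
    G480.Fin2 Q B Y F (GbC m d0 e P n A hm c F Q) := by
  rw [GbC_eq h]
  exact H465.Clo.Dat.fin2 F1 F2 F3

/-- **the price of the closures**, `M` = bound of the alphabet, `N1` = bound of the number of classes -/
theorem gpC {S : Type*} {B M N1 : ℕ} {Y : ℕ → Ω → S} (h : Cn e P Q n E q) (hc : 0 ≤ c)
    (hM : ((dC m d0 e P n E A hm (rR_mono h)).clD c).Alp Q M)
    (hN : Fintype.card (dC m d0 e P n E A hm (rR_mono h)).Ix ≤ N1)
    (F1 : ∀ b < B, Fn Q (F (b + 1)) (fun ω => (F b ω, Y b ω)))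
    (F3 : ∀ b < B, Fn Q (Y b) (F (b + 1))) :
    Stk.hc Q (GbC m d0 e P n A hm c F Q 0) (F 0) +
      ∑ b ∈ range B, Stk.hc Q (GbC m d0 e P n A hm c F Q (b + 1))
        (fun ω => (GbC m d0 e P n A hm c F Q b ω, Y b ω)) ≤
      N1 * (Real.log 5 + (2 * Real.sqrt c + c * Real.log M)) := by
  rw [GbC_eq h]
  refine (H465.Clo.Dat.gp hc hM F1 F3).trans ?_
  have h1 : ((dC m d0 e P n E A hm (rR_mono h)).clD c).Bc M =
      Real.log 5 + (2 * Real.sqrt c + c * Real.log M) := by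
    unfold H465.Clo.Dat.Bc H428.Cls.Dt.clD
    norm_num
  rw [h1]
  refine mul_le_mul_of_nonneg_right (by exact_mod_cast hN) ?_
  have h2 : 0 ≤ Real.log (M : ℝ) := Real.log_natCast_nonneg _
  have h3 : 0 ≤ Real.log 5 := Real.log_nonneg (by norm_num)
  positivity

/-- the price of one closure given the past -/
theorem prWC {M N1 : ℕ} (h : Cn e P Q n E q) (hc : 0 ≤ c)
    (hM : ((dC m d0 e P n E A hm (rR_mono h)).clD c).Alp Q M)
    (hN : Fintype.card (dC m d0 e P n E A hm (rR_mono h)).Ix ≤ N1)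
    (hF : ∀ b ω ω', F (b + 1) ω' = F (b + 1) ω → F b ω' = F b ω) (b : ℕ) :
    Stk.hc Q (GbC m d0 e P n A hm c F Q b) (F b) ≤ N1 * (Real.log 5 + (2 * Real.sqrt c + c * Real.log M)) := by
  rw [GbC_eq h]
  refine (H465.Clo.Dat.gp_one hc hM hF b).trans ?_
  have h1 : ((dC m d0 e P n E A hm (rR_mono h)).clD c).Bc M =
      Real.log 5 + (2 * Real.sqrt c + c * Real.log M) := by
    unfold H465.Clo.Dat.Bc H428.Cls.Dt.clD
    norm_num
  rw [h1]
  refine mul_le_mul_of_nonneg_right (by exact_mod_cast hN) ?_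
  have h2 : 0 ≤ Real.log (M : ℝ) := Real.log_natCast_nonneg _
  have h3 : 0 ≤ Real.log 5 := Real.log_nonneg (by norm_num)
  positivity

/-- alphabet and number of classes -/
theorem alpC (h : Cn e P Q n E q) (hL : IsL m d0 t κ e) :
    ((dC m d0 e P n E A hm (rR_mono h)).clD c).Alp Q (2 ^ (m + 1)) ∧
      Fintype.card (dC m d0 e P n E A hm (rR_mono h)).Ix ≤ 3 * A + rR n E A + 1 := by
  refine ⟨H428.Cls.Dt.alp (su h hL) ?_, H428.Cls.Dt.card_ix _⟩
  show 2 * (2 : ℝ) ^ m ≤ ((2 ^ (m + 1) : ℕ) : ℝ)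
  push_cast
  rw [pow_succ]
  linarith

/-- **the price of the closures**, explicit -/
theorem gpC' {S : Type*} {B : ℕ} {Y : ℕ → Ω → S} (h : Cn e P Q n E q) (hL : IsL m d0 t κ e) (hc : 0 ≤ c)
    (F1 : ∀ b < B, Fn Q (F (b + 1)) (fun ω => (F b ω, Y b ω)))
    (F3 : ∀ b < B, Fn Q (Y b) (F (b + 1))) :
    Stk.hc Q (GbC m d0 e P n A hm c F Q 0) (F 0) +
      ∑ b ∈ range B, Stk.hc Q (GbC m d0 e P n A hm c F Q (b + 1))
        (fun ω => (GbC m d0 e P n A hm c F Q b ω, Y b ω)) ≤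
      (3 * A + rR n E A + 1 : ℕ) * (Real.log 5 + (2 * Real.sqrt c + c * ((m + 1) * Real.log 2))) := by
  obtain ⟨h1, h2⟩ := alpC (A := A) (hm := hm) (c := c) h hL
  have h3 := gpC (F := F) h hc h1 h2 F1 F3
  have e1 : Real.log ((2 ^ (m + 1) : ℕ) : ℝ) = (m + 1) * Real.log 2 := by
    push_cast
    rw [Real.log_pow]
    push_cast
    ring
  rwa [e1] at h3

/-- the price of one closure given the past, explicit -/
theorem prWC' (h : Cn e P Q n E q) (hL : IsL m d0 t κ e) (hc : 0 ≤ c)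
    (hF : ∀ b ω ω', F (b + 1) ω' = F (b + 1) ω → F b ω' = F b ω) (b : ℕ) :
    Stk.hc Q (GbC m d0 e P n A hm c F Q b) (F b) ≤
      (3 * A + rR n E A + 1 : ℕ) * (Real.log 5 + (2 * Real.sqrt c + c * ((m + 1) * Real.log 2))) := by
  obtain ⟨h1, h2⟩ := alpC (A := A) (hm := hm) (c := c) h hL
  have h3 := prWC (F := F) h hc h1 h2 hF b
  have e1 : Real.log ((2 ^ (m + 1) : ℕ) : ℝ) = (m + 1) * Real.log 2 := by
    push_cast
    rw [Real.log_pow]
    push_cast
    ring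
  rwa [e1] at h3

end main

end Vale.Agent.P106.U.H465.GcK
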