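import Vale.Agent.P106.U.H465.MeetC

/-!
# P106 / U / H465 : `PMeet`
-/

set_option autoImplicit false

namespace Vale.Agent.P106.U.H465

open Vale.Agent.P127 Vale.Agent.P127.Stk Vale.Agent.P127.U Vale.Agent.P106.W Vale.Agent.P106.K
open Vale.Agent.P106.U.H428 (G0 G1 nv nv_sub G0_eq G1_eq nv_sq cn ze bin_nr bin_g0 bin_g1 kap_le Nr)
open Vale.Agent.P106.U.Cov5 (nn sp ow tau sig Del KK Dp Sb prod_le cov5)

theorem div_eq' (b : ℕ) (x y σ : ℝ) {u : ℝ} (hu : u = (1 / 2 : ℝ) ^ b) :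
    |x / 2 ^ b - σ * (y / 2 ^ b)| = |x - σ * y| * u := by
  have h2 : (0 : ℝ) < 2 ^ b := by positivity
  have e : x / 2 ^ b - σ * (y / 2 ^ b) = (x - σ * y) / 2 ^ b := by ring
  rw [e, abs_div, abs_of_pos h2, hu, div_pow, one_pow]
  ring

theorem ag_of_agr {c δ : ℝ} {b R : ℕ} {B B' : Cbx} {l : Ry} (hB : Shp c b R B) (h : Agr δ B B' l) :
    ∃ σ, Ag δ σ b B B' l := by
  obtain ⟨σ, hσ, h1, h2, h3⟩ := h
  refine ⟨σ, hσ, fun k => ?_, ?_, ?_⟩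
  · have := h1 k
    rw [H428.nrm_eq, H428.nrm_eq] at this
    exact this
  · rw [div_eq' b _ _ σ hB.u2]
    exact h2
  · rw [div_eq' b _ _ σ hB.u2]
    exact h3

theorem agr_of_ag {c δ σ : ℝ} {b R : ℕ} {B B' : Cbx} {l : Ry} (hB : Shp c b R B) (h : Ag δ σ b B B' l) :
    Agr δ B B' l := by
  obtain ⟨hσ, h1, h2, h3⟩ := h
  refine ⟨σ, hσ, fun k => ?_, ?_, ?_⟩
  · rw [H428.nrm_eq, H428.nrm_eq]
    exact h1 k
  · rw [div_eq' b _ _ σ hB.u2] at h2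
    exact h2
  · rw [div_eq' b _ _ σ hB.u2] at h3
    exact h3

theorem Ag.mono {E E' σ : ℝ} {b : ℕ} {B B' : Cbx} {l : Ry} (h : Ag E σ b B B' l) (hE : E ≤ E') : Ag E' σ b B B' l :=
  ⟨h.sg, fun k => (h.n k).trans hE, h.κ.trans hE, h.α.trans hE⟩

/-- the frames always agree up to `8 c²` -/
theorem ag_triv {c : ℝ} (hc : 1 ≤ c) {b R : ℕ} (hbR : b ≤ R) {B B' : Cbx} {l : Ry} (hB : Shp c b R B) (hB' : Shp c b R B')
    (h : Bin c B 0 l) (h' : Bin c B' 0 l) : Ag (8 * c ^ 2) 1 b B B' l := by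
  have hcc : c ≤ c ^ 2 := by nlinarith
  have hw : (1 / 2 : ℝ) ^ (R - b) ≤ 1 := pow_le_one₀ (by norm_num) (by norm_num)
  have hc2 : 1 ≤ c ^ 2 := one_le_pow₀ hc
  have gen : ∀ A : Cbx, Shp c b R A → Bin c A 0 l → ∀ k, |nv A l k| ≤ 3 * c := by
    intro A hA hl k
    have h1 := nv_near hbR hA hl
    have h2 : 6 * c ^ 2 * (1 / 2 : ℝ) ^ (R - b) ≤ 6 * c ^ 2 := mul_le_of_le_one_right (by positivity) hw
    rw [abs_le] at h1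
    have h3 : nv A l 0 ^ 2 + nv A l 1 ^ 2 ≤ (3 * c) ^ 2 := by nlinarith [h1.2]
    apply abs_le_of_sq_le_sq _ (by linarith)
    fin_cases k
    · simp only [Fin.zero_eta]
      nlinarith [sq_nonneg (nv A l 1)]
    · simp only [Fin.mk_one]
      nlinarith [sq_nonneg (nv A l 0)]
  obtain ⟨k1, k2⟩ := hf_bd hB (cn B)
  obtain ⟨k3, k4⟩ := hf_bd hB' (cn B)
  simp only [hf] at k1 k2 k3 k4
  refine ⟨Or.inl rfl, fun k => ?_, ?_, ?_⟩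
  · rw [one_mul]
    have := abs_sub (nv B' l k) (nv B l k)
    linarith [gen B hB h k, gen B' hB' h' k]
  · rw [one_mul]
    have := abs_sub (B'.κ / 2 ^ b) (B.κ / 2 ^ b)
    linarith
  · rw [one_mul]
    have := abs_sub (B'.α / 2 ^ b) (B.α / 2 ^ b)
    linarith

theorem m_le {T m ρ h0 h1 : ℝ} {f g : Cov5.Fu} (hT : 1 ≤ T) (hρ : ρ ≤ 1) (hm : m ^ 2 = max (Del f g h0 h1) ρ)
    (h : |sig g h0 h1| ≤ T) : m ≤ T := by
  have h2 : m ^ 2 ≤ T ^ 2 := by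
    rw [hm]
    have hTT : T ≤ T ^ 2 := by
      calc T = T ^ 1 := (pow_one T).symm
        _ ≤ T ^ 2 := pow_le_pow_right₀ hT (by norm_num)
    refine max_le ?_ ((hρ.trans hT).trans hTT)
    unfold Del
    have := (abs_le.1 h).2
    linarith [sq_nonneg (tau f g h0 h1)]
  exact (abs_le_of_sq_le_sq' h2 (by linarith)).2

/-- the boxes from the cells -/
theorem meet_fin {c : ℝ} (hc : 1 ≤ c) {b R X p K N : ℕ} (hbR : b ≤ R) (hX : X ≤ R - b) (hpX : p ≤ X) {B B' : Cbx}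
    (hB : Shp c b R B) (hw : 6 * c ^ 2 * (1 / 2 : ℝ) ^ (R - b) ≤ 3 / 4) (hp3 : (1 / 2 : ℝ) ^ (2 * p) ≤ 2 ^ K * (1 / 2 : ℝ) ^ X)
    (U : Finset ((Fin 2 → ℤ) × (Fin 2 → ℤ) × ℤ)) (hU : (U.card : ℝ) ≤ N * (1 / 2 : ℝ) ^ X * 2 ^ (3 * p))
    (hcov : ∀ l, Bin c B 0 l → Bin c B' 0 l → pl p (zm b (cn B) l) ∈ U) :
    ∃ n : ℕ, b + p ≤ R ∧ X ≤ 2 * p + K ∧ p ≤ X ∧ (n : ℝ) * 2 ^ X ≤ N * 2 ^ (3 * p) ∧
      ∃ M : Fin n → Cbx, (∀ i, Shp (4 * c) (b + p) R (M i)) ∧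
        ∀ l, Bin c B 0 l → Bin c B' 0 l → ∃ i, Bin (4 * c) (M i) 0 l := by
  classical
  have h2X : (2:ℝ) ^ X * (1 / 2 : ℝ) ^ X = 1 := by rw [← mul_pow]; norm_num
  have hbox : ∀ u : (Fin 2 → ℤ) × (Fin 2 → ℤ) × ℤ, ∃ A : Cbx, Shp (4 * c) (b + p) R A ∧
      ∀ l, Bin c B 0 l → pl p (zm b (cn B) l) = u → Bin (4 * c) A 0 l := by
    intro u
    by_cases h : ∃ o, Bin c B 0 o ∧ pl p (zm b (cn B) o) = u
    · obtain ⟨o, ho, hou⟩ := h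
      obtain ⟨b1, b2⟩ := cell_box hc hbR hB ho hw p
      exact ⟨_, b1, fun l hl hlu => b2 l hl (hlu.trans hou.symm)⟩
    · refine ⟨⟨0, (1 / 2) ^ R, (1 / 2) ^ (b + p), 0, 0, fun _ => 0, fun _ => 0, 0⟩, ⟨rfl, rfl, ?_, ?_⟩,
        fun l hl hlu => absurd ⟨l, hl, hlu⟩ h⟩
      · simp only [abs_zero, zero_mul]; linarith
      · simp only [abs_zero, zero_mul]; linarith
  choose A hA1 hA2 using hbox
  refine ⟨U.card, by omega, ?_, hpX, ?_, fun i => A (U.equivFin.symm i), fun i => hA1 _, fun l hl hl' => ?_⟩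
  · have h2 : (2:ℝ) ^ X ≤ 2 ^ (K + 2 * p) := by
      have h3 : (2:ℝ) ^ (2 * p) * (1 / 2 : ℝ) ^ (2 * p) = 1 := by rw [← mul_pow]; norm_num
      calc (2:ℝ) ^ X = 2 ^ X * ((2:ℝ) ^ (2 * p) * (1 / 2 : ℝ) ^ (2 * p)) := by rw [h3, mul_one]
        _ ≤ 2 ^ X * ((2:ℝ) ^ (2 * p) * (2 ^ K * (1 / 2 : ℝ) ^ X)) := by gcongr
        _ = 2 ^ (K + 2 * p) * (2 ^ X * (1 / 2 : ℝ) ^ X) := by rw [pow_add]; ring
        _ = 2 ^ (K + 2 * p) := by rw [h2X, mul_one]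
    have h4 : X ≤ K + 2 * p := (pow_le_pow_iff_right₀ (by norm_num : (1:ℝ) < 2)).1 h2
    omega
  · calc (U.card : ℝ) * 2 ^ X ≤ (N * (1 / 2 : ℝ) ^ X * 2 ^ (3 * p)) * 2 ^ X := mul_le_mul_of_nonneg_right hU (by positivity)
      _ = N * 2 ^ (3 * p) * (2 ^ X * (1 / 2 : ℝ) ^ X) := by ring
      _ = N * 2 ^ (3 * p) := by rw [h2X, mul_one]
  · have hm := hcov l hl hl'
    refine ⟨U.equivFin ⟨_, hm⟩, ?_⟩
    show Bin (4 * c) (A ↑(U.equivFin.symm (U.equivFin ⟨_, hm⟩))) 0 l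
    rw [Equiv.symm_apply_apply]
    exact hA2 _ l hl rfl

/-- the relative sign and the nondegeneracy at the level `X` -/
theorem meet_sgn {c : ℝ} (hc : 1 ≤ c) {b R X : ℕ} (hbR : b ≤ R) (hX : X ≤ R - b) (hX0 : X ≠ 0) {B B' : Cbx} {l0 : Ry}
    (hB : Shp c b R B) (hB' : Shp c b R B') (h0 : Bin c B 0 l0) (h0' : Bin c B' 0 l0)
    (hag : Agr (2 ^ X * (1 / 2) ^ (R - b)) B B' l0 ∨ X = R - b)
    (hnag : X = 0 ∨ ¬ Agr (2 ^ (X - 1) * (1 / 2) ^ (R - b)) B B' l0) :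
    ∃ η : ℝ, 0 < η ∧ η ≤ 1 ∧ (1 / 2 : ℝ) ^ (R - b) = η * (1 / 2 : ℝ) ^ X ∧
      (∃ σ, Ag (8 * c ^ 2 * η) σ b B B' l0) ∧ ∀ σ', ¬ Ag (η / 2) σ' b B B' l0 := by
  have h2X : (2:ℝ) ^ X * (1 / 2 : ℝ) ^ X = 1 := by rw [← mul_pow]; norm_num
  have hη : (0:ℝ) < 2 ^ X * (1 / 2) ^ (R - b) := by positivity
  refine ⟨2 ^ X * (1 / 2) ^ (R - b), hη, ?_, ?_, ?_, ?_⟩
  · have h1 : (1 / 2 : ℝ) ^ (R - b) ≤ (1 / 2 : ℝ) ^ X := pow_le_pow_of_le_one (by norm_num) (by norm_num) hX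
    calc (2:ℝ) ^ X * (1 / 2) ^ (R - b) ≤ 2 ^ X * (1 / 2 : ℝ) ^ X := mul_le_mul_of_nonneg_left h1 (by positivity)
      _ = 1 := h2X
  · calc (1 / 2 : ℝ) ^ (R - b) = (1 / 2 : ℝ) ^ (R - b) * ((2:ℝ) ^ X * (1 / 2 : ℝ) ^ X) := by rw [h2X, mul_one]
      _ = _ := by ring
  · rcases hag with h | h
    · obtain ⟨σ, hσ⟩ := ag_of_agr hB h
      refine ⟨σ, hσ.mono ?_⟩
      have : (1:ℝ) ≤ 8 * c ^ 2 := by nlinarith
      exact le_mul_of_one_le_left hη.le this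
    · have hη' : (2:ℝ) ^ X * (1 / 2) ^ (R - b) = 1 := by
        rw [← h]
        exact h2X
      rw [hη', mul_one]
      exact ⟨1, ag_triv hc hbR hB hB' h0 h0'⟩
  · intro σ' hσ'
    have h1 := agr_of_ag hB hσ'
    rcases hnag with h | h
    · exact hX0 h
    · apply h
      have e : 2 ^ (X - 1) * (1 / 2 : ℝ) ^ (R - b) = 2 ^ X * (1 / 2) ^ (R - b) / 2 := by
        obtain ⟨q, hq⟩ := Nat.exists_eq_add_of_lt (Nat.pos_of_ne_zero hX0)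
        rw [hq]
        simp only [Nat.zero_add, Nat.add_sub_cancel]
        rw [pow_succ]
        ring
      rw [e]
      exact h1

/-- the covering with the choice of `p` -/
theorem meet_main {c T c0 Cc : ℝ} (hc : 1 ≤ c) (hTd : T = 9000 * c ^ 6) (hc0 : 0 < c0) (hc01 : c0 ≤ 1)
    (hc0' : c0 * (200 * (9000 * c ^ 6) ^ 4) ≤ 1)
    (hcov : ∀ (f g : Cov5.Fu) (h0 h1 ρ m : ℝ) (p : ℕ), Dp (2 * T) c0 (200 * c ^ 4) ρ f g h0 h1 ((1 / 2 : ℝ) ^ p) m →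
      (c0 ≤ m ∨ c0 ≤ |g.κ - tau f g h0 h1 * f.κ| ∨ c0 ≤ |g.α - tau f g h0 h1 * f.α|) →
      ∃ U : Finset ((Fin 2 → ℤ) × (Fin 2 → ℤ) × ℤ), (U.card : ℝ) ≤ Cc * ρ * 2 ^ (3 * p) ∧
        ∀ l ∈ KK (200 * c ^ 4) ρ f g h0 h1, pl p l ∈ U)
    {b R X : ℕ} (hbR : b ≤ R) {B B' : Cbx} {l0 : Ry}
    (hB : Shp c b R B) (hB' : Shp c b R B') (h0 : Bin c B 0 l0) (h0' : Bin c B' 0 l0)
    {η ρ σ : ℝ} (hη : 0 < η) (hη1 : η ≤ 1) (hρd : ρ = (1 / 2 : ℝ) ^ X) (hw : (1 / 2 : ℝ) ^ (R - b) = η * ρ)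
    (ha : Ag (8 * c ^ 2 * η) σ b B B' l0) (hnot : ∀ σ', ¬ Ag (η / 2) σ' b B B' l0)
    (g1 : 12 * (200 * c ^ 4) ^ 2 * ρ ≤ 1) (g2 : 1600 * (200 * c ^ 4) ^ 6 * ρ ≤ c0 ^ 2) (g3 : T ^ 2 * ρ < 1) :
    ∃ p : ℕ, p ≤ X ∧ (1 / 2 : ℝ) ^ (2 * p) ≤ T ^ 2 * ρ ∧
      ∃ U : Finset ((Fin 2 → ℤ) × (Fin 2 → ℤ) × ℤ), (U.card : ℝ) ≤ Cc * ρ * 2 ^ (3 * p) ∧
        ∀ l, Bin c B 0 l → Bin c B' 0 l → pl p (zm b (cn B) l) ∈ U := by
  have p6 : (1:ℝ) ≤ c ^ 6 := one_le_pow₀ hc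
  have hT : 1 ≤ T := by rw [hTd]; linarith
  have hρ0 : 0 < ρ := by rw [hρd]; positivity
  have hρ1 : ρ ≤ 1 := by rw [hρd]; exact pow_le_one₀ (by norm_num) (by norm_num)
  obtain ⟨m, hm0, hm2⟩ : ∃ m : ℝ, 0 ≤ m ∧
      m ^ 2 = max (Del (hf b B (cn B)) (gg b σ η B B') (of0 b η B B') (of1 b η B B')) ρ :=
    ⟨Real.sqrt _, Real.sqrt_nonneg _, Real.sq_sqrt (hρ0.le.trans (le_max_right _ _))⟩
  have hmρ : ρ ≤ m ^ 2 := by rw [hm2]; exact le_max_right _ _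
  obtain ⟨t1, t2⟩ := tau_bd hc hbR hB hB' hη hρ1 hw h0 h0' ha
  have hmT : m ≤ T := m_le hT hρ1 hm2 (by rw [hTd]; exact t2)
  obtain ⟨p, hpX, hp1, hp2, hp3⟩ := pick hT hm0 hmT hρd hmρ g3
  have SB := sb hc hbR hB hB' hη hρ0 hρ1 hw h0 h0' ha g1
  have hnd := ndeg hc hbR hB hB' hη hη1 hρ0 hρ1 hw h0 h0' ha g1 hnot hc0 hc0' g2 hm0 hm2
  have hpm : 0 ≤ (1 / 2 : ℝ) ^ p * m := by positivity
  have hTρ : T * ρ ≤ 2 * T * ρ := by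
    have : 0 ≤ T * ρ := by positivity
    linarith
  have hlo : ρ ≤ 2 * T * ((1 / 2 : ℝ) ^ p * m) := by
    have : (1 / 2 : ℝ) ^ p * m ≤ T * ((1 / 2 : ℝ) ^ p * m) := le_mul_of_one_le_left hpm hT
    linarith
  have hdp : Dp (2 * T) c0 (200 * c ^ 4) ρ (hf b B (cn B)) (gg b σ η B B') (of0 b η B B') (of1 b η B B')
      ((1 / 2 : ℝ) ^ p) m :=
    { SB with
      A1 := by linarith
      c0p := hc0
      c01 := hc01
      h0p := by positivity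
      h1p := pow_le_one₀ (by norm_num) (by norm_num)
      m0 := hm0
      m2 := hm2
      up := hp1.trans hTρ
      lo := hlo
      ρc := g2 }
  obtain ⟨U, hU, hcovU⟩ := hcov _ _ _ _ _ _ _ hdp hnd
  exact ⟨p, hpX, hp3, U, hU, fun l hl hl' => hcovU _ (kk hc hbR hB hB' hη hη1 hρ0 hw ha.abs hl hl')⟩

/-- **[MEET]** -/
theorem pMeet : PMeet := by
  classical
  intro c hc
  obtain ⟨T, hTd⟩ : ∃ T : ℝ, T = 9000 * c ^ 6 := ⟨_, rfl⟩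
  have p6 : (1:ℝ) ≤ c ^ 6 := one_le_pow₀ hc
  have hT : 1 ≤ T := by rw [hTd]; linarith
  have hT4 : (1:ℝ) ≤ T ^ 4 := one_le_pow₀ hT
  obtain ⟨c0, hc0d⟩ : ∃ c0 : ℝ, c0 = 1 / (200 * T ^ 4) := ⟨_, rfl⟩
  have hc0 : 0 < c0 := by rw [hc0d]; positivity
  have hc0' : c0 * (200 * (9000 * c ^ 6) ^ 4) ≤ 1 := by
    rw [← hTd, hc0d, one_div, inv_mul_cancel₀ (by positivity)]
  have hc01 : c0 ≤ 1 := by
    rw [hc0d, div_le_one (by positivity)]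
    linarith
  obtain ⟨Cc, hCc0, hcov⟩ := cov5 (2 * T) (200 * c ^ 4) c0
  obtain ⟨K, hK⟩ := pow_unbounded_of_one_lt (T ^ 2) (one_lt_two : (1:ℝ) < 2)
  obtain ⟨Ma, hMa⟩ : ∃ x : ℝ, x = 12 * (200 * c ^ 4) ^ 2 := ⟨_, rfl⟩
  obtain ⟨Mb, hMb⟩ : ∃ x : ℝ, x = 1600 * (200 * c ^ 4) ^ 6 := ⟨_, rfl⟩
  have hMa0 : 0 ≤ Ma := by rw [hMa]; positivity
  have hMb0 : 0 ≤ Mb := by rw [hMb]; positivity
  have hMc0 : 0 ≤ T ^ 2 := by positivity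
  have hMd0 : 0 ≤ 8 * c ^ 2 := by positivity
  have hMe0 : 0 ≤ Mb / c0 ^ 2 := by positivity
  obtain ⟨M, hM⟩ : ∃ M : ℝ, M = Ma + Mb / c0 ^ 2 + T ^ 2 + 8 * c ^ 2 + 1 := ⟨_, rfl⟩
  have hM0 : 0 < M := by rw [hM]; positivity
  obtain ⟨Xc, hXc⟩ := exists_pow_lt_of_lt_one (one_div_pos.2 hM0) (by norm_num : (1 / 2 : ℝ) < 1)
  obtain ⟨N, hN⟩ : ∃ N : ℕ, N = max (max K ⌈Cc⌉₊) (2 ^ Xc + Xc) := ⟨_, rfl⟩
  have hNK : K ≤ N := by rw [hN]; exact le_max_of_le_left (le_max_left _ _)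
  have hNC : Cc ≤ (N : ℝ) := by
    refine (Nat.le_ceil Cc).trans ?_
    rw [hN]
    exact_mod_cast le_max_of_le_left (le_max_right _ _)
  have hNX : 2 ^ Xc + Xc ≤ N := by rw [hN]; exact le_max_right _ _
  refine ⟨4 * c, N, by linarith, ?_⟩
  intro b R X B B' l0 hbR hX hB hB' h0 h0' hag hnag
  have hu1 : 0 ≤ B.u1 := by rw [hB.u1]; positivity
  have hu2 : 0 ≤ B.u2 := by rw [hB.u2]; positivity
  rcases le_or_gt X Xc with hle | hgt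
  · -- few common digits
    refine ⟨0, 1, by simpa using hbR, ?_, Nat.zero_le _, ?_, fun _ => B, fun _ => ?_, fun l hl _ => ⟨0, ?_⟩⟩
    · have : Xc ≤ N := (Nat.le_add_left _ _).trans hNX
      omega
    · have h1 : (2:ℝ) ^ X ≤ 2 ^ Xc := pow_le_pow_right₀ (by norm_num) hle
      have h2 : ((2 ^ Xc + Xc : ℕ) : ℝ) ≤ (N : ℝ) := by exact_mod_cast hNX
      push_cast at h2 ⊢
      rw [pow_zero, mul_one, one_mul]
      have h3 : (0:ℝ) ≤ Xc := Nat.cast_nonneg _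
      linarith
    · exact ⟨by simpa using hB.u2, hB.u1, hB.α2.trans (by linarith), hB.κ2.trans (by linarith)⟩
    · exact bin_mono (by linarith) hu1 hu2 hl
  · -- main case
    obtain ⟨η, hη, hη1, hw, ⟨σ, ha⟩, hnot⟩ := meet_sgn hc hbR hX (by omega) hB hB' h0 h0' hag hnag
    obtain ⟨ρ, hρd⟩ : ∃ ρ : ℝ, ρ = (1 / 2 : ℝ) ^ X := ⟨_, rfl⟩
    have hρ0 : 0 < ρ := by rw [hρd]; positivity
    rw [← hρd] at hw
    have hρM : ρ * M < 1 := by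
      have h1 : ρ ≤ (1 / 2 : ℝ) ^ Xc := by rw [hρd]; exact pow_le_pow_of_le_one (by norm_num) (by norm_num) hgt.le
      have h2 : ρ < 1 / M := lt_of_le_of_lt h1 hXc
      rwa [lt_div_iff₀ hM0] at h2
    have hgen : ∀ x : ℝ, x ≤ M → x * ρ < 1 := fun x hx => by
      have : x * ρ ≤ M * ρ := mul_le_mul_of_nonneg_right hx hρ0.le
      linarith
    have g1 : 12 * (200 * c ^ 4) ^ 2 * ρ ≤ 1 := by
      rw [← hMa]
      exact (hgen Ma (by linarith)).le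
    have g2 : 1600 * (200 * c ^ 4) ^ 6 * ρ ≤ c0 ^ 2 := by
      rw [← hMb]
      have h1 := hgen (Mb / c0 ^ 2) (by linarith)
      rw [div_mul_eq_mul_div, div_lt_one (by positivity)] at h1
      exact h1.le
    have g3 : T ^ 2 * ρ < 1 := hgen _ (by linarith)
    have g4 : 6 * c ^ 2 * (1 / 2 : ℝ) ^ (R - b) ≤ 3 / 4 := by
      have h1 : (1 / 2 : ℝ) ^ (R - b) ≤ ρ := by rw [hw]; exact mul_le_of_le_one_left hρ0.le hη1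
      have h2 := hgen (8 * c ^ 2) (by linarith)
      have h3 : 6 * c ^ 2 * (1 / 2 : ℝ) ^ (R - b) ≤ 6 * c ^ 2 * ρ := mul_le_mul_of_nonneg_left h1 (by positivity)
      linarith
    obtain ⟨p, hpX, hp3, U, hU, hcovU⟩ := meet_main hc hTd hc0 hc01 hc0' hcov hbR hB hB' h0 h0' hη hη1 hρd hw ha hnot
      g1 g2 g3
    have h3K : (1 / 2 : ℝ) ^ (2 * p) ≤ 2 ^ K * (1 / 2 : ℝ) ^ X := by
      refine hp3.trans ?_
      rw [hρd]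
      exact mul_le_mul_of_nonneg_right hK.le (by positivity)
    have hU' : (U.card : ℝ) ≤ N * (1 / 2 : ℝ) ^ X * 2 ^ (3 * p) := by
      refine hU.trans ?_
      rw [hρd]
      exact mul_le_mul_of_nonneg_right (mul_le_mul_of_nonneg_right hNC (by positivity)) (by positivity)
    obtain ⟨n, n1, n2, n3, n4, A, hA1, hA2⟩ := meet_fin hc hbR hX hpX hB g4 h3K U hU' hcovU
    exact ⟨p, n, n1, by omega, n3, n4, A, hA1, hA2⟩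

end Vale.Agent.P106.U.H465
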