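import Vale.Agent.P106.U.H465.SubProps
import Vale.Agent.P106.U.H118.Rise

/-!
# P106 / U / H465 : THEOREM SUB (Shannon form) and the K-BOUND, exact Props

* `two P Z` (helper118) : two copies of the law, independent given `Z = (l, t_0, C)`.
* `PSubT` : `val J + val M ≥ 2 val W + (3/2) lam E X - 3 H(X) - K` for the join and the meet of the two copies of a label `W` of
  level `0` and of deterministic shape `(b, R)`.
* `PKb` : if two copies are related with probability `≥ 1 - ρ`, and `G` takes at most `N` values on the `ω` related to a given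
  `ω'`, then `G` is one of `N` values which depend only on `Z`, with probability `≥ 1 - ρ`.
-/

set_option autoImplicit false

namespace Vale.Agent.P106.U

open Vale.Agent.P127 Vale.Agent.P127.Stk Vale.Agent.P127.U Vale.Agent.P106.W Vale.Agent.P106.K
open Vale.Agent.P106.U.H118 (two)

/-- the letter of the copies -/
noncomputable def zl {Ω γ : Type} (l : Ω → Ry) (t : Ω → ℝ) (C : Ω → γ) : Ω → Ry × ℤ × γ := fun ω => (l ω, fl1 0 (t ω), C ω)

/-- **[SUB]** -/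
def PSubT : Prop :=
  ∀ c lam : ℝ, 1 ≤ c → 0 ≤ lam → lam ≤ 1 → ∃ c' K : ℝ, 1 ≤ c' ∧ 0 ≤ K ∧
    ∀ (Ω : Type) [Fintype Ω] (γ : Type) (P : Law Ω) (l : Ω → Ry) (t : Ω → ℝ) (C : Ω → γ) (L b R : ℕ) (W : Ω → Cbx),
      b ≤ R → SyOk P l t →
      (∀ ω, 0 < P.w ω → LbOk c L 0 (W ω) (l ω) (t ω) ∧ (W ω).u2 = (1 / 2 : ℝ) ^ b ∧ (W ω).u1 = (1 / 2 : ℝ) ^ R) →
      ∃ (X p : Law.GT (zl l t C) (zl l t C) → ℕ) (J M : Law.GT (zl l t C) (zl l t C) → Cbx),
        (∀ x, 0 < (two P (zl l t C)).w x → X x ≤ R - b ∧ (X x : ℝ) ≤ 2 * p x + K ∧ p x ≤ X x ∧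
          (Agr (K * (2 ^ X x * (1 / 2) ^ (R - b))) (W x.fst) (W x.snd) (bl 0 (l x.fst) (t x.fst)) ∨ X x = R - b) ∧
          LbOk c' L 0 (J x) (l x.fst) (t x.fst) ∧ (J x).u2 = (1 / 2 : ℝ) ^ b ∧ (J x).u1 = (1 / 2 : ℝ) ^ (R - X x) ∧
          LbOk c' L 0 (M x) (l x.fst) (t x.fst) ∧ (M x).u2 = (1 / 2 : ℝ) ^ (b + p x) ∧ (M x).u1 = (1 / 2 : ℝ) ^ R) ∧
        2 * val lam P l t C 0 W + 3 / 2 * lam * Real.log 2 * (two P (zl l t C)).ex (fun x => (X x : ℝ)) -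
            3 * Stk.hc (two P (zl l t C)) X (fun _ => ()) - K ≤
          val lam (two P (zl l t C)) (fun x => l x.fst) (fun x => t x.fst) (fun x => C x.fst) 0 J +
          val lam (two P (zl l t C)) (fun x => l x.fst) (fun x => t x.fst) (fun x => C x.fst) 0 M

open Classical in
/-- **[K-BOUND]** -/
def PKb : Prop :=
  ∀ (Ω : Type) [Fintype Ω] (ζ β : Type) (P : Law Ω) (Z : Ω → ζ) (G : Ω → β) (Rel : Ω → Ω → Prop) (N : ℕ) (ρ : ℝ),
    (two P Z).ex (fun x => if Rel x.fst x.snd then 0 else 1) ≤ ρ →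
    (∀ ω', 0 < P.w ω' → ∃ S : Finset β, S.card ≤ N ∧ ∀ ω, 0 < P.w ω → Z ω = Z ω' → Rel ω ω' → G ω ∈ S) →
    ∃ S : ζ → Finset β, (∀ z, (S z).card ≤ N) ∧ P.ex (fun ω => if G ω ∈ S (Z ω) then 0 else 1) ≤ ρ

end Vale.Agent.P106.U
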