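import Vale.Agent.P127.S.StepEx
import Vale.Agent.P106.U.H118.RiseC

/-!
# P106 / U / H465 : closure by true prefixes (helper465)

Abstract form of `[CLO]` (type (ii) repair, note 19650 of helper776).  `P` is a law on a finite
type, `A x`, `x : ι`, are integer valued variables (classes), `pa x` is the parent of the class `x`,
`Y b` are nested letters.  A class is *known* for a letter `G` at `ω` if `A x` is constant on the
atom of `G`, *revealed* if it and all its ancestors are known; it is *cheap* if some `g` has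
`P(|A x - g| ≤ r | G) ≥ 1 - c`.  In a round the exact values of all cheap classes with a revealed
parent are added to `G`; `clo` are `card ι + 1` rounds;
`Gb 0 = clo (Y 0)`, `Gb (b+1) = clo (Gb b, Y (b+1))`.

* `gb_nest`, `gb_fn` : `Gb b` and `Y b` are functions of `Gb (b+1)`, `Gb b`.
* `rd_kn`, `rd_pa`, `rd_congr`, `rd_mono` : the revealed set `Rd b`.
* `gb_atom` : the atoms of `Gb b` are given by `Y b` and the values of the revealed classes.
* `gb_cl`, `gb_unk`, `rd_unk` : a class with revealed parent is revealed or has no atom (up to `r`)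
  of mass `1 - c`.
* `gb_ex` : the same for averages.
* `gb_price`, `gb_prW`, `gb_act` : the price of all the rounds is at most `card ι * cost`.
-/

set_option autoImplicit false
set_option linter.unusedSectionVars false

namespace Vale.Agent.P106.U.H465.Clo

open Finset Vale.Agent.P127 Vale.Agent.P127.Stk

/-- the atom of the letter `X` at `ω` -/
def atm {Ω : Type} {S : Type*} (X : Ω → S) (ω : Ω) : Set Ω := {ω' | X ω' = X ω}

section atm

variable {Ω : Type} {S T : Type*}

lemma mem_atm {X : Ω → S} {ω ω' : Ω} : ω' ∈ atm X ω ↔ X ω' = X ω := Iff.rfl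

lemma self_atm (X : Ω → S) (ω : Ω) : ω ∈ atm X ω := rfl

lemma atm_eq {X : Ω → S} {ω ω' : Ω} : atm X ω' = atm X ω ↔ X ω' = X ω := by
  constructor
  · intro h
    have h1 : ω' ∈ atm X ω' := rfl
    rw [h] at h1
    exact h1
  · intro h
    unfold atm
    rw [h]

lemma atm_atm (X : Ω → S) : atm (atm X) = atm X := by
  funext ω
  ext ω'
  exact atm_eq

end atm

/-- data of the closure -/
structure Dat (Ω ι : Type) where
  /-- the classes -/
  A : ι → Ω → ℤ
  /-- the parent of a class -/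
  pa : ι → Option ι
  /-- radius -/
  r : ℕ
  /-- threshold -/
  c : ℝ

namespace Dat

variable {Ω ι : Type} {S T : Type*} (D : Dat Ω ι)

/-- `A x` is constant on `E` -/
def KnS (E : Set Ω) (x : ι) : Prop := ∀ ω ∈ E, ∀ ω' ∈ E, D.A x ω' = D.A x ω

/-- `A x` and the values of all the ancestors are constant on `E` -/
inductive RdS (E : Set Ω) : ι → Prop
  | mk (x : ι) (h : D.KnS E x) (hp : ∀ p, D.pa x = some p → RdS E p) : RdS E x

/-- the ancestors are constant on `E` -/
def ElS (E : Set Ω) (x : ι) : Prop := ∀ p, D.pa x = some p → D.RdS E p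

variable [Fintype Ω] (P : Law Ω)

/-- on `E` the class `x` has an atom of relative mass `≥ 1 - c` -/
def ChS (E : Set Ω) (x : ι) : Prop :=
  ∃ g : ℤ, (1 - D.c) * prE P (fun ω => ω ∈ E) ≤ prE P (fun ω => ω ∈ E ∧ |D.A x ω - g| ≤ D.r)

/-- revealed in the next round -/
def RvS (E : Set Ω) (x : ι) : Prop := D.ElS E x ∧ D.ChS P E x

open Classical in
/-- one round -/
noncomputable def rev (G : Ω → Set Ω) : Ω → Set Ω :=
  atm fun ω => (G ω, fun x => if D.RvS P (atm G ω) x then some (D.A x ω) else none)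

/-- `j` rounds -/
noncomputable def rds (G : Ω → Set Ω) : ℕ → Ω → Set Ω
  | 0 => G
  | j + 1 => D.rev P (rds G j)

/-- the closure -/
noncomputable def clo [Fintype ι] (G : Ω → Set Ω) : Ω → Set Ω := D.rds P G (Fintype.card ι + 1)

/-- the nested closures -/
noncomputable def Gb [Fintype ι] (Y : ℕ → Ω → T) : ℕ → Ω → Set Ω
  | 0 => D.clo P (atm (Y 0))
  | b + 1 => D.clo P (atm fun ω => (Gb Y b ω, Y (b + 1) ω))

/-! ### one round -/

variable {D P}

lemma KnS.mono {E E' : Set Ω} {x : ι} (h : D.KnS E x) (hE : E' ⊆ E) : D.KnS E' x :=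
  fun _ a _ b => h _ (hE a) _ (hE b)

lemma RdS.kn {E : Set Ω} {x : ι} (h : D.RdS E x) : D.KnS E x := by
  cases h with
  | mk _ h _ => exact h

lemma RdS.pa {E : Set Ω} {x p : ι} (h : D.RdS E x) (hp : D.pa x = some p) : D.RdS E p := by
  cases h with
  | mk _ _ h => exact h p hp

lemma RdS.mono {E E' : Set Ω} {x : ι} (h : D.RdS E x) (hE : E' ⊆ E) : D.RdS E' x := by
  induction h with
  | mk x h _ ih => exact RdS.mk x (h.mono hE) ih

lemma KnS.ch (hc0 : 0 ≤ D.c) {E : Set Ω} {x : ι} (h : D.KnS E x) : D.ChS P E x := by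
  classical
  by_cases hE : E.Nonempty
  · obtain ⟨ω0, h0⟩ := hE
    refine ⟨D.A x ω0, ?_⟩
    have h1 : prE P (fun ω => ω ∈ E ∧ |D.A x ω - D.A x ω0| ≤ D.r) = prE P (fun ω => ω ∈ E) := by
      unfold prE
      refine Finset.sum_congr ?_ fun _ _ => rfl
      ext ω
      simp only [Finset.mem_filter, Finset.mem_univ, true_and]
      refine ⟨fun h2 => h2.1, fun h2 => ⟨h2, ?_⟩⟩
      rw [h ω0 h0 ω h2]
      simp
    rw [h1]
    have h2 := prE_nonneg P (fun ω => ω ∈ E)
    nlinarith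
  · refine ⟨0, ?_⟩
    have h1 : prE P (fun ω => ω ∈ E) = 0 := by
      unfold prE
      refine Finset.sum_eq_zero fun ω hω => ?_
      simp only [Finset.mem_filter, Finset.mem_univ, true_and] at hω
      exact absurd ⟨ω, hω⟩ hE
    rw [h1, mul_zero]
    exact prE_nonneg P _

lemma rev_eq {G : Ω → Set Ω} {ω ω' : Ω} : D.rev P G ω' = D.rev P G ω ↔
    G ω' = G ω ∧ ∀ x, D.RvS P (atm G ω) x → D.A x ω' = D.A x ω := by
  classical
  unfold rev
  rw [atm_eq, Prod.mk.injEq]
  constructor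
  · rintro ⟨h1, h2⟩
    refine ⟨h1, fun x hx => ?_⟩
    have h3 := congrFun h2 x
    rw [atm_eq.2 h1, if_pos hx, if_pos hx] at h3
    exact Option.some_injective _ h3
  · rintro ⟨h1, h2⟩
    refine ⟨h1, ?_⟩
    funext x
    rw [atm_eq.2 h1]
    by_cases hx : D.RvS P (atm G ω) x
    · rw [if_pos hx, if_pos hx, h2 x hx]
    · rw [if_neg hx, if_neg hx]

lemma rev_sub (G : Ω → Set Ω) (ω : Ω) : atm (D.rev P G) ω ⊆ atm G ω :=
  fun _ h => (rev_eq.1 h).1

lemma rev_kn {G : Ω → Set Ω} {ω : Ω} {x : ι} (h : D.RvS P (atm G ω) x) :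
    D.KnS (atm (D.rev P G) ω) x := fun _ a _ b =>
  ((rev_eq.1 b).2 x h).trans ((rev_eq.1 a).2 x h).symm

lemma rev_rd {G : Ω → Set Ω} {ω : Ω} {x : ι} (h : D.RvS P (atm G ω) x) :
    D.RdS (atm (D.rev P G) ω) x :=
  RdS.mk x (rev_kn h) fun p hp => (h.1 p hp).mono (rev_sub G ω)

lemma rev_stab {G : Ω → Set Ω} {ω : Ω} (h : ∀ x, D.RvS P (atm G ω) x → D.KnS (atm G ω) x) :
    atm (D.rev P G) ω = atm G ω := by
  refine (rev_sub G ω).antisymm fun ω' h' => ?_
  exact rev_eq.2 ⟨h', fun x hx => h x hx ω (self_atm G ω) ω' h'⟩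

lemma rds_sub (G : Ω → Set Ω) (ω : Ω) (j : ℕ) : atm (D.rds P G (j + 1)) ω ⊆ atm (D.rds P G j) ω :=
  rev_sub _ ω

lemma rds_sub' (G : Ω → Set Ω) (ω : Ω) {i j : ℕ} (h : i ≤ j) :
    atm (D.rds P G j) ω ⊆ atm (D.rds P G i) ω := by
  induction j, h using Nat.le_induction with
  | base => exact subset_rfl
  | succ j _ ih => exact (rds_sub G ω j).trans ih

lemma rds_stab {G : Ω → Set Ω} {ω : Ω} {i j : ℕ} (hij : i ≤ j)
    (h : ∀ x, D.RvS P (atm (D.rds P G i) ω) x → D.KnS (atm (D.rds P G i) ω) x) :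
    atm (D.rds P G j) ω = atm (D.rds P G i) ω := by
  induction j, hij using Nat.le_induction with
  | base => rfl
  | succ j _ ih =>
    have h1 : atm (D.rev P (D.rds P G j)) ω = atm (D.rds P G j) ω := by
      refine rev_stab fun x hx => ?_
      rw [ih] at hx ⊢
      exact h x hx
    change atm (D.rev P (D.rds P G j)) ω = _
    rw [h1, ih]

section fin

variable [Fintype ι]

/-- the closure is closed -/
theorem clo_cl (G : Ω → Set Ω) (ω : Ω) (x : ι) (h : D.RvS P (atm (D.clo P G) ω) x) :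
    D.KnS (atm (D.clo P G) ω) x := by
  classical
  set N := Fintype.card ι with hN
  set E : ℕ → Set Ω := fun j => atm (D.rds P G j) ω with hE
  have key : ∃ i ≤ N, ∀ x, D.RvS P (E i) x → D.KnS (E i) x := by
    by_contra hcon
    push Not at hcon
    have h1 : ∀ j ≤ N + 1, j ≤ (univ.filter fun x => D.RdS (E j) x).card := by
      intro j
      induction j with
      | zero => intro _; exact Nat.zero_le _
      | succ j ih =>
        intro hj
        have h2 := ih (by omega)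
        obtain ⟨y, hy1, hy2⟩ := hcon j (by omega)
        have h3 : (univ.filter fun x => D.RdS (E j) x) ⊂
            (univ.filter fun x => D.RdS (E (j + 1)) x) := by
          rw [Finset.ssubset_iff_of_subset]
          · refine ⟨y, ?_, ?_⟩
            · simp only [Finset.mem_filter, Finset.mem_univ, true_and]
              exact rev_rd hy1
            · simp only [Finset.mem_filter, Finset.mem_univ, true_and]
              exact fun h => hy2 h.kn
          · intro z hz
            simp only [Finset.mem_filter, Finset.mem_univ, true_and] at hz ⊢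
            exact hz.mono (rds_sub G ω j)
        have h4 := Finset.card_lt_card h3
        omega
    have h5 := h1 (N + 1) le_rfl
    have h6 : (univ.filter fun x => D.RdS (E (N + 1)) x).card ≤ N := by
      rw [hN, ← Finset.card_univ]
      exact Finset.card_le_card (Finset.filter_subset _ _)
    omega
  obtain ⟨i, hi, h1⟩ := key
  have h2 : atm (D.clo P G) ω = E i := rds_stab (by omega) h1
  rw [h2] at h ⊢
  exact h1 x h

lemma clo_sub (G : Ω → Set Ω) (ω : Ω) : atm (D.clo P G) ω ⊆ atm G ω :=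
  rds_sub' G ω (Nat.zero_le _)

variable (D P)

/-- known for the letter `Gb b` -/
def Kn (Y : ℕ → Ω → T) (b : ℕ) (ω : Ω) (x : ι) : Prop :=
  ∀ ω', D.Gb P Y b ω' = D.Gb P Y b ω → D.A x ω' = D.A x ω

/-- revealed: the class and all its ancestors are known for the letter `Gb b` -/
inductive Rd (Y : ℕ → Ω → T) (b : ℕ) (ω : Ω) : ι → Prop
  | mk (x : ι) (h : D.Kn P Y b ω x) (hp : ∀ p, D.pa x = some p → Rd Y b ω p) : Rd Y b ω x

/-- the parent is revealed -/
def El (Y : ℕ → Ω → T) (b : ℕ) (ω : Ω) (x : ι) : Prop :=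
  ∀ p, D.pa x = some p → D.Rd P Y b ω p

variable {D P}
variable {Y : ℕ → Ω → T}

lemma kn_iff {b : ℕ} {ω : Ω} {x : ι} : D.Kn P Y b ω x ↔ D.KnS (atm (D.Gb P Y b) ω) x :=
  ⟨fun h _ a _ b' => (h _ b').trans (h _ a).symm, fun h _ a => h _ (self_atm _ ω) _ a⟩

lemma rd_iff {b : ℕ} {ω : Ω} {x : ι} : D.Rd P Y b ω x ↔ D.RdS (atm (D.Gb P Y b) ω) x := by
  constructor
  · intro h
    induction h with
    | mk x h _ ih => exact RdS.mk x (kn_iff.1 h) ih
  · intro h
    induction h with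
    | mk x h _ ih => exact Rd.mk x (kn_iff.2 h) ih

lemma el_iff {b : ℕ} {ω : Ω} {x : ι} : D.El P Y b ω x ↔ D.ElS (atm (D.Gb P Y b) ω) x :=
  forall_congr' fun _ => forall_congr' fun _ => rd_iff

/-- revealed classes are known -/
theorem rd_kn {b : ℕ} {ω : Ω} {x : ι} (h : D.Rd P Y b ω x) : D.Kn P Y b ω x :=
  kn_iff.2 (rd_iff.1 h).kn

/-- the revealed set is closed under parents -/
theorem rd_pa {b : ℕ} {ω : Ω} {x p : ι} (h : D.Rd P Y b ω x) (hp : D.pa x = some p) :
    D.Rd P Y b ω p := rd_iff.2 ((rd_iff.1 h).pa hp)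

/-- the next base is nested -/
theorem gb_nest {b : ℕ} {ω ω' : Ω} (h : D.Gb P Y (b + 1) ω' = D.Gb P Y (b + 1) ω) :
    D.Gb P Y b ω' = D.Gb P Y b ω ∧ Y (b + 1) ω' = Y (b + 1) ω := by
  have h1 : ω' ∈ atm (atm fun ω => (D.Gb P Y b ω, Y (b + 1) ω)) ω := clo_sub _ ω h
  rw [atm_atm] at h1
  exact Prod.mk.injEq _ _ _ _ ▸ h1

theorem gb_nest' {b b' : ℕ} (hb : b ≤ b') {ω ω' : Ω} (h : D.Gb P Y b' ω' = D.Gb P Y b' ω) :
    D.Gb P Y b ω' = D.Gb P Y b ω := by
  induction b', hb using Nat.le_induction with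
  | base => exact h
  | succ j _ ih => exact ih (gb_nest h).1

/-- `Y b` is a function of `Gb b` -/
theorem gb_fn {b : ℕ} {ω ω' : Ω} (h : D.Gb P Y b ω' = D.Gb P Y b ω) : Y b ω' = Y b ω := by
  cases b with
  | zero =>
    have h1 : ω' ∈ atm (atm (Y 0)) ω := clo_sub _ ω h
    rw [atm_atm] at h1
    exact h1
  | succ b => exact (gb_nest h).2

/-- once known, always known -/
theorem kn_mono {b b' : ℕ} (hb : b ≤ b') {ω : Ω} {x : ι} (h : D.Kn P Y b ω x) :
    D.Kn P Y b' ω x := fun _ h' => h _ (gb_nest' hb h')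

/-- the status is a function of `Gb b` -/
theorem kn_congr {b : ℕ} {ω ω' : Ω} (h : D.Gb P Y b ω' = D.Gb P Y b ω) {x : ι} :
    D.Kn P Y b ω' x ↔ D.Kn P Y b ω x := by
  rw [kn_iff, kn_iff, atm_eq.2 h]

/-- the revealed set is a function of `Gb b` -/
theorem rd_congr {b : ℕ} {ω ω' : Ω} (h : D.Gb P Y b ω' = D.Gb P Y b ω) {x : ι} :
    D.Rd P Y b ω' x ↔ D.Rd P Y b ω x := by
  rw [rd_iff, rd_iff, atm_eq.2 h]

/-- once revealed, always revealed -/
theorem rd_mono {b b' : ℕ} (hb : b ≤ b') {ω : Ω} {x : ι} (h : D.Rd P Y b ω x) :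
    D.Rd P Y b' ω x := by
  rw [rd_iff] at h ⊢
  exact h.mono fun _ h' => gb_nest' hb h'

/-- the values of the revealed classes and `Y b` determine the atom -/
theorem gb_atom (hY : ∀ b ω ω', Y (b + 1) ω' = Y (b + 1) ω → Y b ω' = Y b ω) {b : ℕ} {ω ω' : Ω} :
    D.Gb P Y b ω' = D.Gb P Y b ω ↔
      Y b ω' = Y b ω ∧ ∀ x, D.Rd P Y b ω x → D.A x ω' = D.A x ω := by
  constructor
  · exact fun h => ⟨gb_fn h, fun x hx => rd_kn hx _ h⟩
  · rintro ⟨h1, h2⟩
    have key : ∀ (G : Ω → Set Ω), G ω' = G ω →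
        (∀ x, D.RdS (atm (D.clo P G) ω) x → D.A x ω' = D.A x ω) →
        D.clo P G ω' = D.clo P G ω := by
      intro G h0 h3
      have h4 : ∀ j ≤ Fintype.card ι + 1, D.rds P G j ω' = D.rds P G j ω := by
        intro j
        induction j with
        | zero => exact fun _ => h0
        | succ j ih =>
          intro hj
          refine rev_eq.2 ⟨ih (by omega), fun x hx => h3 x ?_⟩
          exact (rev_rd hx).mono (rds_sub' G ω hj)
      exact h4 _ le_rfl
    induction b with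
    | zero => exact key _ (atm_eq.2 h1) fun x hx => h2 x (rd_iff.2 hx)
    | succ b ih =>
      refine key _ (atm_eq.2 ?_) fun x hx => h2 x (rd_iff.2 hx)
      rw [ih (hY b ω ω' h1) fun x hx => h2 x (rd_mono (Nat.le_succ b) hx), h1]

/-- **a cheap class with known parent is known** -/
theorem gb_cl {b : ℕ} {ω : Ω} {x : ι} (hel : D.El P Y b ω x)
    (hch : D.ChS P (atm (D.Gb P Y b) ω) x) : D.Kn P Y b ω x := by
  rw [kn_iff]
  cases b with
  | zero => exact clo_cl _ ω x ⟨el_iff.1 hel, hch⟩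
  | succ b => exact clo_cl _ ω x ⟨el_iff.1 hel, hch⟩

/-- **an unknown class with known parent has no atom of mass `1 - c`** -/
theorem gb_unk {b : ℕ} {ω : Ω} {x : ι} (hel : D.El P Y b ω x) (hkn : ¬ D.Kn P Y b ω x) (g : ℤ) :
    prE P (fun ω' => D.Gb P Y b ω' = D.Gb P Y b ω ∧ |D.A x ω' - g| ≤ D.r) <
      (1 - D.c) * P.pr (D.Gb P Y b) (D.Gb P Y b ω) := by
  classical
  by_contra hcon
  refine hkn (gb_cl hel ⟨g, ?_⟩)
  have h1 : P.pr (D.Gb P Y b) (D.Gb P Y b ω) = prE P (fun ω' => ω' ∈ atm (D.Gb P Y b) ω) := by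
    unfold Law.pr prE
    refine Finset.sum_congr ?_ fun _ _ => rfl
    ext ω'
    simp only [Finset.mem_filter, Finset.mem_univ, true_and]
    rfl
  rw [← h1]
  exact not_lt.1 hcon

/-- **an unrevealed class with revealed parent has no atom of mass `1 - c`** -/
theorem rd_unk {b : ℕ} {ω : Ω} {x : ι} (hel : ∀ p, D.pa x = some p → D.Rd P Y b ω p)
    (hx : ¬ D.Rd P Y b ω x) (g : ℤ) :
    prE P (fun ω' => D.Gb P Y b ω' = D.Gb P Y b ω ∧ |D.A x ω' - g| ≤ D.r) <
      (1 - D.c) * P.pr (D.Gb P Y b) (D.Gb P Y b ω) :=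
  gb_unk hel (fun h => hx (Rd.mk x h hel)) g

/-! ### averages -/

/-- weights and centres which are functions of `Gb b` -/
theorem gb_ex {b : ℕ} {x : ι} (lam : Ω → ℝ) (g : Ω → ℤ) (h0 : ∀ ω, 0 ≤ lam ω)
    (h1 : ∀ ω ω', D.Gb P Y b ω' = D.Gb P Y b ω → lam ω' = lam ω)
    (h2 : ∀ ω ω', D.Gb P Y b ω' = D.Gb P Y b ω → g ω' = g ω)
    (h3 : ∀ ω, 0 < P.w ω → lam ω ≠ 0 → D.El P Y b ω x ∧ ¬ D.Kn P Y b ω x) :
    P.ex (fun ω => lam ω * Law.ind (|D.A x ω - g ω| ≤ D.r)) ≤ (1 - D.c) * P.ex lam := by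
  classical
  rw [← P127.S.StepEx.ex_tower P _ (D.Gb P Y b), ← P.ex_const_mul]
  refine P.ex_mono fun ω hω => ?_
  have hp : 0 < P.pr (D.Gb P Y b) (D.Gb P Y b ω) := P.pr_pos _ hω
  have e1 : (P.cond (D.Gb P Y b) (D.Gb P Y b ω)).ex
      (fun ω => lam ω * Law.ind (|D.A x ω - g ω| ≤ D.r)) =
      lam ω * (prE P (fun ω' => D.Gb P Y b ω' = D.Gb P Y b ω ∧ |D.A x ω' - g ω| ≤ D.r) /
        P.pr (D.Gb P Y b) (D.Gb P Y b ω)) := by
    unfold Law.ex prE
    rw [Finset.sum_div, Finset.mul_sum, Finset.sum_filter]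
    refine Finset.sum_congr rfl fun ω' _ => ?_
    rw [P.cond_w _ _ hp]
    by_cases h : D.Gb P Y b ω' = D.Gb P Y b ω
    · rw [if_pos h]
      beta_reduce
      rw [h1 _ _ h, h2 _ _ h]
      unfold Law.ind
      by_cases h' : |D.A x ω' - g ω| ≤ D.r
      · rw [if_pos h', if_pos ⟨h, h'⟩]
        ring
      · rw [if_neg h', if_neg fun e => h' e.2]
        ring
    · rw [if_neg h, if_neg fun e => h e.1, zero_mul]
  rw [e1]
  by_cases hl : lam ω = 0
  · rw [hl, zero_mul, mul_zero]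
  · obtain ⟨a1, a2⟩ := h3 ω hω hl
    have a3 := gb_unk a1 a2 (g ω)
    rw [mul_comm (1 - D.c)]
    refine mul_le_mul_of_nonneg_left ?_ (h0 ω)
    rw [div_le_iff₀ hp]
    exact a3.le

/-- conditional laws given a letter which is a function of `Gb b` -/
theorem gb_cond {b : ℕ} {x : ι} {V : Type*} (Z : Ω → V) (z : V) (hz : 0 < P.pr Z z)
    (h1 : ∀ ω ω', D.Gb P Y b ω' = D.Gb P Y b ω → Z ω' = Z ω)
    (h3 : ∀ ω, 0 < P.w ω → Z ω = z → D.El P Y b ω x ∧ ¬ D.Kn P Y b ω x) (g : ℤ) :
    prE (P.cond Z z) (fun ω => |D.A x ω - g| ≤ D.r) ≤ 1 - D.c := by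
  classical
  have h := gb_ex (P := P) (D := D) (Y := Y) (b := b) (x := x) (fun ω => if Z ω = z then 1 else 0)
    (fun _ => g) (fun ω => by split_ifs <;> norm_num) (fun ω ω' e => by rw [h1 _ _ e])
    (fun _ _ _ => rfl) (fun ω hω hl => h3 ω hω (by
      by_contra hcon
      exact hl (if_neg hcon)))
  have e1 : P.ex (fun ω => (if Z ω = z then (1 : ℝ) else 0)) = P.pr Z z := by
    unfold Law.ex Law.pr
    rw [Finset.sum_filter]
    refine Finset.sum_congr rfl fun ω _ => ?_
    by_cases h' : Z ω = z <;> simp [h']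
  have e2 : prE (P.cond Z z) (fun ω => |D.A x ω - g| ≤ D.r) =
      P.ex (fun ω => (if Z ω = z then (1 : ℝ) else 0) * Law.ind (|D.A x ω - g| ≤ D.r)) /
        P.pr Z z := by
    unfold prE Law.ex
    rw [Finset.sum_div, Finset.sum_filter]
    refine Finset.sum_congr rfl fun ω _ => ?_
    rw [P.cond_w _ _ hz]
    unfold Law.ind
    by_cases h' : Z ω = z
    · by_cases h'' : |D.A x ω - g| ≤ D.r
      · simp [h', h'']
      · simp [h', h'']
    · simp [h']
  rw [e2, div_le_iff₀ hz, ← e1]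
  exact h

/-! ### the price -/

variable (D P)

/-- given the value of the parent a class has at most `M` values -/
def Alp (M : ℕ) : Prop := ∀ x ω, 0 < P.w ω → ∃ F : Finset ℤ, F.card ≤ M ∧
  ∀ ω', 0 < P.w ω' → (∀ p, D.pa x = some p → D.A p ω' = D.A p ω) → D.A x ω' ∈ F

/-- cost of a class -/
noncomputable def Bc (M : ℕ) : ℝ :=
  Real.log ((2 * D.r + 1 : ℕ) : ℝ) + (2 * Real.sqrt D.c + D.c * Real.log M)

/-- expected number of revealed classes -/
noncomputable def kap (G : Ω → Set Ω) : ℝ := ∑ x, prE P (fun ω => D.RdS (atm G ω) x)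

variable {D P}

lemma prE_ex (E : Ω → Prop) : prE P E = P.ex (fun ω => Law.ind (E ω)) := by
  classical
  unfold prE Law.ex Law.ind
  rw [Finset.sum_filter]
  refine Finset.sum_congr rfl fun ω _ => ?_
  by_cases h' : E ω <;> simp [h']

lemma prE_mono {E F : Ω → Prop} (h : ∀ ω, 0 < P.w ω → E ω → F ω) : prE P E ≤ prE P F := by
  classical
  rw [prE_ex, prE_ex]
  refine P.ex_mono fun ω hω => ?_
  unfold Law.ind
  by_cases hE : E ω
  · rw [if_pos hE, if_pos (h ω hω hE)]
  · rw [if_neg hE]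
    split_ifs <;> norm_num

lemma prE_add {E F H : Ω → Prop} (h : ∀ ω, E ω → ¬ F ω) (h1 : ∀ ω, E ω → H ω)
    (h2 : ∀ ω, F ω → H ω) : prE P E + prE P F ≤ prE P H := by
  classical
  rw [prE_ex, prE_ex, prE_ex, ← P.ex_add]
  refine P.ex_mono fun ω hω => ?_
  unfold Law.ind
  by_cases hE : E ω
  · rw [if_pos hE, if_neg (h ω hE), if_pos (h1 ω hE)]
    norm_num
  · rw [if_neg hE]
    by_cases hF : F ω
    · rw [if_pos hF, if_pos (h2 ω hF)]
      norm_num
    · rw [if_neg hF]
      split_ifs <;> norm_num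

omit [Fintype ι] in
lemma Alp.one {M : ℕ} (hM : D.Alp P M) (x : ι) : 1 ≤ M := by
  obtain ⟨ω0, hω0⟩ : ∃ ω, 0 < P.w ω := by
    by_contra hcon
    push Not at hcon
    have : ∑ ω, P.w ω ≤ 0 := Finset.sum_nonpos fun ω _ => hcon ω
    rw [P.sum_one] at this
    linarith
  obtain ⟨F, h1, h2⟩ := hM x ω0 hω0
  have h3 := h2 ω0 hω0 (fun _ _ => rfl)
  exact (Finset.card_pos.2 ⟨_, h3⟩).trans_le h1

lemma bc_nonneg (hc0 : 0 ≤ D.c) (M : ℕ) : 0 ≤ D.Bc M := by
  unfold Bc
  have h1 : 0 ≤ Real.log ((2 * D.r + 1 : ℕ) : ℝ) := Real.log_natCast_nonneg _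
  have h2 : 0 ≤ Real.log (M : ℝ) := Real.log_natCast_nonneg _
  positivity

/-- one class, one round -/
lemma cls_price {M : ℕ} (hM : D.Alp P M) (G : Ω → Set Ω) (x : ι) :
    Stk.hc P (fun ω => open Classical in
      if D.RvS P (atm G ω) x then some (D.A x ω) else none) G ≤
      D.Bc M * prE P (fun ω => D.RvS P (atm G ω) x ∧ ¬ D.KnS (atm G ω) x) := by
  classical
  set L : Ω → Option ℤ := fun ω => if D.RvS P (atm G ω) x then some (D.A x ω) else none with hL
  have e0 : Stk.hc P L G = Stk.hc P L (fun ω => ((), G ω)) :=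
    hc_congr P (fun _ _ _ _ e => congrArg Prod.fst e) (fun _ _ _ _ e => congrArg Prod.fst e)
      (fun _ _ _ _ e => congrArg Prod.snd e) (fun _ _ _ _ e => Prod.ext rfl e)
  have e1 := P127.S.StepEx.ex_hc P L (fun _ => ()) G
  have goal : Stk.hc P L G ≤
      D.Bc M * prE P (fun ω => D.RvS P (atm G ω) x ∧ ¬ D.KnS (atm G ω) x) := by
    rw [e0, ← e1, prE_ex, ← P.ex_const_mul]
    refine P.ex_mono fun ω hω => ?_
    have hp : 0 < P.pr G (G ω) := P.pr_pos _ hω
    have hs : ∀ ω', 0 < (P.cond G (G ω)).w ω' → 0 < P.w ω' ∧ G ω' = G ω := fun ω' h =>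
      P127.S.StepEx.cond_supp hp h
    by_cases hrv : D.RvS P (atm G ω) x
    · by_cases hkn : D.KnS (atm G ω) x
      · have h1 : Stk.hc (P.cond G (G ω)) L (fun _ => ()) = 0 := by
          refine hc_zero _ fun a a' ha ha' _ => ?_
          have b1 := (hs a ha).2
          have b2 := (hs a' ha').2
          simp only [hL]
          rw [atm_eq.2 b1, atm_eq.2 b2, if_pos hrv, if_pos hrv, hkn a' b2 a b1]
        rw [h1]
        have h2 : Law.ind (D.RvS P (atm G ω) x ∧ ¬ D.KnS (atm G ω) x) = 0 := by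
          unfold Law.ind
          rw [if_neg fun e => e.2 hkn]
        rw [h2, mul_zero]
      · have h2 : Law.ind (D.RvS P (atm G ω) x ∧ ¬ D.KnS (atm G ω) x) = 1 := by
          unfold Law.ind
          rw [if_pos ⟨hrv, hkn⟩]
        rw [h2, mul_one]
        obtain ⟨hel, g, hg⟩ := hrv
        set Q := P.cond G (G ω) with hQ
        have hM1 := hM.one x
        have key := H118.hc_exc_loc (P := Q) L (fun _ => ()) (fun ω' => ¬ |D.A x ω' - g| ≤ D.r)
          M (2 * D.r + 1) hM1 (by omega) (fun _ => ⟨(Finset.Icc (g - D.r) (g + D.r)).image some, by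
            refine Finset.card_image_le.trans ?_
            rw [Int.card_Icc]
            omega, fun a ha hb _ => by
            have b1 := (hs a ha).2
            have b3 := abs_le.1 (not_not.1 hb)
            simp only [hL]
            rw [atm_eq.2 b1, if_pos ⟨hel, g, hg⟩]
            refine Finset.mem_image_of_mem _ (Finset.mem_Icc.2 ⟨?_, ?_⟩)
            · linarith [b3.1]
            · linarith [b3.2]⟩) (fun a ha => by
            obtain ⟨F, c1, c2⟩ := hM x a (hs a ha).1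
            refine ⟨F.image some, Finset.card_image_le.trans c1, fun a' ha' _ => ?_⟩
            have b1 := (hs a' ha').2
            have b2 := (hs a ha).2
            simp only [hL]
            rw [atm_eq.2 b1, if_pos ⟨hel, g, hg⟩]
            refine Finset.mem_image_of_mem _ (c2 a' (hs a' ha').1 fun p hp' => ?_)
            exact (hel p hp').kn a b2 a' b1)
        have hbad : prE Q (fun ω' => ¬ |D.A x ω' - g| ≤ D.r) ≤ D.c := by
          rw [prE_not]
          have d1 : prE Q (fun ω' => |D.A x ω' - g| ≤ D.r) =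
              prE P (fun ω' => ω' ∈ atm G ω ∧ |D.A x ω' - g| ≤ D.r) / P.pr G (G ω) := by
            unfold prE
            rw [Finset.sum_div, Finset.sum_filter, Finset.sum_filter]
            refine Finset.sum_congr rfl fun ω' _ => ?_
            rw [hQ, P.cond_w _ _ hp]
            by_cases h' : G ω' = G ω
            · have h3 : ω' ∈ atm G ω := h'
              by_cases h'' : |D.A x ω' - g| ≤ D.r
              · simp [h', h'', h3]
              · simp [h'', h3]
            · have h3 : ¬ ω' ∈ atm G ω := h'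
              simp [h', h3]
          have d2 : prE P (fun ω' => ω' ∈ atm G ω) = P.pr G (G ω) := by
            unfold Law.pr prE
            refine Finset.sum_congr ?_ fun _ _ => rfl
            ext ω'
            simp only [Finset.mem_filter, Finset.mem_univ, true_and]
            rfl
          rw [d2] at hg
          rw [← le_div_iff₀ hp] at hg
          rw [d1]
          linarith
        have hb0 := prE_nonneg Q (fun ω' => ¬ |D.A x ω' - g| ≤ D.r)
        have hlog : 0 ≤ Real.log (M : ℝ) := Real.log_natCast_nonneg _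
        have h4 := Real.sqrt_le_sqrt hbad
        have h5 := mul_le_mul_of_nonneg_right hbad hlog
        unfold Bc
        linarith
    · have h1 : Stk.hc (P.cond G (G ω)) L (fun _ => ()) = 0 := by
        refine hc_zero _ fun a a' ha ha' _ => ?_
        have b1 := (hs a ha).2
        have b2 := (hs a' ha').2
        simp only [hL]
        rw [atm_eq.2 b1, atm_eq.2 b2, if_neg hrv, if_neg hrv]
      rw [h1]
      have h2 : Law.ind (D.RvS P (atm G ω) x ∧ ¬ D.KnS (atm G ω) x) = 0 := by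
        unfold Law.ind
        rw [if_neg fun e => hrv e.1]
      rw [h2, mul_zero]
  exact goal

/-- finitely many letters -/
lemma hc_all {S : Type*} (L : ι → Ω → S) {U : Type*} (G : Ω → U) :
    hc P (fun ω x => L x ω) G ≤ ∑ x, hc P (L x) G := by
  classical
  have h : ∀ s : Finset ι, hc P (fun ω (x : s) => L x ω) G ≤ ∑ x ∈ s, hc P (L x) G := by
    intro s
    induction s using Finset.induction_on with
    | empty =>
      rw [Finset.sum_empty]
      refine (hc_zero P fun ω ω' _ _ _ => ?_).le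
      funext x
      exact absurd x.2 (Finset.notMem_empty _)
    | insert a s ha ih =>
      rw [Finset.sum_insert ha]
      have h1 : hc P (fun ω (x : ((insert a s : Finset ι))) => L x ω) G ≤
          hc P (fun ω => (L a ω, fun (x : s) => L x ω)) G := by
        refine hc_mono_left P fun ω ω' _ _ e => ?_
        simp only [Prod.mk.injEq] at e
        funext x
        rcases Finset.mem_insert.1 x.2 with hx | hx
        · rw [hx]
          exact e.1.1
        · exact congrFun e.1.2 ⟨x.1, hx⟩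
      have h2 := hc_pair P (L a) (fun ω (x : s) => L x ω) G
      have h3 := hc_mono_right P (fun ω (x : s) => L x ω) (Y := G) (Y' := fun ω => (L a ω, G ω))
        (fun _ _ _ _ e => congrArg Prod.snd e)
      linarith
  refine (hc_mono_left P fun ω ω' _ _ e => ?_).trans (h univ)
  simp only [Prod.mk.injEq] at e
  funext x
  exact congrFun e.1 ⟨x, Finset.mem_univ x⟩

/-- price of a round -/
lemma rev_price (hc0 : 0 ≤ D.c) {M : ℕ} (hM : D.Alp P M) (G : Ω → Set Ω) :
    Stk.hc P (D.rev P G) G ≤ D.Bc M * (D.kap P (D.rev P G) - D.kap P G) := by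
  classical
  have h1 : Stk.hc P (D.rev P G) G ≤ Stk.hc P
      (fun ω x => if D.RvS P (atm G ω) x then some (D.A x ω) else none) G := by
    refine hc_mono_left P fun ω ω' _ _ e => ?_
    simp only [Prod.mk.injEq] at e
    exact atm_eq.2 (Prod.ext e.2 e.1)
  have h2 := hc_all (P := P) (fun x ω => if D.RvS P (atm G ω) x then some (D.A x ω) else none) G
  have h3 : ∑ x, Stk.hc P (fun ω => if D.RvS P (atm G ω) x then some (D.A x ω) else none) G ≤
      ∑ x, D.Bc M * (prE P (fun ω => D.RdS (atm (D.rev P G) ω) x) -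
        prE P (fun ω => D.RdS (atm G ω) x)) := by
    refine Finset.sum_le_sum fun x _ => ?_
    refine (cls_price hM G x).trans (mul_le_mul_of_nonneg_left ?_ (bc_nonneg hc0 M))
    have h4 := prE_add (P := P) (E := fun ω => D.RvS P (atm G ω) x ∧ ¬ D.KnS (atm G ω) x)
      (F := fun ω => D.RdS (atm G ω) x) (H := fun ω => D.RdS (atm (D.rev P G) ω) x)
      (fun ω e h => e.2 h.kn) (fun ω e => rev_rd e.1) (fun ω e => e.mono (rev_sub G ω))
    linarith
  rw [← Finset.mul_sum, Finset.sum_sub_distrib] at h3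
  exact h1.trans (h2.trans h3)

lemma rds_price (hc0 : 0 ≤ D.c) {M : ℕ} (hM : D.Alp P M) (G : Ω → Set Ω) (j : ℕ) :
    Stk.hc P (D.rds P G j) G ≤ D.Bc M * (D.kap P (D.rds P G j) - D.kap P G) := by
  induction j with
  | zero =>
    have h1 : Stk.hc P (D.rds P G 0) G = 0 := hc_zero P fun _ _ _ _ e => e
    rw [h1]
    change 0 ≤ D.Bc M * (D.kap P G - D.kap P G)
    rw [sub_self, mul_zero]
  | succ j ih =>
    have h1 := hc_le_add P (D.rds P G (j + 1)) (D.rds P G j) G
    have h2 := hc_mono_right P (D.rds P G (j + 1)) (Y := D.rds P G j)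
      (Y' := fun ω => (D.rds P G j ω, G ω)) (fun _ _ _ _ e => congrArg Prod.fst e)
    have h3 : Stk.hc P (D.rds P G (j + 1)) (D.rds P G j) ≤
      D.Bc M * (D.kap P (D.rds P G (j + 1)) - D.kap P (D.rds P G j)) := rev_price hc0 hM _
    linarith

/-- price of a closure -/
lemma clo_price (hc0 : 0 ≤ D.c) {M : ℕ} (hM : D.Alp P M) (X : Ω → S) :
    Stk.hc P (D.clo P (atm X)) X ≤ D.Bc M * (D.kap P (D.clo P (atm X)) - D.kap P (atm X)) := by
  have h1 : Stk.hc P (D.clo P (atm X)) X = Stk.hc P (D.clo P (atm X)) (atm X) :=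
    hc_congr P (fun _ _ _ _ e => congrArg Prod.fst e) (fun _ _ _ _ e => congrArg Prod.fst e)
      (fun _ _ _ _ e => atm_eq.1 e) (fun _ _ _ _ e => atm_eq.2 e)
  rw [h1]
  exact rds_price hc0 hM _ _

lemma kap_mono {G G' : Ω → Set Ω} (h : ∀ ω, atm G' ω ⊆ atm G ω) : D.kap P G ≤ D.kap P G' :=
  Finset.sum_le_sum fun _ _ => prE_mono fun ω _ e => e.mono (h ω)

lemma kap_le (G : Ω → Set Ω) : D.kap P G ≤ Fintype.card ι := by
  unfold kap
  have h := Finset.sum_le_sum fun (x : ι) (_ : x ∈ univ) =>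
    prE_le_one P (fun ω => D.RdS (atm G ω) x)
  simpa using h

lemma kap_nonneg (G : Ω → Set Ω) : 0 ≤ D.kap P G := Finset.sum_nonneg fun _ _ => prE_nonneg _ _

/-- price of one step -/
theorem gb_step (hc0 : 0 ≤ D.c) {M : ℕ} (hM : D.Alp P M) (b : ℕ) :
    Stk.hc P (D.Gb P Y (b + 1)) (fun ω => (D.Gb P Y b ω, Y (b + 1) ω)) ≤
      D.Bc M * (D.kap P (D.Gb P Y (b + 1)) - D.kap P (D.Gb P Y b)) := by
  have h1 : Stk.hc P (D.Gb P Y (b + 1)) (fun ω => (D.Gb P Y b ω, Y (b + 1) ω)) ≤
      D.Bc M * (D.kap P (D.Gb P Y (b + 1)) -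
        D.kap P (atm fun ω => (D.Gb P Y b ω, Y (b + 1) ω))) := clo_price hc0 hM _
  have h2 : D.kap P (D.Gb P Y b) ≤ D.kap P (atm fun ω => (D.Gb P Y b ω, Y (b + 1) ω)) := by
    refine kap_mono fun ω => ?_
    rw [atm_atm]
    exact fun ω' e => congrArg Prod.fst e
  have h3 := mul_le_mul_of_nonneg_left h2 (bc_nonneg (D := D) hc0 M)
  linarith

/-- **the price of all the rounds**, in terms of the expected number of known classes -/
theorem gb_price' (hc0 : 0 ≤ D.c) {M : ℕ} (hM : D.Alp P M) (B : ℕ) :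
    Stk.hc P (D.Gb P Y 0) (Y 0) +
      ∑ b ∈ range B, Stk.hc P (D.Gb P Y (b + 1)) (fun ω => (D.Gb P Y b ω, Y (b + 1) ω)) ≤
      D.Bc M * D.kap P (D.Gb P Y B) := by
  induction B with
  | zero =>
    rw [Finset.sum_range_zero, add_zero]
    have h1 : Stk.hc P (D.Gb P Y 0) (Y 0) ≤
      D.Bc M * (D.kap P (D.Gb P Y 0) - D.kap P (atm (Y 0))) := clo_price hc0 hM _
    have h2 := mul_nonneg (bc_nonneg (D := D) hc0 M) (kap_nonneg (D := D) (P := P) (atm (Y 0)))
    linarith
  | succ B ih =>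
    rw [Finset.sum_range_succ]
    have h1 := gb_step (D := D) (P := P) (Y := Y) hc0 hM B
    linarith

/-- **the price of all the rounds** -/
theorem gb_price (hc0 : 0 ≤ D.c) {M : ℕ} (hM : D.Alp P M) (B : ℕ) :
    Stk.hc P (D.Gb P Y 0) (Y 0) +
      ∑ b ∈ range B, Stk.hc P (D.Gb P Y (b + 1)) (fun ω => (D.Gb P Y b ω, Y (b + 1) ω)) ≤
      Fintype.card ι * D.Bc M := by
  refine (gb_price' hc0 hM B).trans ?_
  rw [mul_comm]
  exact mul_le_mul_of_nonneg_right (kap_le _) (bc_nonneg hc0 M)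

/-- the price of `Gb b` given `Y b`, nested letters -/
theorem gb_prW' (hc0 : 0 ≤ D.c) {M : ℕ} (hM : D.Alp P M)
    (hY : ∀ b ω ω', Y (b + 1) ω' = Y (b + 1) ω → Y b ω' = Y b ω) (b : ℕ) :
    Stk.hc P (D.Gb P Y b) (Y b) ≤ D.Bc M * D.kap P (D.Gb P Y b) := by
  induction b with
  | zero =>
    have h := gb_price' (D := D) (P := P) (Y := Y) hc0 hM 0
    rwa [Finset.sum_range_zero, add_zero] at h
  | succ b ih =>
    have h1 := hc_le_add P (D.Gb P Y (b + 1)) (D.Gb P Y b) (Y (b + 1))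
    have h2 : Stk.hc P (D.Gb P Y b) (Y (b + 1)) ≤ Stk.hc P (D.Gb P Y b) (Y b) :=
      hc_mono_right P _ fun ω ω' _ _ e => hY b ω' ω e
    have h3 := gb_step (D := D) (P := P) (Y := Y) hc0 hM b
    linarith

/-- **the price of `Gb b` given `Y b`**, nested letters -/
theorem gb_prW (hc0 : 0 ≤ D.c) {M : ℕ} (hM : D.Alp P M)
    (hY : ∀ b ω ω', Y (b + 1) ω' = Y (b + 1) ω → Y b ω' = Y b ω) (b : ℕ) :
    Stk.hc P (D.Gb P Y b) (Y b) ≤ Fintype.card ι * D.Bc M := by
  refine (gb_prW' hc0 hM hY b).trans ?_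
  rw [mul_comm]
  exact mul_le_mul_of_nonneg_right (kap_le _) (bc_nonneg hc0 M)

/-- the chain rule for the nested closures -/
theorem gb_chain (B : ℕ) : Stk.hc P (D.Gb P Y B) (Y 0) = Stk.hc P (D.Gb P Y 0) (Y 0) +
    ∑ b ∈ range B, (Stk.hc P (Y (b + 1)) (D.Gb P Y b) +
      Stk.hc P (D.Gb P Y (b + 1)) (fun ω => (D.Gb P Y b ω, Y (b + 1) ω))) := by
  induction B with
  | zero => rw [Finset.sum_range_zero, add_zero]
  | succ B ih =>
    rw [Finset.sum_range_succ, ← add_assoc, ← ih]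
    have f0 : ∀ b, Fn P (Y 0) (D.Gb P Y b) := fun b ω ω' _ _ e => by
      have h1 := gb_fn (gb_nest' (Nat.zero_le b) e)
      exact h1
    have h1 := hc_pair P (D.Gb P Y B) (D.Gb P Y (B + 1)) (Y 0)
    have h2 : Stk.hc P (fun ω => (D.Gb P Y B ω, D.Gb P Y (B + 1) ω)) (Y 0) =
        Stk.hc P (D.Gb P Y (B + 1)) (Y 0) := by
      refine hc_congr P (fun ω ω' _ _ e => ?_) (fun ω ω' _ _ e => ?_)
        (fun _ _ _ _ e => e) (fun _ _ _ _ e => e)
      · simp only [Prod.mk.injEq] at e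
        exact Prod.ext (gb_nest e.1).1 e.1
      · simp only [Prod.mk.injEq] at e
        exact e.1.2
    have h3 : Stk.hc P (D.Gb P Y (B + 1)) (fun ω => (D.Gb P Y B ω, Y 0 ω)) =
        Stk.hc P (D.Gb P Y (B + 1)) (D.Gb P Y B) := by
      refine hc_congr P (fun ω ω' _ _ e => congrArg Prod.fst e)
        (fun ω ω' _ _ e => congrArg Prod.fst e) (fun ω ω' p p' e => Prod.ext e (f0 B ω ω' p p' e))
        (fun ω ω' _ _ e => congrArg Prod.fst e)
    have h4 := hc_pair P (Y (B + 1)) (D.Gb P Y (B + 1)) (D.Gb P Y B)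
    have h5 : Stk.hc P (fun ω => (Y (B + 1) ω, D.Gb P Y (B + 1) ω)) (D.Gb P Y B) =
        Stk.hc P (D.Gb P Y (B + 1)) (D.Gb P Y B) := by
      refine hc_congr P (fun ω ω' _ _ e => ?_) (fun ω ω' _ _ e => ?_)
        (fun _ _ _ _ e => e) (fun _ _ _ _ e => e)
      · simp only [Prod.mk.injEq] at e
        exact Prod.ext (gb_nest e.1).2 e.1
      · simp only [Prod.mk.injEq] at e
        exact e.1.2
    have h6 : Stk.hc P (D.Gb P Y (B + 1)) (fun ω => (Y (B + 1) ω, D.Gb P Y B ω)) =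
        Stk.hc P (D.Gb P Y (B + 1)) (fun ω => (D.Gb P Y B ω, Y (B + 1) ω)) := by
      refine hc_congr P (fun ω ω' _ _ e => congrArg Prod.fst e)
        (fun ω ω' _ _ e => congrArg Prod.fst e) (fun ω ω' _ _ e => ?_) (fun ω ω' _ _ e => ?_)
      · simp only [Prod.mk.injEq] at e ⊢
        exact ⟨e.2, e.1⟩
      · simp only [Prod.mk.injEq] at e ⊢
        exact ⟨e.2, e.1⟩
    linarith

/-- **activity given the closures** -/
theorem gb_act (hc0 : 0 ≤ D.c) {M : ℕ} (hM : D.Alp P M) (B : ℕ) :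
    Stk.hc P (Y B) (Y 0) - Fintype.card ι * D.Bc M ≤
      ∑ b ∈ range B, Stk.hc P (Y (b + 1)) (D.Gb P Y b) := by
  have h1 := gb_chain (D := D) (P := P) (Y := Y) B
  have h2 := gb_price (D := D) (P := P) (Y := Y) hc0 hM B
  have h3 : Stk.hc P (Y B) (Y 0) ≤ Stk.hc P (D.Gb P Y B) (Y 0) :=
    hc_mono_left P fun ω ω' _ _ e => by
      simp only [Prod.mk.injEq] at e
      exact gb_fn e.1
  rw [Finset.sum_add_distrib] at h1
  linarith

end fin

end Dat

end Vale.Agent.P106.U.H465.Clo
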