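import Vale.Agent.P106.U.H465.Clo
import Vale.Agent.P106.U.H480.Ych

/-!
# P106 / U / H465 : the closures as finer nested pasts (helper465)

Adapter from `U/H465/Clo.lean` to helper480's `Fin2` and to the hypotheses of `PSelG` :

* `fin2` : `Fin2 Q B Y F (D.Gb Q F)`.
* `gp` : the price of the closures is at most `card ι * Bc M`.
* `Alp.supp` : the alphabet hypothesis for a law with smaller support.
* `unk_cond` : the law conditioned on a function of `Gb b`.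
-/

set_option autoImplicit false

namespace Vale.Agent.P106.U.H465.Clo

open Finset Vale.Agent.P127 Vale.Agent.P127.Stk

namespace Dat

variable {Ω ι : Type} [Fintype Ω] [Fintype ι] {S T V : Type*} {D : Dat Ω ι} {Q : Law Ω}

/-- **the closures are finer nested pasts** -/
theorem fin2 {B : ℕ} {Y : ℕ → Ω → S} {F : ℕ → Ω → T}
    (F1 : ∀ b < B, Fn Q (F (b + 1)) (fun ω => (F b ω, Y b ω)))
    (F2 : ∀ b < B, Fn Q (F b) (F (b + 1))) (F3 : ∀ b < B, Fn Q (Y b) (F (b + 1))) :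
    G480.Fin2 Q B Y F (D.Gb Q F) where
  F1 := F1
  F2 := F2
  F3 := F3
  FG := fun _ _ _ _ _ _ e => gb_fn e
  GG := fun _ _ _ _ _ _ e => (gb_nest e).1

/-- **the price of the closures** -/
theorem gp (hc0 : 0 ≤ D.c) {M : ℕ} (hM : D.Alp Q M) {B : ℕ} {Y : ℕ → Ω → S} {F : ℕ → Ω → T}
    (F1 : ∀ b < B, Fn Q (F (b + 1)) (fun ω => (F b ω, Y b ω)))
    (F3 : ∀ b < B, Fn Q (Y b) (F (b + 1))) :
    Stk.hc Q (D.Gb Q F 0) (F 0) +
      ∑ b ∈ range B, Stk.hc Q (D.Gb Q F (b + 1)) (fun ω => (D.Gb Q F b ω, Y b ω)) ≤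
      Fintype.card ι * D.Bc M := by
  have h := gb_price (D := D) (P := Q) (Y := F) hc0 hM B
  have e : ∀ b ∈ range B, Stk.hc Q (D.Gb Q F (b + 1)) (fun ω => (D.Gb Q F b ω, Y b ω)) =
      Stk.hc Q (D.Gb Q F (b + 1)) (fun ω => (D.Gb Q F b ω, F (b + 1) ω)) := by
    intro b hb
    have hb' := Finset.mem_range.1 hb
    refine hc_congr Q (fun _ _ _ _ e => congrArg Prod.fst e) (fun _ _ _ _ e => congrArg Prod.fst e)
      (fun ω ω' p p' e => ?_) (fun ω ω' p p' e => ?_)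
    · simp only [Prod.mk.injEq] at e
      exact Prod.ext e.1 (F3 b hb' ω ω' p p' e.2)
    · simp only [Prod.mk.injEq] at e
      exact Prod.ext e.1 (F1 b hb' ω ω' p p' (Prod.ext (gb_fn e.1) e.2))
  rw [Finset.sum_congr rfl e]
  exact h

/-- the price of one closure given the past, pasts nested for all `ω` -/
theorem gp_one (hc0 : 0 ≤ D.c) {M : ℕ} (hM : D.Alp Q M) {F : ℕ → Ω → T}
    (hF : ∀ b ω ω', F (b + 1) ω' = F (b + 1) ω → F b ω' = F b ω) (b : ℕ) :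
    Stk.hc Q (D.Gb Q F b) (F b) ≤ Fintype.card ι * D.Bc M := gb_prW hc0 hM hF b

omit [Fintype ι] in
theorem Alp.supp {P : Law Ω} {M : ℕ} (h : D.Alp P M) (hQ : ∀ ω, 0 < Q.w ω → 0 < P.w ω) :
    D.Alp Q M := fun x ω hω => by
  obtain ⟨F, h1, h2⟩ := h x ω (hQ ω hω)
  exact ⟨F, h1, fun ω' hω' e => h2 ω' (hQ ω' hω') e⟩

/-- **the law conditioned on a function of the closure** -/
theorem unk_cond {F : ℕ → Ω → T} {b : ℕ} (Z : Ω → V) (hZ : Fn Q Z (D.Gb Q F b)) {ω : Ω}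
    (hω : 0 < Q.w ω) {x : ι} (hel : ∀ p, D.pa x = some p → D.Rd Q F b ω p)
    (hx : ¬ D.Rd Q F b ω x) (g : ℤ) :
    prE (Q.cond Z (Z ω)) (fun ω' => D.Gb Q F b ω' = D.Gb Q F b ω ∧ |D.A x ω' - g| ≤ D.r) <
      (1 - D.c) * (Q.cond Z (Z ω)).pr (D.Gb Q F b) (D.Gb Q F b ω) := by
  classical
  have hp : 0 < Q.pr Z (Z ω) := Q.pr_pos Z hω
  have h := rd_unk hel hx g
  have e1 : prE (Q.cond Z (Z ω)) (fun ω' => D.Gb Q F b ω' = D.Gb Q F b ω ∧ |D.A x ω' - g| ≤ D.r) =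
      prE Q (fun ω' => D.Gb Q F b ω' = D.Gb Q F b ω ∧ |D.A x ω' - g| ≤ D.r) / Q.pr Z (Z ω) := by
    unfold prE
    rw [Finset.sum_div]
    refine Finset.sum_congr rfl fun ω' hω' => ?_
    simp only [Finset.mem_filter, Finset.mem_univ, true_and] at hω'
    rw [Q.cond_w _ _ hp]
    rcases (Q.nn ω').eq_or_lt with h0 | h0
    · rw [← h0, zero_div, ite_self]
    · rw [if_pos (hZ ω' ω h0 hω hω'.1)]
  have e2 : (Q.cond Z (Z ω)).pr (D.Gb Q F b) (D.Gb Q F b ω) =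
      Q.pr (D.Gb Q F b) (D.Gb Q F b ω) / Q.pr Z (Z ω) := by
    unfold Law.pr
    rw [Finset.sum_div]
    refine Finset.sum_congr rfl fun ω' hω' => ?_
    simp only [Finset.mem_filter, Finset.mem_univ, true_and] at hω'
    rw [Q.cond_w _ _ hp]
    rcases (Q.nn ω').eq_or_lt with h0 | h0
    · rw [← h0, zero_div, ite_self, zero_div]
    · rw [if_pos (hZ ω' ω h0 hω hω')]
      rfl
  rw [e1, e2, ← mul_div_assoc]
  exact div_lt_div_of_pos_right h hp

end Dat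

end Vale.Agent.P106.U.H465.Clo
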