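import Vale.Agent.P106.U.H465.PfD

/-!
# P106 / U / H465 : the field `F2` of the record from facts about the levels (helper465)

* `C2.VX` : facts in blocks and levels (`Vs`, `Xs`, the second path `RC`, numbers `k0`) : loS, loV, hi, room, diagonal, lag, regime,
  runs, exceptional levels, cuts.
* `C2.f2_of` : **`S3.F2` for `c.erun hm = c.runX hm`, the data `c.pfd`**, from `VX` and the sums `F2o`.
* `C1.mk2_f2` : the conclusion of helper565's `PF2` at one place, for `C1.mk2`, from `VX` and the sums.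
-/

set_option autoImplicit false

namespace Vale.Agent.P106.U.H565

open Finset Vale.Agent.P127 Vale.Agent.P127.Stk Vale.Agent.P127.U Vale.Agent.P106.W
open Vale.Agent.P106.K (Ry RyOk bl Bin)
open Vale.Agent.P127.U.CellD (q2 rd q2_pos q2_le q2_mul_pow)
open Vale.Agent.P106.U Vale.Agent.P106.U.H449 Vale.Agent.P106.U.StripL Vale.Agent.P106.U.StripE
open Vale.Agent.P106.U.LinkR Vale.Agent.P106.U.InsL Vale.Agent.P106.U.InpC Vale.Agent.P106.U.LSide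
open Vale.Agent.P106.U.LinkW2
open Vale.Agent.P106.U.H823.NumW Vale.Agent.P106.U.H823.PathNum
open Vale.Agent.P106.U.H428.Cls (Dt)

variable {Ω : Type} [Fintype Ω]

namespace C2

/-- **the facts in blocks and levels** -/
structure VX (c : C2 Ω) (hm : 3 ≤ c.I.m) (B bS bV : ℕ) (k0 : ℕ → ℕ) (Vs Xs : Finset ℕ) : Prop where
  loS : c.I.m * (c.b1 + B) ≤ bS
  loV : bS ≤ bV
  hi : bV ≤ c.num.B₁
  room : c.num.A' + 2 * bV + 8 * (c.I.m * c.I.B) ≤ c.I.h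
  /-- the diagonal -/
  dg : ∀ v, v + 1 ≤ c.I.ha → (v ∈ Vs ∨ v + 1 ∈ Vs) → c.RC (v + 1) = c.RC v + 1
  /-- the lag -/
  lag : ∀ v ∈ Vs, c.RC v + B + c.ps ≤ Rw c.I.pm.n c.E1 1 v
  /-- the regime, literally the two fields of `S3.F2` -/
  regS : ∀ k, 1 ≤ k → k ≤ (c.erun hm).n → S3.lv (c.erun hm) k ∉ Vs → S3.lv (c.erun hm) k ∉ Xs →
    bS + (c.erun hm).C.rk k ≤ (c.erun hm).C.rf k ∨
      (c.erun hm).C.rf k + 2 * ((c.erun hm).m * B) ≤ (c.erun hm).m * (c.erun hm).b1 + (c.erun hm).C.rk k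
  reg : ∀ k, 1 ≤ k → k ≤ (c.erun hm).n → S3.lv (c.erun hm) k ∈ Vs → S3.lv (c.erun hm) k ∉ Xs →
    bV + (c.erun hm).C.rk k ≤ (c.erun hm).C.rf k ∨
      (c.erun hm).C.rf k + 2 * ((c.erun hm).m * B) ≤ (c.erun hm).m * (c.erun hm).b1 + (c.D.r0 + c.D.m * k0 k)
  runs : (c.I.m : ℝ) * (Vs.filter fun v => v + 1 ∉ Vs).card ≤ c.I.h / B
  xs : (c.I.m : ℝ) * Xs.card ≤ c.I.h / B
  cut : (c.I.m : ℝ) * (c.cutS hm B Vs).card ≤ c.I.h / B

variable {c : C2 Ω} {hm : 3 ≤ c.I.m} {Rm : ℕ} {cc : ℝ} {Ac rc : ℕ} {k0 : ℕ → ℕ} {hk : Monotone k0}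
  {hl : ∀ i, k0 i ≤ c.D.L.k (c.D.ix i)} {B bS bV : ℕ} {Vs Xs : Finset ℕ}

/-- **the field `f2`** -/
theorem f2_of (H : c.Hyp Rm cc Ac rc) (HX : c.HX hm) (V : c.VX hm B bS bV k0 Vs Xs) {K : ℝ} (hK : 4 ≤ K)
    (sum : ∀ μ ≤ B, c.I.m ≤ μ → ∀ K' : ℝ, (100 * K) ^ 20 ≤ K' → K' ≤ B → ∃ (o : Fin 7 → ℝ) (o' : ℕ → ℝ),
      S3.F2o (c.erun hm) c.num B bS bV (c.pfd hm k0 hk hl B) Vs Xs μ K' o o') :
    S3.F2 (c.erun hm) c.num K B bS bV (c.pfd hm k0 hk hl B) Vs Xs := by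
  have hN : c.D.N = c.D.n + c.I.J := rfl
  have hU := hasU H
  refine
    { loS := V.loS, loV := V.loV, hi := V.hi, room := V.room, deep := ?_, diag := ?_, regS := V.regS, reg := V.reg, runs := V.runs,
      xs := V.xs, pfW := fun i _ => pfW H HX i, pfZ := fun i _ => pfZ H i, pfT := fun i _ => pfT i, pfH := fun i _ => pfH i,
      pfC := fun i _ => pfC H HX i, gvA := fun i _ ω hω => gvA H (by linarith) i ω hω,
      gvF := fun i _ ω hω => gvF H hK i ω hω, lo0 := fun i => lo0 i,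
      gv0A := fun i _ ω hω => gv0A H (by linarith) i ω hω, aoA := fun i _ _ ω hω => aoA H (by linarith) i ω hω,
      cut := ⟨c.cutS hm B Vs, V.cut, fun i j hij hj hi hj' hl1 hC => ?_⟩, sum := sum }
  · intro i _ hi
    rw [lv_eq H] at hi
    have h1 := V.lag _ hi
    have h2 : c.run.rI i = c.I.m * (c.I.kb + Rw c.I.pm.n c.E1 1 (c.D.li i)) := hU.rI i
    show c.run.C.rk i + c.I.m * (B + c.ps) ≤ c.run.rI i
    rw [h2, rk_eq H, ← Nat.mul_add]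
    refine Nat.mul_le_mul_left _ ?_
    have := kk_le H i
    have := kb2 H
    omega
  · intro i j hj hAi hAj ha hv
    rw [lv_eq H, lv_eq H] at hv
    have hjN : j < c.D.N := by
      rcases Nat.lt_or_ge j c.D.N with h | h
      · exact h
      · exact absurd hAj (fun h' => (c.D.not_isA h) h')
    have hiN : i < c.D.N := by
      rcases Nat.lt_or_ge i c.D.N with h | h
      · exact h
      · exact absurd hAi (fun h' => (c.D.not_isA h) h')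
    have e1 : c.D.li j = c.D.li i + 1 := by
      have h3 : c.run.C.a j = c.run.C.a i + c.I.m := ha
      rw [ra_eq H, ra_eq H] at h3
      have h4 : c.I.m * c.D.li j = c.I.m * (c.D.li i + 1) := by rw [h3]; ring
      exact Nat.eq_of_mul_eq_mul_left (by omega) h4
    obtain ⟨-, h5⟩ := hU.has.lev_of_isA hiN hAi
    obtain ⟨-, h6⟩ := hU.has.lev_of_isA hjN hAj
    have h7 : c.D.L.k (c.D.ix i) = c.RC (c.D.li i) := by
      rw [c.D.li_eq hiN.le, c.D.ix_eq hiN.le]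
      exact h5
    have h8 : c.D.L.k (c.D.ix j) = c.RC (c.D.li j) := by
      rw [c.D.li_eq hjN.le, c.D.ix_eq hjN.le]
      exact h6
    have h9 : c.RC (c.D.li i + 1) = c.RC (c.D.li i) + 1 := by
      refine V.dg _ ?_ ?_
      · rw [← e1]
        exact li_ha H j
      · rw [e1] at hv
        exact hv
    show c.run.C.rk j = c.run.C.rk i + c.I.m
    rw [rk_eq H, rk_eq H, h7, h8, e1, h9]
    ring
  · exact cut_step H (fun v h1 _ h3 => V.dg v h3 (Or.inl h1)) hij hi hj' hl1 hC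

end C2

namespace C1

variable {c : C1 Ω} {hm : 3 ≤ c.I.m} {cc : ℝ} {in0 : ∀ ω, c.d0.In (c.tW ω) (c.κ ω)} {hc : 0 ≤ cc} {b : ℕ} {V : Type}
  {w : Ω → V} {z : V} {hz : 0 < c.Q1.pr w z} {ps : ℕ} {o : Fin 7 → ℝ} {oK oG oN : ℝ}

/-- **one place of `PF2`** -/
theorem mk2_f2 {Rm Ac rc : ℕ} (H : (c.mk2 hm cc in0 hc b w z hz ps o oK oG oN).Hyp Rm cc Ac rc)
    (hw : ∀ ω ω', 0 < c.Q1.w ω → 0 < c.Q1.w ω' → w ω = w ω' → ∀ a ≤ c.I.ha,
      c.RT hm cc c.Q1 b a ω = c.RT hm cc c.Q1 b a ω') {K : ℝ} (hK : 4 ≤ K) {B bS bV : ℕ} {k0 : ℕ → ℕ}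
    (hk : Monotone k0)
    (hl : ∀ i, k0 i ≤ (c.mk2 hm cc in0 hc b w z hz ps o oK oG oN).D.L.k
      ((c.mk2 hm cc in0 hc b w z hz ps o oK oG oN).D.ix i)) {Vs Xs : Finset ℕ}
    (hV : (c.mk2 hm cc in0 hc b w z hz ps o oK oG oN).VX hm B bS bV k0 Vs Xs)
    (sum : ∀ μ ≤ B, c.I.m ≤ μ → ∀ K' : ℝ, (100 * K) ^ 20 ≤ K' → K' ≤ B → ∃ (o1 : Fin 7 → ℝ) (o' : ℕ → ℝ),
      S3.F2o ((c.mk2 hm cc in0 hc b w z hz ps o oK oG oN).erun hm) (c.mk2 hm cc in0 hc b w z hz ps o oK oG oN).num B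
        bS bV ((c.mk2 hm cc in0 hc b w z hz ps o oK oG oN).pfd hm k0 hk hl B) Vs Xs μ K' o1 o') :
    ∃ (ξ : Type) (X : ℕ → Ω → ξ) (hX : ∀ i ω ω', X (i + 1) ω = X (i + 1) ω' → X i ω = X i ω'),
      let C := c.mk2 hm cc in0 hc b w z hz ps o oK oG oN
      (∀ i ≤ C.run.n + C.num.J, Fn C.run.Q (X i) C.run.W') ∧
      (∀ i ≤ C.run.n + C.num.J, Fn C.run.Q (X i) (C.run.Z i)) ∧
      ∃ (π : Type) (bS bV : ℕ) (F : S3.Pf (C.run.ext X hX) π) (Vs Xs : Finset ℕ),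
        S3.F2 (C.run.ext X hX) C.num K B bS bV F Vs Xs :=
  ⟨_, (c.mk2 hm cc in0 hc b w z hz ps o oK oG oN).pX hm, (c.mk2 hm cc in0 hc b w z hz ps o oK oG oN).pX_nest hm,
    fun i _ => C2.pfW (k0 := fun _ => 0) (hk := fun _ _ _ => le_rfl) (hl := fun _ => Nat.zero_le _) (Bb := 0) H
      (mk2_hx hw) i,
    fun i _ => C2.pX_Z H i, _, bS, bV, _, Vs, Xs, C2.f2_of H (mk2_hx hw) hV hK sum⟩

end C1

end Vale.Agent.P106.U.H565
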