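import Vale.Agent.P106.U.H565.RunF
import Vale.Agent.P106.U.H465.GcK
import Vale.Agent.P106.U.H339.WordH

/-!
# P106 / U / H465 : the closure for helper565's run (row (d) of PRun v2; helper465)

* `C0.Gb Q b`, `C0.RT Q b a`, `C0.gT Q b a` : closure, second path, value under the law `Q` (`U/H465/GcK.lean`).
* `C0.wRT`, `C0.XR` : helper339's word; `C0.Zr` : joint word of the caps `b0, .., b0 + kk s`; `wd` : `H339W.Wd`, tolerance `0`.
* for every law `Q` with `Cn` : `fin2`, `gp`, `prW`, `prW_avg` (cost of the price under the law after the word), `zr_fn`, `zr_det`.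
* `C1.mk2` : **the data at the cap from a word `w` (function of the closure, which determines the second path)**; `mk2_gc` : `GC`
  with margin `0`, `mk2_W0`.
-/

set_option autoImplicit false

namespace Vale.Agent.P106.U.H565

open Finset Vale.Agent.P127 Vale.Agent.P127.Stk Vale.Agent.P127.U Vale.Agent.P106.W
open Vale.Agent.P106.K (Ry RyOk bl Bin)
open Vale.Agent.P127.U.CellD (q2 rd)
open Vale.Agent.P106.U Vale.Agent.P106.U.H449 Vale.Agent.P106.U.StripL Vale.Agent.P106.U.StripE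
open Vale.Agent.P106.U.LinkR Vale.Agent.P106.U.InsL Vale.Agent.P106.U.InpC
open Vale.Agent.P106.U.H823.NumG

namespace C0

variable {Ω : Type} [Fintype Ω] (c : C0 Ω) (hm : 3 ≤ c.I.m) (cc : ℝ)

/-- the closure under the law `Q`, base `b` -/
noncomputable def Gb : Law Ω → ℕ → Ω → Set Ω :=
  H465.GcK.GbC c.I.m c.d0 c.rule c.P c.I.pm.n c.I.ha hm cc c.Fy

/-- the second path under the law `Q`, base `b`, level `a` -/
noncomputable def RT (Q : Law Ω) (b a : ℕ) (ω : Ω) : ℕ :=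
  H465.GcK.RTC c.I.m c.d0 c.rule c.P c.I.pm.n c.I.ha hm cc c.Fy Q b a ω

/-- the value of the slope under the law `Q`, base `b`, level `a` -/
noncomputable def gT (Q : Law Ω) (b a : ℕ) (ω : Ω) : ℝ :=
  H465.GcK.gTC c.I.m c.d0 c.rule c.P c.I.pm.n c.I.ha hm cc c.Fy Q b a ω

/-- the word (revealed depth `+ ha`) -/
noncomputable def wRT (Q : Law Ω) (b : ℕ) (ω : Ω) (a : ℕ) : ℕ := c.RT hm cc Q b a ω + (c.I.ha - a)

/-- its bound -/
noncomputable def XR (E : List (Lt 2)) (a : ℕ) : ℕ := Rw c.I.pm.n E 1 a + (c.I.ha - a)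

/-- **the joint word** of the caps `b0, b0 + s, .., b0 + kk s` -/
noncomputable def Zr (s : ℕ) (Q : Law Ω) (b0 kk : ℕ) : Ω → ℕ → ℕ → ℕ :=
  H339W.jws c.I.ha s (c.wRT hm cc Q) b0 kk

variable {c hm cc} {Q : Law Ω} {E : List (Lt 2)} {x : ℝ}

theorem isL0 (in0 : ∀ ω, c.d0.In (c.tW ω) (c.κ ω)) : IsL c.I.m c.d0 c.tW c.κ c.rule :=
  isL in0 _ _ _ c.P c.I.pm c.thr

/-- the past is a function of the closure -/
theorem gb_F (cn : Cn c.rule c.P Q c.I.pm.n E x) {b : ℕ} {ω ω' : Ω}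
    (h : c.Gb hm cc Q b ω' = c.Gb hm cc Q b ω) : c.Fy b ω' = c.Fy b ω := H465.GcK.GbC_F cn h

theorem gb_nest (cn : Cn c.rule c.P Q c.I.pm.n E x) {b b' : ℕ} (hb : b ≤ b') {ω ω' : Ω}
    (h : c.Gb hm cc Q b' ω' = c.Gb hm cc Q b' ω) : c.Gb hm cc Q b ω' = c.Gb hm cc Q b ω :=
  H465.GcK.GbC_nest cn hb h

/-- the second path and the value are functions of the closure at a later base -/
theorem rt_fn (cn : Cn c.rule c.P Q c.I.pm.n E x) (in0 : ∀ ω, c.d0.In (c.tW ω) (c.κ ω)) (hc : 0 ≤ cc)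
    {b b' : ℕ} (hb : b ≤ b') {ω ω' : Ω} (h : c.Gb hm cc Q b' ω' = c.Gb hm cc Q b' ω) (a : ℕ) :
    c.RT hm cc Q b a ω' = c.RT hm cc Q b a ω ∧ c.gT hm cc Q b a ω' = c.gT hm cc Q b a ω :=
  H465.GcK.RTC_fn' cn (isL0 in0) hc hb h a

theorem rt_mono (cn : Cn c.rule c.P Q c.I.pm.n E x) {b b' : ℕ} (hb : b ≤ b') (ω : Ω) (a : ℕ) :
    c.RT hm cc Q b a ω ≤ c.RT hm cc Q b' a ω := H465.GcK.RTC_mono cn hb ω a

theorem rt_le (cn : Cn c.rule c.P Q c.I.pm.n E x) (b a : ℕ) (ω : Ω) :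
    c.RT hm cc Q b a ω ≤ Rw c.I.pm.n E 1 a := H465.GcK.RTC_le cn b a ω

/-- the exact diagonal -/
theorem rt_eq (cn : Cn c.rule c.P Q c.I.pm.n E x) (in0 : ∀ ω, c.d0.In (c.tW ω) (c.κ ω)) (hc : 0 ≤ cc)
    (b : ℕ) (ω : Ω) {a : ℕ} (ha : a + 1 ≤ c.I.ha) (h : c.RT hm cc Q b a ω + 2 ≤ Rw c.I.pm.n E 1 a) :
    c.RT hm cc Q b (a + 1) ω = c.RT hm cc Q b a ω + 1 := by
  have h1 := (H465.GcK.kw (A := c.I.ha) (hm := hm) (F := c.Fy) cn (isL0 in0) hc b).RT_eq (ω := ω) (a := a) ha (by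
    have e1 := H465.GcK.RTC_eq (A := c.I.ha) (hm := hm) (c := cc) (F := c.Fy) (d0 := c.d0) cn b a ω
    unfold RT at h
    rw [e1] at h
    exact h)
  unfold RT
  rw [H465.GcK.RTC_eq cn, H465.GcK.RTC_eq cn]
  exact h1

/-- the value is right on the whole support -/
theorem gT_spec (cn : Cn c.rule c.P Q c.I.pm.n E x) (in0 : ∀ ω, c.d0.In (c.tW ω) (c.κ ω)) (b a : ℕ) {ω : Ω}
    (hω : 0 < Q.w ω) : |c.alR E a ω - c.gT hm cc Q b a ω| ≤
      ((2 : ℝ) ^ c.I.m) ^ ((a : ℤ) - c.RT hm cc Q b a ω) := H465.GcK.gTC_spec cn (isL0 in0) b a hω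

/-- 823's `W2`, margin `0` -/
theorem w2_rt (cn : Cn c.rule c.P Q c.I.pm.n E x) (in0 : ∀ ω, c.d0.In (c.tW ω) (c.κ ω)) (hc : 0 ≤ cc) (b : ℕ) (ω : Ω) :
    W2 (Rw c.I.pm.n E 1) (ext (Rw c.I.pm.n E 1) (fun a => c.RT hm cc Q b a ω) c.I.ha) 0 :=
  H465.GcK.w2 cn (isL0 in0) hc b ω

/-! ### past and block -/

theorem fy1 (b : ℕ) : Fn Q (c.Fy (b + 1)) (fun ω => (c.Fy b ω, c.Yb b ω)) := by
  intro ω ω' _ _ e
  simp only [Prod.mk.injEq] at e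
  obtain ⟨e1, e2⟩ := e
  unfold Fy pst at e1 ⊢
  unfold Yb yb at e2
  obtain ⟨e3, e4⟩ := Prod.mk.inj e1
  rw [e4] at e2
  exact Prod.ext e3 (by linarith)

theorem fy2 {b : ℕ} {ω ω' : Ω} (e : c.Fy (b + 1) ω' = c.Fy (b + 1) ω) :
    c.Fy b ω' = c.Fy b ω ∧ c.Yb b ω' = c.Yb b ω := pst_nest c.I.m c.v c.Wd b e

/-- **`Fin2`** of helper480 -/
theorem fin2 (cn : Cn c.rule c.P Q c.I.pm.n E x) (B : ℕ) : G480.Fin2 Q B c.Yb c.Fy (c.Gb hm cc Q) :=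
  H465.GcK.fin2C cn (fun b _ => fy1 b) (fun _ _ _ _ _ _ e => (fy2 e).1) (fun _ _ _ _ _ _ e => (fy2 e).2)

/-- number of classes times cost of a class -/
noncomputable def gpr (c : C0 Ω) (cc : ℝ) (E : List (Lt 2)) : ℝ :=
  (3 * c.I.ha + Rw c.I.pm.n E 1 c.I.ha + 1 : ℕ) *
    (Real.log 5 + (2 * Real.sqrt cc + cc * ((c.I.m + 1) * Real.log 2)))

/-- **the price of the closures** -/
theorem gp (cn : Cn c.rule c.P Q c.I.pm.n E x) (in0 : ∀ ω, c.d0.In (c.tW ω) (c.κ ω)) (hc : 0 ≤ cc) (B : ℕ) :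
    Stk.hc Q (c.Gb hm cc Q 0) (c.Fy 0) +
      ∑ b ∈ range B, Stk.hc Q (c.Gb hm cc Q (b + 1)) (fun ω => (c.Gb hm cc Q b ω, c.Yb b ω)) ≤ c.gpr cc E :=
  H465.GcK.gpC' cn (isL0 in0) hc (fun b _ => fy1 b) (fun _ _ _ _ _ _ e => (fy2 e).2)

/-- **the price of one closure** -/
theorem prW (cn : Cn c.rule c.P Q c.I.pm.n E x) (in0 : ∀ ω, c.d0.In (c.tW ω) (c.κ ω)) (hc : 0 ≤ cc) (b : ℕ) :
    Stk.hc Q (c.Gb hm cc Q b) (c.Fy b) ≤ c.gpr cc E :=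
  H465.GcK.prWC' cn (isL0 in0) hc (fun _ _ _ e => (fy2 e).1) b

/-- **the price of one closure under the law after a word**, in the average -/
theorem prW_avg (cn : Cn c.rule c.P Q c.I.pm.n E x) (in0 : ∀ ω, c.d0.In (c.tW ω) (c.κ ω)) (hc : 0 ≤ cc) (b : ℕ)
    {V : Type*} (w : Ω → V) :
    Q.ex (fun ω => Stk.hc (Q.cond w (w ω)) (c.Gb hm cc Q b) (c.Fy b)) ≤ c.gpr cc E := by
  rw [P127.S.StepEx.ex_hc]
  exact (hc_mono_right Q _ (fun _ _ _ _ e => congrArg Prod.fst e)).trans (prW cn in0 hc b)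

/-! ### the word -/

/-- **helper339's `Wd`**, tolerance `0` -/
theorem wd (cn : Cn c.rule c.P Q c.I.pm.n E x) (in0 : ∀ ω, c.d0.In (c.tW ω) (c.κ ω)) (hc : 0 ≤ cc) (B : ℕ) :
    H339W.Wd Q c.I.ha B 0 (c.XR E) (c.wRT hm cc Q) where
  le := fun b _ ω _ a _ => Nat.add_le_add_right (rt_le cn b a ω) _
  desc := fun a ha => by
    have h1 : Rw c.I.pm.n E 1 a ≤ Rw c.I.pm.n E 1 (a + 1) := rR_mono cn (Nat.le_succ a)
    unfold XR
    omega
  lag := fun b _ ω _ a ha h => by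
    unfold XR wRT at *
    have h1 := rt_eq (hm := hm) cn in0 hc b ω (a := a) ha (by omega)
    rw [h1]
    omega
  mono := fun b _ ω _ a _ => Nat.add_le_add_right (rt_mono cn (Nat.le_succ b) ω a) _

/-- the joint word is a function of the closure at the last cap -/
theorem zr_fn (cn : Cn c.rule c.P Q c.I.pm.n E x) (in0 : ∀ ω, c.d0.In (c.tW ω) (c.κ ω)) (hc : 0 ≤ cc) {s b0 kk : ℕ}
    {ω ω' : Ω} (h : c.Gb hm cc Q (b0 + kk * s) ω = c.Gb hm cc Q (b0 + kk * s) ω') :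
    c.Zr hm cc s Q b0 kk ω = c.Zr hm cc s Q b0 kk ω' := by
  refine H339W.jws_fn fun k hk a _ => ?_
  unfold wRT
  rw [(rt_fn cn in0 hc (Nat.add_le_add_left (Nat.mul_le_mul_right s hk) b0) h a).1]

/-- the joint word determines the second paths -/
theorem zr_det {s b0 kk : ℕ} {ω ω' : Ω} (h : c.Zr hm cc s Q b0 kk ω = c.Zr hm cc s Q b0 kk ω') {k : ℕ} (hk : k ≤ kk)
    {a : ℕ} (ha : a ≤ c.I.ha) : c.RT hm cc Q (b0 + k * s) a ω = c.RT hm cc Q (b0 + k * s) a ω' := by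
  have h1 := H339W.jws_eq h hk ha
  unfold wRT at h1
  omega

end C0

/-! ### the data at the cap -/

namespace C1

variable {Ω : Type} [Fintype Ω] (c : C1 Ω) (hm : 3 ≤ c.I.m) (cc : ℝ)

/-- the precisions at the cap `b` : the second path at a point of the law after the word, continued above `ha` -/
noncomputable def rcx (b : ℕ) {V : Type} (w : Ω → V) (z : V) : ℕ → ℕ :=
  ext (Rw c.I.pm.n c.E1 1) (fun a => c.RT hm cc c.Q1 b a (H465.GcK.ex_supp (c.Q1.cond w z)).choose) c.I.ha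

variable {c hm cc}

theorem cn_cond {V : Type} (w : Ω → V) (z : V) (hz : 0 < c.Q1.pr w z) :
    Cn c.rule c.P (c.Q1.cond w z) c.I.pm.n c.E1 (c.x1 * c.Q1.pr w z) where
  hq := mul_pos c.cn.hq hz
  dom := fun ω => by
    classical
    refine le_trans ?_ (c.cn.dom ω)
    rw [mul_assoc]
    refine mul_le_mul_of_nonneg_left ?_ c.cn.hq.le
    rw [c.Q1.cond_w w z hz]
    by_cases h : w ω = z
    · rw [if_pos h, mul_div_cancel₀ _ hz.ne']
    · rw [if_neg h, mul_zero]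
      exact c.Q1.nn ω
  hE := fun ω hω => c.cn.hE ω (supp_cond hz hω).1

variable (c hm cc)

/-- **the data at the cap `b`** from the value `z` of the word `w` -/
noncomputable def mk2 (in0 : ∀ ω, c.d0.In (c.tW ω) (c.κ ω)) (hc : 0 ≤ cc) (b : ℕ) {V : Type} (w : Ω → V) (z : V)
    (hz : 0 < c.Q1.pr w z) (ps : ℕ) (o : Fin 7 → ℝ) (oK oG oN : ℝ) : C2 Ω :=
  { c with
    Q := c.Q1.cond w z
    x2 := c.Q1.pr w z
    cn2 := cn_cond w z hz
    b1 := b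
    G := c.Gb hm cc c.Q1 b
    g := c.gT hm cc c.Q1 b
    RC := c.rcx hm cc b w z
    s := 0
    w2 := C0.w2_rt c.cn in0 hc b _
    ps := ps
    o := o
    oK := oK
    oG := oG
    oN := oN }

variable {c hm cc} {in0 : ∀ ω, c.d0.In (c.tW ω) (c.κ ω)} {hc : 0 ≤ cc} {b : ℕ} {V : Type} {w : Ω → V} {z : V}
  {hz : 0 < c.Q1.pr w z} {ps : ℕ} {o : Fin 7 → ℝ} {oK oG oN : ℝ}

/-- the precisions at every point of the law after the word -/
theorem rcx_eq (hw : ∀ ω ω', 0 < c.Q1.w ω → 0 < c.Q1.w ω' → w ω = w ω' → ∀ a ≤ c.I.ha,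
    c.RT hm cc c.Q1 b a ω = c.RT hm cc c.Q1 b a ω') (hz : 0 < c.Q1.pr w z) {a : ℕ} (ha : a ≤ c.I.ha) {ω : Ω}
    (hω : 0 < c.Q1.w ω) (hwz : w ω = z) : c.RT hm cc c.Q1 b a ω = c.rcx hm cc b w z a := by
  obtain ⟨h1, h2⟩ := supp_cond hz (H465.GcK.ex_supp (c.Q1.cond w z)).choose_spec
  unfold rcx
  rw [ext_eq ha]
  exact hw _ _ hω h1 (hwz.trans h2.symm) a ha

/-- **the closure at the cap** -/
theorem mk2_gc (hf : Fn c.Q1 w (c.Gb hm cc c.Q1 b))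
    (hw : ∀ ω ω', 0 < c.Q1.w ω → 0 < c.Q1.w ω' → w ω = w ω' → ∀ a ≤ c.I.ha,
      c.RT hm cc c.Q1 b a ω = c.RT hm cc c.Q1 b a ω') :
    GC c.I.m c.d0 c.rule c.P c.I.pm.n c.E1 (c.mk2 hm cc in0 hc b w z hz ps o oK oG oN).Q c.I.ha
      (c.mk2 hm cc in0 hc b w z hz ps o oK oG oN).G (c.mk2 hm cc in0 hc b w z hz ps o oK oG oN).RC
      (c.mk2 hm cc in0 hc b w z hz ps o oK oG oN).g cc (c.mk2 hm cc in0 hc b w z hz ps o oK oG oN).s :=
  H465.GcK.gc c.cn (C0.isL0 in0) hc b w z _ hz hf fun _ ha _ hω hwz => rcx_eq hw hz ha hω hwz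

/-- the past is a function of the closure -/
theorem mk2_W0 : Fn (c.mk2 hm cc in0 hc b w z hz ps o oK oG oN).Q (c.Fy b) (c.mk2 hm cc in0 hc b w z hz ps o oK oG oN).G :=
  fun _ _ _ _ e => C0.gb_F c.cn e

/-- the support -/
theorem mk2_sup {ω : Ω} (hω : 0 < (c.mk2 hm cc in0 hc b w z hz ps o oK oG oN).Q.w ω) : 0 < c.Q1.w ω ∧ w ω = z :=
  supp_cond hz hω

/-- the word of helper339 for the window `b0, .., b0 + kk s` satisfies the hypotheses of `mk2_gc` at the cap `b0 + kk s` -/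
theorem zr_ok (s b0 kk : ℕ) {V : Type} (w : Ω → V)
    (hw : ∀ ω ω', 0 < c.Q1.w ω → 0 < c.Q1.w ω' → w ω = w ω' → c.Zr hm cc s c.Q1 b0 kk ω = c.Zr hm cc s c.Q1 b0 kk ω') :
    ∀ ω ω', 0 < c.Q1.w ω → 0 < c.Q1.w ω' → w ω = w ω' → ∀ a ≤ c.I.ha,
      c.RT hm cc c.Q1 (b0 + kk * s) a ω = c.RT hm cc c.Q1 (b0 + kk * s) a ω' :=
  fun ω ω' h h' e _ ha => C0.zr_det (hw ω ω' h h' e) le_rfl ha

end C1

end Vale.Agent.P106.U.H565
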