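import Mathlib

/-!
# P106 / U / H465 : nondegeneracy of the relative functional of two boxes (real arithmetic)
-/

set_option autoImplicit false

namespace Vale.Agent.P106.U.H465

theorem ndg_pow {T c0 : ℝ} (hT : 1 ≤ T) (hc0 : 0 < c0) (hc : c0 * (200 * T ^ 4) ≤ 1) :
    1 ≤ T ^ 2 ∧ T ≤ T ^ 4 ∧ T ^ 3 ≤ T ^ 4 ∧ c0 ≤ 1 / 200 ∧ c0 ^ 2 ≤ c0 := by
  have hT4 : (1:ℝ) ≤ T ^ 4 := one_le_pow₀ hT
  refine ⟨one_le_pow₀ hT, ?_, pow_le_pow_right₀ hT (by norm_num), ?_, ?_⟩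
  · calc T = T ^ 1 := (pow_one T).symm
      _ ≤ T ^ 4 := pow_le_pow_right₀ hT (by norm_num)
  · nlinarith
  · have : c0 ≤ 1 := by nlinarith
    nlinarith

/-- cross product -/
theorem ndg_crs {Fa Fb Ga Gb τ σL c0 e e1 T : ℝ} (hT : 1 ≤ T) (hc1 : c0 ^ 2 ≤ 1)
    (he1 : e ≤ c0 ^ 2) (he2 : e1 ≤ c0 ^ 2)
    (h1 : |Fa ^ 2 + Fb ^ 2 - 1| ≤ e1) (h2 : |Fa * Ga + Fb * Gb - τ| ≤ e) (h3 : |Ga ^ 2 + Gb ^ 2 - σL| ≤ e)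
    (hD : σL - τ ^ 2 ≤ c0 ^ 2) (hτ : |τ| ≤ T) (hL : |σL| ≤ T) :
    (Fa * (Gb - τ * Fb) - Fb * (Ga - τ * Fa)) ^ 2 ≤ 6 * T * c0 ^ 2 := by
  obtain ⟨x, hx⟩ : ∃ x, x = Fa ^ 2 + Fb ^ 2 - 1 := ⟨_, rfl⟩
  obtain ⟨y, hy⟩ : ∃ y, y = Ga ^ 2 + Gb ^ 2 - σL := ⟨_, rfl⟩
  obtain ⟨w, hw⟩ : ∃ w, w = Fa * Ga + Fb * Gb - τ := ⟨_, rfl⟩
  have e2 : (Fa * (Gb - τ * Fb) - Fb * (Ga - τ * Fa)) ^ 2 =
      (σL - τ ^ 2) + x * σL + y + x * y - 2 * τ * w - w ^ 2 := by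
    rw [hx, hy, hw]; ring
  rw [e2]
  rw [← hx] at h1
  rw [← hy] at h3
  rw [← hw] at h2
  have b1 : x * σL ≤ c0 ^ 2 * T := by
    refine (le_abs_self _).trans ?_
    rw [abs_mul]
    exact mul_le_mul (h1.trans he2) hL (abs_nonneg _) (by positivity)
  have b2 : x * y ≤ c0 ^ 2 * 1 := by
    refine (le_abs_self _).trans ?_
    rw [abs_mul]
    exact mul_le_mul (h1.trans he2) (h3.trans (he1.trans hc1)) (abs_nonneg _) (by positivity)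
  have b3 : -2 * τ * w ≤ 2 * T * c0 ^ 2 := by
    refine (le_abs_self _).trans ?_
    rw [abs_mul, abs_mul]
    have h22 : |(-2 : ℝ)| = 2 := by norm_num
    rw [h22]
    exact mul_le_mul (by linarith) (h2.trans he1) (abs_nonneg _) (by linarith)
  have b4 : y ≤ c0 ^ 2 := (le_abs_self _).trans (h3.trans he1)
  have b5 : c0 ^ 2 ≤ T * c0 ^ 2 := le_mul_of_one_le_left (sq_nonneg c0) hT
  linarith [sq_nonneg w]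

/-- the difference `D = G - τ F` is small -/
theorem ndg_D {Fa Fb Ga Gb τ σL c0 e e1 T : ℝ} (hT : 1 ≤ T) (hc0 : 0 < c0) (hc1 : c0 ≤ 1 / 200)
    (he1 : e ≤ c0 ^ 2) (he2 : e1 ≤ c0 ^ 2)
    (h1 : |Fa ^ 2 + Fb ^ 2 - 1| ≤ e1) (h2 : |Fa * Ga + Fb * Gb - τ| ≤ e) (h3 : |Ga ^ 2 + Gb ^ 2 - σL| ≤ e)
    (hD : σL - τ ^ 2 ≤ c0 ^ 2) (hτ : |τ| ≤ T) (hL : |σL| ≤ T) :
    |Fa * (Ga - τ * Fa) + Fb * (Gb - τ * Fb)| ≤ 2 * T * c0 ^ 2 ∧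
      (Ga - τ * Fa) ^ 2 + (Gb - τ * Fb) ^ 2 ≤ 25 * T ^ 2 * c0 ^ 2 ∧ |Fa| ≤ 2 ∧ |Fb| ≤ 2 := by
  have hc2 : c0 ^ 2 ≤ 1 := by nlinarith
  have hc3 : c0 ^ 2 ≤ 1 / 2 := by nlinarith
  have k2 := ndg_crs hT hc2 he1 he2 h1 h2 h3 hD hτ hL
  have k1 : |Fa * (Ga - τ * Fa) + Fb * (Gb - τ * Fb)| ≤ 2 * T * c0 ^ 2 := by
    have e0 : Fa * (Ga - τ * Fa) + Fb * (Gb - τ * Fb) =
        (Fa * Ga + Fb * Gb - τ) - τ * (Fa ^ 2 + Fb ^ 2 - 1) := by ring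
    rw [e0]
    refine (abs_sub _ _).trans ?_
    rw [abs_mul]
    have a1 : |τ| * |Fa ^ 2 + Fb ^ 2 - 1| ≤ T * c0 ^ 2 := mul_le_mul hτ (h1.trans he2) (abs_nonneg _) (by linarith)
    have a2 : c0 ^ 2 ≤ T * c0 ^ 2 := le_mul_of_one_le_left (sq_nonneg c0) hT
    have a3 := h2.trans he1
    linarith
  obtain ⟨h1a, h1b⟩ := abs_le.1 (h1.trans he2)
  have hF : 1 / 2 ≤ Fa ^ 2 + Fb ^ 2 := by linarith
  have hF2 : Fa ^ 2 + Fb ^ 2 ≤ 2 := by linarith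
  refine ⟨k1, ?_, ?_, ?_⟩
  · have e0 : (Fa ^ 2 + Fb ^ 2) * ((Ga - τ * Fa) ^ 2 + (Gb - τ * Fb) ^ 2) =
        (Fa * (Ga - τ * Fa) + Fb * (Gb - τ * Fb)) ^ 2 + (Fa * (Gb - τ * Fb) - Fb * (Ga - τ * Fa)) ^ 2 := by ring
    have b1 : (Fa * (Ga - τ * Fa) + Fb * (Gb - τ * Fb)) ^ 2 ≤ 4 * T ^ 2 * c0 ^ 2 := by
      have := sq_le_sq' (abs_le.1 k1).1 (abs_le.1 k1).2
      calc (Fa * (Ga - τ * Fa) + Fb * (Gb - τ * Fb)) ^ 2 ≤ (2 * T * c0 ^ 2) ^ 2 := this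
        _ = 4 * T ^ 2 * (c0 ^ 2 * c0 ^ 2) := by ring
        _ ≤ 4 * T ^ 2 * (c0 ^ 2 * 1) := by
            apply mul_le_mul_of_nonneg_left _ (by positivity)
            exact mul_le_mul_of_nonneg_left hc2 (by positivity)
        _ = _ := by ring
    have b2 : T * c0 ^ 2 ≤ T ^ 2 * c0 ^ 2 := by
      apply mul_le_mul_of_nonneg_right _ (sq_nonneg c0)
      nlinarith
    have b3 : 1 / 2 * ((Ga - τ * Fa) ^ 2 + (Gb - τ * Fb) ^ 2) ≤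
        (Fa ^ 2 + Fb ^ 2) * ((Ga - τ * Fa) ^ 2 + (Gb - τ * Fb) ^ 2) :=
      mul_le_mul_of_nonneg_right hF (by positivity)
    have b4 : 0 ≤ T ^ 2 * c0 ^ 2 := by positivity
    linarith
  · rw [abs_le]; constructor <;> nlinarith [sq_nonneg Fb]
  · rw [abs_le]; constructor <;> nlinarith [sq_nonneg Fa]

/-- `λ = σ + η τ` -/
theorem ndg_lam {Fa Fb Ga Gb τ c0 e1 T η σ : ℝ} (hσ : σ = 1 ∨ σ = -1) (hη : 0 < η) (hη1 : η ≤ 1)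
    (hT : 1 ≤ T) (he2 : e1 ≤ c0 ^ 2 * η)
    (h1 : |Fa ^ 2 + Fb ^ 2 - 1| ≤ e1) (hτ : |τ| ≤ T)
    (h4 : |(σ * Fa + η * Ga) ^ 2 + (σ * Fb + η * Gb) ^ 2 - 1| ≤ e1)
    (k1 : |Fa * (Ga - τ * Fa) + Fb * (Gb - τ * Fb)| ≤ 2 * T * c0 ^ 2)
    (k3 : (Ga - τ * Fa) ^ 2 + (Gb - τ * Fb) ^ 2 ≤ 25 * T ^ 2 * c0 ^ 2) :
    ∃ σ' : ℝ, (σ' = 1 ∨ σ' = -1) ∧ |σ + η * τ - σ'| ≤ 39 * T ^ 2 * (c0 ^ 2 * η) := by
  obtain ⟨l, hl⟩ : ∃ l, l = σ + η * τ := ⟨_, rfl⟩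
  have hT2 : (1:ℝ) ≤ T ^ 2 := one_le_pow₀ hT
  have hσ1 : |σ| = 1 := by
    rcases hσ with h | h <;> rw [h] <;> norm_num
  have hl1 : |l| ≤ 2 * T := by
    rw [hl]
    refine (abs_add_le _ _).trans ?_
    rw [hσ1, abs_mul, abs_of_pos hη]
    have := mul_le_mul hη1 hτ (abs_nonneg _) zero_le_one
    linarith
  have hq : 0 ≤ c0 ^ 2 * η := by positivity
  have k4 : |l ^ 2 - 1| ≤ 38 * T ^ 2 * (c0 ^ 2 * η) := by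
    have e0 : (σ * Fa + η * Ga) ^ 2 + (σ * Fb + η * Gb) ^ 2 =
        l ^ 2 * (Fa ^ 2 + Fb ^ 2) + 2 * l * η * (Fa * (Ga - τ * Fa) + Fb * (Gb - τ * Fb)) +
        η ^ 2 * ((Ga - τ * Fa) ^ 2 + (Gb - τ * Fb) ^ 2) := by
      rw [hl]; ring
    rw [e0] at h4
    obtain ⟨u, hu⟩ : ∃ u, u = Fa * (Ga - τ * Fa) + Fb * (Gb - τ * Fb) := ⟨_, rfl⟩
    obtain ⟨v, hv⟩ : ∃ v, v = (Ga - τ * Fa) ^ 2 + (Gb - τ * Fb) ^ 2 := ⟨_, rfl⟩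
    have hv0 : 0 ≤ v := by rw [hv]; positivity
    rw [← hu, ← hv] at h4
    rw [← hu] at k1
    rw [← hv] at k3
    have e3 : l ^ 2 - 1 = (l ^ 2 * (Fa ^ 2 + Fb ^ 2) + 2 * l * η * u + η ^ 2 * v - 1) -
        l ^ 2 * (Fa ^ 2 + Fb ^ 2 - 1) - 2 * l * η * u - η ^ 2 * v := by ring
    rw [e3]
    have hl2 : l ^ 2 ≤ 4 * T ^ 2 := by
      have := sq_le_sq' (abs_le.1 hl1).1 (abs_le.1 hl1).2
      calc l ^ 2 ≤ (2 * T) ^ 2 := this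
        _ = _ := by ring
    have c1 : |l ^ 2 * (Fa ^ 2 + Fb ^ 2 - 1)| ≤ 4 * T ^ 2 * (c0 ^ 2 * η) := by
      rw [abs_mul, abs_of_nonneg (sq_nonneg l)]
      exact mul_le_mul hl2 (h1.trans he2) (abs_nonneg _) (by positivity)
    have c2 : |2 * l * η * u| ≤ 8 * T ^ 2 * (c0 ^ 2 * η) := by
      rw [abs_mul, abs_mul, abs_mul, abs_of_pos hη, abs_two]
      have := mul_le_mul hl1 k1 (abs_nonneg _) (by positivity)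
      calc 2 * |l| * η * |u| = 2 * η * (|l| * |u|) := by ring
        _ ≤ 2 * η * (2 * T * (2 * T * c0 ^ 2)) := mul_le_mul_of_nonneg_left this (by positivity)
        _ = _ := by ring
    have c3 : |η ^ 2 * v| ≤ 25 * T ^ 2 * (c0 ^ 2 * η) := by
      rw [abs_of_nonneg (by positivity)]
      have : η ^ 2 ≤ η := by nlinarith
      calc η ^ 2 * v ≤ η * (25 * T ^ 2 * c0 ^ 2) := mul_le_mul this k3 hv0 hη.le
        _ = _ := by ring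
    have c4 : |l ^ 2 * (Fa ^ 2 + Fb ^ 2) + 2 * l * η * u + η ^ 2 * v - 1| ≤ 1 * (c0 ^ 2 * η) := by
      rw [one_mul]
      exact h4.trans he2
    have c5 : 1 * (c0 ^ 2 * η) ≤ T ^ 2 * (c0 ^ 2 * η) := mul_le_mul_of_nonneg_right hT2 hq
    rw [abs_le] at c1 c2 c3 c4 ⊢
    constructor <;> linarith [c1.1, c1.2, c2.1, c2.2, c3.1, c3.2, c4.1, c4.2]
  have hq2 : 0 ≤ T ^ 2 * (c0 ^ 2 * η) := by positivity
  rcases le_or_gt 0 l with h0 | h0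
  · refine ⟨1, Or.inl rfl, ?_⟩
    rw [← hl]
    have e0 : l ^ 2 - 1 = (l - 1) * (l + 1) := by ring
    rw [e0, abs_mul] at k4
    have : 1 ≤ |l + 1| := by rw [abs_of_pos (by linarith)]; linarith
    have := mul_le_mul_of_nonneg_left this (abs_nonneg (l - 1))
    linarith
  · refine ⟨-1, Or.inr rfl, ?_⟩
    rw [← hl]
    have e0 : l ^ 2 - 1 = (l - -1) * (l - 1) := by ring
    rw [e0, abs_mul] at k4
    have : 1 ≤ |l - 1| := by rw [abs_of_neg (by linarith)]; linarith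
    have := mul_le_mul_of_nonneg_left this (abs_nonneg (l - -1))
    linarith

/-- if the relative functional `G` is close to a multiple of `F`, then `F2 = σ F + η G` is close to `± F` -/
theorem ndg {Fa Fb κ α Ga Gb μ β η σ τ σL c0 e e1 T : ℝ} (hσ : σ = 1 ∨ σ = -1) (hη : 0 < η) (hη1 : η ≤ 1)
    (hT : 1 ≤ T) (hc0 : 0 < c0) (hc : c0 * (200 * T ^ 4) ≤ 1)
    (he1 : e ≤ c0 ^ 2) (he2 : e1 ≤ c0 ^ 2 * η)
    (h1 : |Fa ^ 2 + Fb ^ 2 - 1| ≤ e1) (h2 : |Fa * Ga + Fb * Gb - τ| ≤ e) (h3 : |Ga ^ 2 + Gb ^ 2 - σL| ≤ e)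
    (hD : σL - τ ^ 2 ≤ c0 ^ 2) (hτ : |τ| ≤ T) (hL : |σL| ≤ T) (hκ : |κ| ≤ T) (hα : |α| ≤ T)
    (h4 : |(σ * Fa + η * Ga) ^ 2 + (σ * Fb + η * Gb) ^ 2 - 1| ≤ e1)
    (h5 : |μ - τ * κ| ≤ c0) (h6 : |β - τ * α| ≤ c0) :
    ∃ σ' : ℝ, (σ' = 1 ∨ σ' = -1) ∧ |(σ * Fa + η * Ga) - σ' * Fa| ≤ η / 2 ∧ |(σ * Fb + η * Gb) - σ' * Fb| ≤ η / 2 ∧
      |(σ * κ + η * μ) - σ' * κ| ≤ η / 2 ∧ |(σ * α + η * β) - σ' * α| ≤ η / 2 := by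
  obtain ⟨hT2, hTT, hT34, hc1, hc2⟩ := ndg_pow hT hc0 hc
  have he1c : e1 ≤ c0 ^ 2 := he2.trans (mul_le_of_le_one_right (sq_nonneg c0) hη1)
  obtain ⟨k1, k3, hFa, hFb⟩ := ndg_D hT hc0 hc1 he1 he1c h1 h2 h3 hD hτ hL
  obtain ⟨σ', hσ', k6⟩ := ndg_lam hσ hη hη1 hT he2 h1 hτ h4 k1 k3
  have hDa1 : |Ga - τ * Fa| ≤ 5 * T * c0 := by
    apply abs_le_of_sq_le_sq _ (by positivity)
    have : (5 * T * c0) ^ 2 = 25 * T ^ 2 * c0 ^ 2 := by ring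
    rw [this]
    linarith [sq_nonneg (Gb - τ * Fb)]
  have hDb1 : |Gb - τ * Fb| ≤ 5 * T * c0 := by
    apply abs_le_of_sq_le_sq _ (by positivity)
    have : (5 * T * c0) ^ 2 = 25 * T ^ 2 * c0 ^ 2 := by ring
    rw [this]
    linarith [sq_nonneg (Ga - τ * Fa)]
  have k7 : 39 * T ^ 2 * (c0 ^ 2 * η) ≤ 39 * T ^ 2 * (c0 * η) :=
    mul_le_mul_of_nonneg_left (mul_le_mul_of_nonneg_right hc2 hη.le) (by positivity)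
  have k8 := k6.trans k7
  have a3 : 78 * T ^ 3 * c0 + 5 * T * c0 ≤ 1 / 2 := by
    have b1 : T ^ 3 * c0 ≤ T ^ 4 * c0 := mul_le_mul_of_nonneg_right hT34 hc0.le
    have b2 : T * c0 ≤ T ^ 4 * c0 := mul_le_mul_of_nonneg_right hTT hc0.le
    linarith
  have a4 := mul_le_mul_of_nonneg_left a3 hη.le
  have fin : ∀ f g : ℝ, |f| ≤ 2 * T → |g - τ * f| ≤ 5 * T * c0 →
      |(σ * f + η * g) - σ' * f| ≤ η / 2 := by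
    intro f g hf hd
    have e0 : (σ * f + η * g) - σ' * f = (σ + η * τ - σ') * f + η * (g - τ * f) := by ring
    rw [e0]
    refine (abs_add_le _ _).trans ?_
    rw [abs_mul, abs_mul, abs_of_pos hη]
    have a1 : |σ + η * τ - σ'| * |f| ≤ 39 * T ^ 2 * (c0 * η) * (2 * T) := mul_le_mul k8 hf (abs_nonneg _) (by positivity)
    have a2 : η * |g - τ * f| ≤ η * (5 * T * c0) := mul_le_mul_of_nonneg_left hd hη.le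
    linarith
  have hcT : c0 ≤ 5 * T * c0 := by
    have : c0 ≤ T * c0 := le_mul_of_one_le_left hc0.le hT
    linarith
  exact ⟨σ', hσ', fin Fa Ga (by linarith) hDa1, fin Fb Gb (by linarith) hDb1,
    fin κ μ (by linarith) (h5.trans hcT), fin α β (by linarith) (h6.trans hcT)⟩

end Vale.Agent.P106.U.H465
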