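import Vale.Agent.P106.U.H465.SubProps
import Vale.Agent.P106.U.H465.Ndg
import Vale.Agent.P106.U.H428.Join
import Vale.Agent.P106.U.H543.Cov5
import Vale.Agent.P106.U.H377.FunDg
import Vale.Agent.P106.U.H20.Zoom

/-!
# P106 / U / H465 : MEET, part A: the functionals of two boxes in the coordinates centred at the first box (cap units)
-/

set_option autoImplicit false

namespace Vale.Agent.P106.U.H465

open Vale.Agent.P127 Vale.Agent.P127.Stk Vale.Agent.P127.U Vale.Agent.P106.W Vale.Agent.P106.K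
open Vale.Agent.P106.U.H428 (G0 G1 nv nv_sub G0_eq G1_eq nv_sq cn ze bin_nr bin_g0 bin_g1 kap_le Nr)
open Vale.Agent.P106.U.Cov5 (nn sp ow tau sig Del KK Dp Sb)

/-- the functional of `B` in the coordinates `zm b r` -/
noncomputable def hf (b : ℕ) (B : Cbx) (r : Ry) : Cov5.Fu := ⟨nv B r 0, nv B r 1, B.κ / 2 ^ b, B.α / 2 ^ b⟩

theorem hf_v0 (b : ℕ) (B : Cbx) (r l : Ry) : (hf b B r).v0 (zm b r l) = 2 ^ b * (G0 B l - G0 B r) := by
  have h2 : (2 : ℝ) ^ b ≠ 0 := by positivity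
  rw [G0_eq B l r]
  simp only [Cov5.Fu.v0, hf, zm_y, zm_s, zm_z, ze, Fin.sum_univ_two, pp]
  field_simp
  ring

theorem hf_v1 (b : ℕ) (B : Cbx) (r l : Ry) : (hf b B r).v1 (zm b r l) = 2 ^ b * (G1 B l - G1 B r) := by
  have h2 : (2 : ℝ) ^ b ≠ 0 := by positivity
  rw [G1_eq B l r]
  simp only [Cov5.Fu.v1, hf, zm_s, zm_z, ze, Fin.sum_univ_two, pp]
  field_simp
  ring

theorem hf_N0 (b : ℕ) (B : Cbx) (r l : Ry) : (hf b B r).N0 (zm b r l) = nv B l 0 := by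
  have h2 : (2 : ℝ) ^ b ≠ 0 := by positivity
  rw [nv_sub B l r]
  simp only [Cov5.Fu.N0, hf, zm_y, zm_s]
  field_simp

theorem hf_N1 (b : ℕ) (B : Cbx) (r l : Ry) : (hf b B r).N1 (zm b r l) = nv B l 1 := by
  have h2 : (2 : ℝ) ^ b ≠ 0 := by positivity
  rw [nv_sub B l r]
  simp only [Cov5.Fu.N1, hf, zm_y, zm_s]
  field_simp

theorem nv_cn (B : Cbx) : nv B (cn B) 0 = -Real.sin B.θ ∧ nv B (cn B) 1 = Real.cos B.θ := by
  simp [nv, Cbx.nn, cn]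

theorem nv_cn_sq (B : Cbx) : nv B (cn B) 0 ^ 2 + nv B (cn B) 1 ^ 2 = 1 := by
  rw [(nv_cn B).1, (nv_cn B).2]
  have := Real.sin_sq_add_cos_sq B.θ
  linarith [neg_sq (Real.sin B.θ)]

theorem G0_cn (B : Cbx) : G0 B (cn B) = 0 := by
  simp [G0, Cbx.g0, cn, Vale.Agent.P122.C2.fn]

theorem G1_cn (B : Cbx) : G1 B (cn B) = 0 := by
  simp [G1, Cbx.g1, cn, Vale.Agent.P122.C2.fn]

/-- `(f' - σ f) / η` -/
noncomputable def cmb (σ η : ℝ) (f f' : Cov5.Fu) : Cov5.Fu :=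
  ⟨(f'.n0 - σ * f.n0) / η, (f'.n1 - σ * f.n1) / η, (f'.κ - σ * f.κ) / η, (f'.α - σ * f.α) / η⟩

theorem cmb_v0 (σ η : ℝ) (f f' : Cov5.Fu) (l : Ry) : (cmb σ η f f').v0 l = (f'.v0 l - σ * f.v0 l) / η := by
  simp only [Cov5.Fu.v0, cmb]
  ring

theorem cmb_v1 (σ η : ℝ) (f f' : Cov5.Fu) (l : Ry) : (cmb σ η f f').v1 l = (f'.v1 l - σ * f.v1 l) / η := by
  simp only [Cov5.Fu.v1, cmb]
  ring

theorem cmb_N0 (σ η : ℝ) (f f' : Cov5.Fu) (l : Ry) : (cmb σ η f f').N0 l = (f'.N0 l - σ * f.N0 l) / η := by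
  simp only [Cov5.Fu.N0, cmb]
  ring

theorem cmb_N1 (σ η : ℝ) (f f' : Cov5.Fu) (l : Ry) : (cmb σ η f f').N1 l = (f'.N1 l - σ * f.N1 l) / η := by
  simp only [Cov5.Fu.N1, cmb]
  ring

/-- coordinates of a ray of the box -/
theorem zm_bd {c : ℝ} {b R : ℕ} {B : Cbx} (hB : Shp c b R B) {l : Ry} (h : Bin c B 0 l) :
    (∀ k, |(zm b (cn B) l).y k| ≤ c) ∧ (∀ k, |(zm b (cn B) l).s k| ≤ c) ∧
      |(zm b (cn B) l).z + ((zm b (cn B) l).y 0 * (zm b (cn B) l).s 0 + (zm b (cn B) l).y 1 * (zm b (cn B) l).s 1)| ≤ c := by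
  have hn := bin_nr hB h
  have h2 : (0 : ℝ) < 2 ^ b := by positivity
  have hb : (1 / 2 : ℝ) ^ b = 1 / 2 ^ b := by rw [div_pow, one_pow]
  have hb2 : (1 / 2 : ℝ) ^ (2 * b) = 1 / (2 ^ b * 2 ^ b) := by rw [div_pow, one_pow, pp]
  refine ⟨fun k => ?_, fun k => ?_, ?_⟩
  · have := hn.y k
    rw [hb, mul_one_div, le_div_iff₀ h2] at this
    rw [zm_y, abs_mul, abs_of_pos h2, mul_comm]
    exact this
  · have := hn.s k
    rw [hb, mul_one_div, le_div_iff₀ h2] at this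
    rw [zm_s, abs_mul, abs_of_pos h2, mul_comm]
    exact this
  · have := hn.z
    rw [hb2, mul_one_div, le_div_iff₀ (by positivity)] at this
    have e : (zm b (cn B) l).z + ((zm b (cn B) l).y 0 * (zm b (cn B) l).s 0 + (zm b (cn B) l).y 1 * (zm b (cn B) l).s 1) =
        ze l (cn B) * (2 ^ b * 2 ^ b) := by
      simp only [zm_y, zm_s, zm_z, ze, Fin.sum_univ_two, pp]
      ring
    rw [e, abs_mul, abs_of_pos (by positivity : (0:ℝ) < 2 ^ b * 2 ^ b)]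
    exact this

/-- `|G| ≤ c w` in cap units, `w = 2^-(R-b)` -/
theorem G_bd {c : ℝ} {b R : ℕ} (hbR : b ≤ R) {B : Cbx} (hB : Shp c b R B) {l : Ry} (h : Bin c B 0 l) :
    |2 ^ b * G0 B l| ≤ c * (1 / 2 : ℝ) ^ (R - b) ∧ |2 ^ b * G1 B l| ≤ c * (1 / 2 : ℝ) ^ (R - b) := by
  have h2 : (0 : ℝ) < 2 ^ b := by positivity
  have e : (2 : ℝ) ^ b * (1 / 2) ^ R = (1 / 2) ^ (R - b) := by
    obtain ⟨d, rfl⟩ := Nat.exists_eq_add_of_le hbR
    rw [Nat.add_sub_cancel_left, pow_add, ← mul_assoc, ← mul_pow]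
    norm_num
  constructor
  · rw [abs_mul, abs_of_pos h2, ← e]
    nlinarith [bin_g0 hB h]
  · rw [abs_mul, abs_of_pos h2, ← e]
    nlinarith [bin_g1 hB h]

/-- the coefficients in cap units -/
theorem hf_bd {c : ℝ} {b R : ℕ} {B : Cbx} (hB : Shp c b R B) (r : Ry) :
    |(hf b B r).κ| ≤ c ∧ |(hf b B r).α| ≤ c := by
  have h2 : (0 : ℝ) < 2 ^ b := by positivity
  have h1 := hB.κ2
  have h3 := hB.α2
  have hb : (1 / 2 : ℝ) ^ b = 1 / 2 ^ b := by rw [div_pow, one_pow]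
  rw [hB.u2, hb, mul_one_div] at h1 h3
  constructor
  · simp only [hf]
    rw [abs_div, abs_of_pos h2]
    exact h1
  · simp only [hf]
    rw [abs_div, abs_of_pos h2]
    exact h3

/-- normal vectors of a box at its rays -/
theorem nv_near {c : ℝ} {b R : ℕ} (hbR : b ≤ R) {B : Cbx} (hB : Shp c b R B) {l : Ry} (h : Bin c B 0 l) :
    |nv B l 0 ^ 2 + nv B l 1 ^ 2 - 1| ≤ 6 * c ^ 2 * (1 / 2 : ℝ) ^ (R - b) := by
  obtain ⟨g0, g1⟩ := G_bd hbR hB h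
  obtain ⟨k1, k2⟩ := hf_bd hB (cn B)
  have h2 : (2 : ℝ) ^ b ≠ 0 := by positivity
  have hc : 0 ≤ c := (abs_nonneg _).trans k1
  have e : nv B l 0 ^ 2 + nv B l 1 ^ 2 - 1 = 2 * ((hf b B (cn B)).κ * (2 ^ b * G1 B l)) -
      4 * ((hf b B (cn B)).α * (2 ^ b * G0 B l)) := by
    rw [nv_sq]
    simp only [hf]
    field_simp
    ring
  rw [e]
  have a1 := Cov5.prod_le k1 g1 hc
  have a2 := Cov5.prod_le k2 g0 hc
  rw [abs_le] at a1 a2 ⊢
  constructor <;> nlinarith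

end Vale.Agent.P106.U.H465
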