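import Vale.Agent.P106.U.H465.MeetA

/-!
# P106 / U / H465 : MEET, part B: bounds of the relative functional
-/

set_option autoImplicit false

namespace Vale.Agent.P106.U.H465

open Vale.Agent.P127 Vale.Agent.P127.Stk Vale.Agent.P127.U Vale.Agent.P106.W Vale.Agent.P106.K
open Vale.Agent.P106.U.H428 (G0 G1 nv nv_sub G0_eq G1_eq nv_sq cn ze bin_nr bin_g0 bin_g1 kap_le Nr)
open Vale.Agent.P106.U.Cov5 (nn sp ow tau sig Del KK Dp Sb prod_le)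

/-- frames of `B'`, `σ B` at `l` agree up to `E` in cap units -/
structure Ag (E : ℝ) (σ : ℝ) (b : ℕ) (B B' : Cbx) (l : Ry) : Prop where
  sg : σ = 1 ∨ σ = -1
  n : ∀ k, |nv B' l k - σ * nv B l k| ≤ E
  κ : |B'.κ / 2 ^ b - σ * (B.κ / 2 ^ b)| ≤ E
  α : |B'.α / 2 ^ b - σ * (B.α / 2 ^ b)| ≤ E

theorem Ag.abs {E σ : ℝ} {b : ℕ} {B B' : Cbx} {l : Ry} (h : Ag E σ b B B' l) : |σ| = 1 := by
  rcases h.sg with h | h <;> rw [h] <;> norm_num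

/-- offset -/
noncomputable def of0 (b : ℕ) (η : ℝ) (B B' : Cbx) : ℝ := -(2 ^ b * G0 B' (cn B)) / η

/-- offset -/
noncomputable def of1 (b : ℕ) (η : ℝ) (B B' : Cbx) : ℝ := -(2 ^ b * G1 B' (cn B)) / η

/-- the relative functional -/
noncomputable def gg (b : ℕ) (σ η : ℝ) (B B' : Cbx) : Cov5.Fu := cmb σ η (hf b B (cn B)) (hf b B' (cn B))

section

variable {c η ρ σ : ℝ} {b R : ℕ} {B B' : Cbx} {l0 : Ry}

theorem gg_v0 (l : Ry) : (gg b σ η B B').v0 (zm b (cn B) l) - of0 b η B B' = (2 ^ b * G0 B' l - σ * (2 ^ b * G0 B l)) / η := by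
  rw [gg, cmb_v0, hf_v0, hf_v0, of0, G0_cn]
  ring

theorem gg_v1 (l : Ry) : (gg b σ η B B').v1 (zm b (cn B) l) - of1 b η B B' = (2 ^ b * G1 B' l - σ * (2 ^ b * G1 B l)) / η := by
  rw [gg, cmb_v1, hf_v1, hf_v1, of1, G1_cn]
  ring

/-- values of the relative functional on the common rays -/
theorem gg_val (hbR : b ≤ R) (hB : Shp c b R B) (hB' : Shp c b R B') (hσ : |σ| = 1) (hη : 0 < η)
    (hw : (1 / 2 : ℝ) ^ (R - b) = η * ρ) {l : Ry} (h : Bin c B 0 l) (h' : Bin c B' 0 l) :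
    |(gg b σ η B B').v0 (zm b (cn B) l) - of0 b η B B'| ≤ 2 * c * ρ ∧
      |(gg b σ η B B').v1 (zm b (cn B) l) - of1 b η B B'| ≤ 2 * c * ρ := by
  obtain ⟨a0, a1⟩ := G_bd hbR hB h
  obtain ⟨b0, b1⟩ := G_bd hbR hB' h'
  rw [hw] at a0 a1 b0 b1
  constructor
  · rw [gg_v0, abs_div, abs_of_pos hη, div_le_iff₀ hη]
    refine (abs_sub _ _).trans ?_
    rw [abs_mul σ, hσ, one_mul]
    linarith
  · rw [gg_v1, abs_div, abs_of_pos hη, div_le_iff₀ hη]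
    refine (abs_sub _ _).trans ?_
    rw [abs_mul σ, hσ, one_mul]
    linarith

/-- coefficients of the relative functional -/
theorem gg_bd (hc : 1 ≤ c) (hB : Shp c b R B) (hη : 0 < η) (h0 : Bin c B 0 l0)
    (ha : Ag (8 * c ^ 2 * η) σ b B B' l0) :
    |(gg b σ η B B').κ| ≤ 8 * c ^ 2 ∧ |(gg b σ η B B').α| ≤ 8 * c ^ 2 ∧
      |(gg b σ η B B').n0| ≤ 32 * c ^ 3 ∧ |(gg b σ η B B').n1| ≤ 32 * c ^ 3 := by
  obtain ⟨y, s, -⟩ := zm_bd hB h0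
  have k1 : |(gg b σ η B B').κ| ≤ 8 * c ^ 2 := by
    simp only [gg, cmb, hf]
    rw [abs_div, abs_of_pos hη, div_le_iff₀ hη]
    exact ha.κ
  have k2 : |(gg b σ η B B').α| ≤ 8 * c ^ 2 := by
    simp only [gg, cmb, hf]
    rw [abs_div, abs_of_pos hη, div_le_iff₀ hη]
    exact ha.α
  have n0 : |(gg b σ η B B').N0 (zm b (cn B) l0)| ≤ 8 * c ^ 2 := by
    rw [gg, cmb_N0, hf_N0, hf_N0, abs_div, abs_of_pos hη, div_le_iff₀ hη]
    exact ha.n 0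
  have n1 : |(gg b σ η B B').N1 (zm b (cn B) l0)| ≤ 8 * c ^ 2 := by
    rw [gg, cmb_N1, hf_N1, hf_N1, abs_div, abs_of_pos hη, div_le_iff₀ hη]
    exact ha.n 1
  have hcc : 8 * c ^ 2 ≤ 8 * c ^ 2 * c := le_mul_of_one_le_right (by positivity) hc
  refine ⟨k1, k2, ?_, ?_⟩
  · have a1 := prod_le k1 (s 0) (by positivity)
    have a2 := prod_le k2 (y 0) (by positivity)
    have e : (gg b σ η B B').n0 = (gg b σ η B B').N0 (zm b (cn B) l0) -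
        (gg b σ η B B').κ * (zm b (cn B) l0).s 0 + 2 * ((gg b σ η B B').α * (zm b (cn B) l0).y 0) := by
      simp only [Cov5.Fu.N0]
      ring
    rw [e]
    rw [abs_le] at a1 a2 n0 ⊢
    have e3 : 32 * c ^ 3 = 4 * (8 * c ^ 2 * c) := by ring
    rw [e3]
    constructor <;> linarith [a1.1, a1.2, a2.1, a2.2, n0.1, n0.2]
  · have a1 := prod_le k1 (s 1) (by positivity)
    have a2 := prod_le k2 (y 1) (by positivity)
    have e : (gg b σ η B B').n1 = (gg b σ η B B').N1 (zm b (cn B) l0) -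
        (gg b σ η B B').κ * (zm b (cn B) l0).s 1 + 2 * ((gg b σ η B B').α * (zm b (cn B) l0).y 1) := by
      simp only [Cov5.Fu.N1]
      ring
    rw [e]
    rw [abs_le] at a1 a2 n1 ⊢
    have e3 : 32 * c ^ 3 = 4 * (8 * c ^ 2 * c) := by ring
    rw [e3]
    constructor <;> linarith [a1.1, a1.2, a2.1, a2.2, n1.1, n1.2]

/-- height -/
theorem zm_z_bd (hB : Shp c b R B) (hc : 1 ≤ c) {l : Ry} (h : Bin c B 0 l) : |(zm b (cn B) l).z| ≤ 3 * c ^ 2 := by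
  obtain ⟨y, s, z⟩ := zm_bd hB h
  have h1 := prod_le (y 0) (s 0) (by linarith)
  have h2 := prod_le (y 1) (s 1) (by linarith)
  have e : (zm b (cn B) l).z = ((zm b (cn B) l).z + ((zm b (cn B) l).y 0 * (zm b (cn B) l).s 0 +
      (zm b (cn B) l).y 1 * (zm b (cn B) l).s 1)) - (zm b (cn B) l).y 0 * (zm b (cn B) l).s 0 -
      (zm b (cn B) l).y 1 * (zm b (cn B) l).s 1 := by ring
  rw [e]
  have hcc : c ≤ c * c := le_mul_of_one_le_left (by linarith) hc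
  have e3 : 3 * c ^ 2 = 3 * (c * c) := by ring
  rw [e3]
  rw [abs_le] at h1 h2 z ⊢
  constructor <;> linarith [h1.1, h1.2, h2.1, h2.2, z.1, z.2]

/-- the offsets are bounded -/
theorem of_bd (hc : 1 ≤ c) (hbR : b ≤ R) (hB : Shp c b R B) (hB' : Shp c b R B') (hη : 0 < η) (hρ : ρ ≤ 1)
    (hw : (1 / 2 : ℝ) ^ (R - b) = η * ρ) (h0 : Bin c B 0 l0) (h0' : Bin c B' 0 l0)
    (ha : Ag (8 * c ^ 2 * η) σ b B B' l0) :
    |of0 b η B B'| ≤ 136 * c ^ 4 ∧ |of1 b η B B'| ≤ 136 * c ^ 4 := by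
  obtain ⟨y, s, z⟩ := zm_bd hB h0
  have zz := zm_z_bd hB hc h0
  obtain ⟨k1, k2, n0, n1⟩ := gg_bd hc hB hη h0 ha
  obtain ⟨v0, v1⟩ := gg_val hbR hB hB' ha.abs hη hw h0 h0'
  have hc0 : 0 ≤ c := by linarith
  set m := zm b (cn B) l0 with hm
  set g := gg b σ η B B' with hg
  have e3 : (0:ℝ) ≤ 32 * c ^ 3 := by positivity
  have e2 : (0:ℝ) ≤ 8 * c ^ 2 := by positivity
  have p34 : c ^ 3 ≤ c ^ 4 := pow_le_pow_right₀ hc (by norm_num)
  have p24 : c ^ 2 ≤ c ^ 4 := pow_le_pow_right₀ hc (by norm_num)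
  have p14 : c ≤ c ^ 4 := by
    calc c = c ^ 1 := (pow_one c).symm
      _ ≤ c ^ 4 := pow_le_pow_right₀ hc (by norm_num)
  have hcρ : 2 * c * ρ ≤ 2 * c ^ 4 := by nlinarith
  have sqb : ∀ x : ℝ, |x| ≤ c → |x ^ 2| ≤ c ^ 2 := fun x hx => by
    rw [abs_pow]
    exact pow_le_pow_left₀ (abs_nonneg _) hx 2
  constructor
  · have a1 := prod_le n0 (y 0) e3
    have a2 := prod_le n1 (y 1) e3
    have a3 := prod_le k1 z e2
    have a4 := prod_le k2 (sqb _ (y 0)) e2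
    have a5 := prod_le k2 (sqb _ (y 1)) e2
    have e : of0 b η B B' = g.n0 * m.y 0 + g.n1 * m.y 1 + g.κ * (m.z + (m.y 0 * m.s 0 + m.y 1 * m.s 1)) -
        g.α * m.y 0 ^ 2 - g.α * m.y 1 ^ 2 - (g.v0 m - of0 b η B B') := by
      simp only [Cov5.Fu.v0]
      ring
    rw [e]
    have e4 : 32 * c ^ 3 * c = 32 * c ^ 4 := by ring
    have e5 : 8 * c ^ 2 * c = 8 * c ^ 3 := by ring
    have e6 : 8 * c ^ 2 * c ^ 2 = 8 * c ^ 4 := by ring
    rw [e4] at a1 a2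
    rw [e5] at a3
    rw [e6] at a4 a5
    rw [abs_le] at a1 a2 a3 a4 a5 v0 ⊢
    constructor <;> linarith [a1.1, a1.2, a2.1, a2.2, a3.1, a3.2, a4.1, a4.2, a5.1, a5.2, v0.1, v0.2]
  · have a1 := prod_le n0 (s 0) e3
    have a2 := prod_le n1 (s 1) e3
    have a3 := prod_le k1 (sqb _ (s 0)) e2
    have a4 := prod_le k1 (sqb _ (s 1)) e2
    have a5 := prod_le k2 zz e2
    have e : of1 b η B B' = g.n0 * m.s 0 + g.n1 * m.s 1 + g.κ * m.s 0 ^ 2 / 2 + g.κ * m.s 1 ^ 2 / 2 +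
        2 * (g.α * m.z) - (g.v1 m - of1 b η B B') := by
      simp only [Cov5.Fu.v1]
      ring
    rw [e]
    have e4 : 32 * c ^ 3 * c = 32 * c ^ 4 := by ring
    have e6 : 8 * c ^ 2 * c ^ 2 = 8 * c ^ 4 := by ring
    have e7 : 8 * c ^ 2 * (3 * c ^ 2) = 24 * c ^ 4 := by ring
    rw [e4] at a1 a2
    rw [e6] at a3 a4
    rw [e7] at a5
    rw [abs_le] at a1 a2 a3 a4 a5 v1 ⊢
    constructor <;> linarith [a1.1, a1.2, a2.1, a2.2, a3.1, a3.2, a4.1, a4.2, a5.1, a5.2, v1.1, v1.2]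

theorem pw {c : ℝ} (hc : 1 ≤ c) {i j : ℕ} (h : i ≤ j) : c ^ i ≤ c ^ j := pow_le_pow_right₀ hc h

/-- the coefficients satisfy the hypotheses of `cov5` -/
theorem sb (hc : 1 ≤ c) (hbR : b ≤ R) (hB : Shp c b R B) (hB' : Shp c b R B') (hη : 0 < η) (hρ0 : 0 < ρ) (hρ : ρ ≤ 1)
    (hw : (1 / 2 : ℝ) ^ (R - b) = η * ρ) (h0 : Bin c B 0 l0) (h0' : Bin c B' 0 l0)
    (ha : Ag (8 * c ^ 2 * η) σ b B B' l0) (hs : 12 * (200 * c ^ 4) ^ 2 * ρ ≤ 1) :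
    Sb (200 * c ^ 4) ρ (hf b B (cn B)) (gg b σ η B B') (of0 b η B B') (of1 b η B B') := by
  obtain ⟨k1, k2, n0, n1⟩ := gg_bd hc hB hη h0 ha
  obtain ⟨o0, o1⟩ := of_bd hc hbR hB hB' hη hρ hw h0 h0' ha
  obtain ⟨f1, f2⟩ := hf_bd hB (cn B)
  have p1 : c ^ 1 ≤ c ^ 4 := pw hc (by norm_num)
  rw [pow_one] at p1
  have p2 : c ^ 2 ≤ c ^ 4 := pw hc (by norm_num)
  have p3 : c ^ 3 ≤ c ^ 4 := pw hc (by norm_num)
  have p4 : 1 ≤ c ^ 4 := one_le_pow₀ hc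
  exact ⟨by linarith, nv_cn_sq B, by linarith, by linarith, by linarith, by linarith, by linarith, by linarith,
    by linarith, by linarith, hρ0, hs⟩

/-- the common rays are in the set of `cov5` -/
theorem kk (hc : 1 ≤ c) (hbR : b ≤ R) (hB : Shp c b R B) (hB' : Shp c b R B') (hη : 0 < η) (hη1 : η ≤ 1) (hρ0 : 0 < ρ)
    (hw : (1 / 2 : ℝ) ^ (R - b) = η * ρ) (hσ : |σ| = 1) {l : Ry} (h : Bin c B 0 l) (h' : Bin c B' 0 l) :
    zm b (cn B) l ∈ KK (200 * c ^ 4) ρ (hf b B (cn B)) (gg b σ η B B') (of0 b η B B') (of1 b η B B') := by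
  obtain ⟨y, s, z⟩ := zm_bd hB h
  have zz := zm_z_bd hB hc h
  obtain ⟨v0, v1⟩ := gg_val hbR hB hB' hσ hη hw h h'
  obtain ⟨g0, g1⟩ := G_bd hbR hB h
  rw [hw] at g0 g1
  have p1 : c ^ 1 ≤ c ^ 4 := pw hc (by norm_num)
  rw [pow_one] at p1
  have p2 : c ^ 2 ≤ c ^ 4 := pw hc (by norm_num)
  have p4 : 1 ≤ c ^ 4 := one_le_pow₀ hc
  have q1 : c * (η * ρ) ≤ 200 * c ^ 4 * ρ := by
    have : η * ρ ≤ ρ := mul_le_of_le_one_left hρ0.le hη1
    nlinarith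
  have q2 : 2 * c * ρ ≤ 200 * c ^ 4 * ρ := by nlinarith
  refine ⟨fun k => (y k).trans (by linarith), fun k => (s k).trans (by linarith), zz.trans (by linarith), ?_, ?_,
    v0.trans q2, v1.trans q2⟩
  · rw [hf_v0, G0_cn, sub_zero]
    exact g0.trans q1
  · rw [hf_v1, G1_cn, sub_zero]
    exact g1.trans q1

/-- bounds of `τ` and `σ_L` -/
theorem tau_bd (hc : 1 ≤ c) (hbR : b ≤ R) (hB : Shp c b R B) (hB' : Shp c b R B') (hη : 0 < η) (hρ : ρ ≤ 1)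
    (hw : (1 / 2 : ℝ) ^ (R - b) = η * ρ) (h0 : Bin c B 0 l0) (h0' : Bin c B' 0 l0)
    (ha : Ag (8 * c ^ 2 * η) σ b B B' l0) :
    |tau (hf b B (cn B)) (gg b σ η B B') (of0 b η B B') (of1 b η B B')| ≤ 9000 * c ^ 6 ∧
      |sig (gg b σ η B B') (of0 b η B B') (of1 b η B B')| ≤ 9000 * c ^ 6 := by
  obtain ⟨k1, k2, n0, n1⟩ := gg_bd hc hB hη h0 ha
  obtain ⟨o0, o1⟩ := of_bd hc hbR hB hB' hη hρ hw h0 h0' ha
  obtain ⟨f1, f2⟩ := hf_bd hB (cn B)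
  have hn := nv_cn_sq B
  have m0 : |(hf b B (cn B)).n0| ≤ 1 := by
    simp only [hf]
    rw [abs_le]
    constructor <;> nlinarith [sq_nonneg (nv B (cn B) 1)]
  have m1 : |(hf b B (cn B)).n1| ≤ 1 := by
    simp only [hf]
    rw [abs_le]
    constructor <;> nlinarith [sq_nonneg (nv B (cn B) 0)]
  have hc0 : 0 ≤ c := by linarith
  have p3 : c ^ 3 ≤ c ^ 6 := pw hc (by norm_num)
  have p5 : c ^ 5 ≤ c ^ 6 := pw hc (by norm_num)
  have e3 : (0:ℝ) ≤ 32 * c ^ 3 := by positivity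
  have e2 : (0:ℝ) ≤ 8 * c ^ 2 := by positivity
  have q0 : 0 ≤ c ^ 6 := by positivity
  constructor
  · unfold tau
    have a1 := prod_le m0 n0 zero_le_one
    have a2 := prod_le m1 n1 zero_le_one
    have a3 := prod_le f1 o1 hc0
    have a4 := prod_le f2 o0 hc0
    have e4 : c * (136 * c ^ 4) = 136 * c ^ 5 := by ring
    rw [e4] at a3 a4
    rw [one_mul] at a1 a2
    rw [abs_le] at a1 a2 a3 a4 ⊢
    constructor <;> linarith [a1.1, a1.2, a2.1, a2.2, a3.1, a3.2, a4.1, a4.2]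
  · unfold sig
    have a1 := prod_le n0 n0 e3
    have a2 := prod_le n1 n1 e3
    have a3 := prod_le k1 o1 e2
    have a4 := prod_le k2 o0 e2
    have e4 : 8 * c ^ 2 * (136 * c ^ 4) = 1088 * c ^ 6 := by ring
    have e5 : 32 * c ^ 3 * (32 * c ^ 3) = 1024 * c ^ 6 := by ring
    rw [e4] at a3 a4
    rw [e5, ← sq] at a1 a2
    rw [abs_le] at a1 a2 a3 a4 ⊢
    constructor <;> linarith [a1.1, a1.2, a2.1, a2.2, a3.1, a3.2, a4.1, a4.2]

end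

end Vale.Agent.P106.U.H465
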