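import Vale.Agent.P106.U.H465.MeetB

/-!
# P106 / U / H465 : MEET, part C: nondegeneracy, choice of `p`, the boxes, `PMeet`
-/

set_option autoImplicit false

namespace Vale.Agent.P106.U.H465

open Vale.Agent.P127 Vale.Agent.P127.Stk Vale.Agent.P127.U Vale.Agent.P106.W Vale.Agent.P106.K
open Vale.Agent.P106.U.H428 (G0 G1 nv nv_sub G0_eq G1_eq nv_sq cn ze bin_nr bin_g0 bin_g1 kap_le Nr)
open Vale.Agent.P106.U.Cov5 (nn sp ow tau sig Del KK Dp Sb prod_le cov5)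

section

variable {c η ρ σ : ℝ} {b R : ℕ} {B B' : Cbx} {l0 : Ry}

/-- the relative functional is nondegenerate -/
theorem ndeg (hc : 1 ≤ c) (hbR : b ≤ R) (hB : Shp c b R B) (hB' : Shp c b R B') (hη : 0 < η) (hη1 : η ≤ 1) (hρ0 : 0 < ρ)
    (hρ : ρ ≤ 1) (hw : (1 / 2 : ℝ) ^ (R - b) = η * ρ) (h0 : Bin c B 0 l0) (h0' : Bin c B' 0 l0)
    (ha : Ag (8 * c ^ 2 * η) σ b B B' l0) (hs : 12 * (200 * c ^ 4) ^ 2 * ρ ≤ 1)
    (hnot : ∀ σ', ¬ Ag (η / 2) σ' b B B' l0) {c0 m : ℝ} (hc0 : 0 < c0) (hc0' : c0 * (200 * (9000 * c ^ 6) ^ 4) ≤ 1)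
    (hsm : 1600 * (200 * c ^ 4) ^ 6 * ρ ≤ c0 ^ 2) (hm0 : 0 ≤ m)
    (hm : m ^ 2 = max (Del (hf b B (cn B)) (gg b σ η B B') (of0 b η B B') (of1 b η B B')) ρ) :
    c0 ≤ m ∨
      c0 ≤ |(gg b σ η B B').κ - tau (hf b B (cn B)) (gg b σ η B B') (of0 b η B B') (of1 b η B B') * (hf b B (cn B)).κ| ∨
      c0 ≤ |(gg b σ η B B').α - tau (hf b B (cn B)) (gg b σ η B B') (of0 b η B B') (of1 b η B B') * (hf b B (cn B)).α| := by
  by_contra hcon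
  push Not at hcon
  obtain ⟨hm1, hκ, hα⟩ := hcon
  have SB := sb hc hbR hB hB' hη hρ0 hρ hw h0 h0' ha hs
  have hk := kk hc hbR hB hB' hη hη1 hρ0 hw ha.abs h0 h0'
  obtain ⟨t1, t2⟩ := tau_bd hc hbR hB hB' hη hρ hw h0 h0' ha
  obtain ⟨f1, f2⟩ := hf_bd hB (cn B)
  have hsp := SB.sp_near hk
  have hsg := SB.sig_near hk
  have p4 : (1:ℝ) ≤ c ^ 4 := one_le_pow₀ hc
  have p16 : c ^ 1 ≤ c ^ 6 := pw hc (by norm_num)
  have p6 : (1:ℝ) ≤ c ^ 6 := one_le_pow₀ hc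
  rw [pow_one] at p16
  have hB1 : (1:ℝ) ≤ 200 * c ^ 4 := by linarith
  have hB26 : (200 * c ^ 4) ^ 2 ≤ (200 * c ^ 4) ^ 6 := pow_le_pow_right₀ hB1 (by norm_num)
  have he : 6 * (200 * c ^ 4) ^ 2 * ρ ≤ c0 ^ 2 := by
    refine le_trans ?_ hsm
    apply mul_le_mul_of_nonneg_right _ hρ0.le
    nlinarith
  have hc26 : 6 * c ^ 2 ≤ 1600 * (200 * c ^ 4) ^ 6 := by
    have e1 : c ^ 2 ≤ c ^ 4 := pw hc (by norm_num)
    have e2 : 200 * c ^ 4 ≤ (200 * c ^ 4) ^ 6 := by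
      calc 200 * c ^ 4 = (200 * c ^ 4) ^ 1 := (pow_one _).symm
        _ ≤ _ := pow_le_pow_right₀ hB1 (by norm_num)
    linarith
  have he1 : 6 * c ^ 2 * (η * ρ) ≤ c0 ^ 2 * η := by
    have : 6 * c ^ 2 * ρ ≤ c0 ^ 2 := (mul_le_mul_of_nonneg_right hc26 hρ0.le).trans hsm
    nlinarith
  have n1 := nv_near hbR hB h0
  have n2 := nv_near hbR hB' h0'
  rw [hw] at n1 n2
  have eF0 : (hf b B (cn B)).N0 (zm b (cn B) l0) = nv B l0 0 := hf_N0 b B (cn B) l0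
  have eF1 : (hf b B (cn B)).N1 (zm b (cn B) l0) = nv B l0 1 := hf_N1 b B (cn B) l0
  have eG0 : (gg b σ η B B').N0 (zm b (cn B) l0) = (nv B' l0 0 - σ * nv B l0 0) / η := by
    rw [gg, cmb_N0, hf_N0, hf_N0]
  have eG1 : (gg b σ η B B').N1 (zm b (cn B) l0) = (nv B' l0 1 - σ * nv B l0 1) / η := by
    rw [gg, cmb_N1, hf_N1, hf_N1]
  have r0 : σ * nv B l0 0 + η * ((nv B' l0 0 - σ * nv B l0 0) / η) = nv B' l0 0 := by field_simp; ring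
  have r1 : σ * nv B l0 1 + η * ((nv B' l0 1 - σ * nv B l0 1) / η) = nv B' l0 1 := by field_simp; ring
  have rk : σ * (hf b B (cn B)).κ + η * (gg b σ η B B').κ = B'.κ / 2 ^ b := by
    simp only [gg, cmb, hf]
    field_simp
    ring
  have ra : σ * (hf b B (cn B)).α + η * (gg b σ η B B').α = B'.α / 2 ^ b := by
    simp only [gg, cmb, hf]
    field_simp
    ring
  have hD : sig (gg b σ η B B') (of0 b η B B') (of1 b η B B') -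
      tau (hf b B (cn B)) (gg b σ η B B') (of0 b η B B') (of1 b η B B') ^ 2 ≤ c0 ^ 2 := by
    have h1 : Del (hf b B (cn B)) (gg b σ η B B') (of0 b η B B') (of1 b η B B') ≤ m ^ 2 := by
      rw [hm]
      exact le_max_left _ _
    have h2 : m ^ 2 ≤ c0 ^ 2 := pow_le_pow_left₀ hm0 hm1.le 2
    exact h1.trans h2
  unfold sp at hsp
  unfold nn at hsg
  rw [eF0, eF1] at hsp
  rw [eG0, eG1] at hsp hsg
  obtain ⟨σ', hσ', a1, a2, a3, a4⟩ := ndg (e := 6 * (200 * c ^ 4) ^ 2 * ρ) (e1 := 6 * c ^ 2 * (η * ρ)) (T := 9000 * c ^ 6)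
    ha.sg hη hη1 (by linarith) hc0 hc0' he he1 n1 hsp hsg hD t1 t2
    (show |(hf b B (cn B)).κ| ≤ 9000 * c ^ 6 by linarith) (show |(hf b B (cn B)).α| ≤ 9000 * c ^ 6 by linarith)
    (by rw [r0, r1]; exact n2) hκ.le hα.le
  rw [r0] at a1
  rw [r1] at a2
  rw [rk] at a3
  rw [ra] at a4
  refine hnot σ' ⟨hσ', fun k => ?_, a3, a4⟩
  fin_cases k
  · exact a1
  · exact a2

/-- choice of the scale `p` -/
theorem pick {T m ρ : ℝ} {X : ℕ} (hT : 1 ≤ T) (hm0 : 0 ≤ m) (hmT : m ≤ T) (hρ : ρ = (1 / 2 : ℝ) ^ X) (hm : ρ ≤ m ^ 2)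
    (hs : T ^ 2 * ρ < 1) :
    ∃ p : ℕ, p ≤ X ∧ (1 / 2 : ℝ) ^ p * m ≤ T * ρ ∧ ρ ≤ 2 * ((1 / 2 : ℝ) ^ p * m) ∧ (1 / 2 : ℝ) ^ (2 * p) ≤ T ^ 2 * ρ := by
  classical
  have hρ0 : 0 < ρ := by rw [hρ]; positivity
  have hex : ∃ p : ℕ, (1 / 2 : ℝ) ^ p * m ≤ T * ρ := ⟨X, by rw [← hρ]; nlinarith⟩
  have hX : Nat.find hex ≤ X := Nat.find_min' hex (by rw [← hρ]; nlinarith)
  have hsp := Nat.find_spec hex
  have hfin : ∀ p : ℕ, (1 / 2 : ℝ) ^ p * m ≤ T * ρ → (1 / 2 : ℝ) ^ (2 * p) ≤ T ^ 2 * ρ := by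
    intro p hp
    have h1 : ((1 / 2 : ℝ) ^ p * m) ^ 2 ≤ (T * ρ) ^ 2 := pow_le_pow_left₀ (by positivity) hp 2
    have e1 : ((1 / 2 : ℝ) ^ p * m) ^ 2 = (1 / 2 : ℝ) ^ (2 * p) * m ^ 2 := by
      rw [mul_pow, ← pow_mul, mul_comm p 2]
    rw [e1] at h1
    have h2 : (1 / 2 : ℝ) ^ (2 * p) * ρ ≤ (1 / 2 : ℝ) ^ (2 * p) * m ^ 2 := mul_le_mul_of_nonneg_left hm (by positivity)
    have h3 : (1 / 2 : ℝ) ^ (2 * p) * ρ ≤ (T ^ 2 * ρ) * ρ := by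
      calc (1 / 2 : ℝ) ^ (2 * p) * ρ ≤ (T * ρ) ^ 2 := h2.trans h1
        _ = _ := by ring
    exact le_of_mul_le_mul_right h3 hρ0
  rcases Nat.eq_zero_or_pos (Nat.find hex) with h0 | h0
  · exfalso
    have := hfin _ hsp
    rw [h0] at this
    norm_num at this
    linarith
  · refine ⟨Nat.find hex, hX, hsp, ?_, hfin _ hsp⟩
    have h1 := Nat.find_min hex (m := Nat.find hex - 1) (by omega)
    push Not at h1
    have e2 : (1 / 2 : ℝ) ^ (Nat.find hex - 1) = 2 * (1 / 2 : ℝ) ^ (Nat.find hex) := by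
      obtain ⟨q, hq⟩ := Nat.exists_eq_add_of_lt h0
      rw [hq]
      simp only [Nat.zero_add, Nat.add_sub_cancel]
      rw [pow_succ]
      ring
    rw [e2] at h1
    nlinarith

theorem nr_eq (B : Cbx) (o : Ry) : (FL.fuW B).nr o = nv B o := by
  funext k
  fin_cases k <;> simp [FL.Fu.nr, FL.fuW, nv, Cbx.nn] <;> ring

/-- rays with the same cell -/
theorem cell_bd {b p : ℕ} {r l o : Ry} (h : pl p (zm b r l) = pl p (zm b r o)) :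
    (∀ k, |l.y k - o.y k| ≤ (1 / 2 : ℝ) ^ (b + p)) ∧ (∀ k, |l.s k - o.s k| ≤ (1 / 2 : ℝ) ^ (b + p)) ∧
      |l.z + ∑ k, l.y k * (l.s k - o.s k) - o.z| ≤ 3 * ((1 / 2 : ℝ) ^ (b + p)) ^ 2 := by
  obtain ⟨h1, h2, h3⟩ := FL.pl_close h
  have h4 : (0 : ℝ) < 2 ^ b := by positivity
  have hb : (1 / 2 : ℝ) ^ (b + p) = (1 / 2 : ℝ) ^ p / 2 ^ b := by
    rw [pow_add, div_pow, one_pow]
    ring
  refine ⟨fun k => ?_, fun k => ?_, ?_⟩
  · have := h1 k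
    simp only [zm_y] at this
    have e : 2 ^ b * (l.y k - r.y k) - 2 ^ b * (o.y k - r.y k) = 2 ^ b * (l.y k - o.y k) := by ring
    rw [e, abs_mul, abs_of_pos h4] at this
    rw [hb, le_div_iff₀ h4]
    linarith
  · have := h2 k
    simp only [zm_s] at this
    have e : 2 ^ b * (l.s k - r.s k) - 2 ^ b * (o.s k - r.s k) = 2 ^ b * (l.s k - o.s k) := by ring
    rw [e, abs_mul, abs_of_pos h4] at this
    rw [hb, le_div_iff₀ h4]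
    linarith
  · have e : (zm b r l).z + ∑ k, (zm b r l).y k * ((zm b r l).s k - (zm b r o).s k) - (zm b r o).z =
        2 ^ b * 2 ^ b * (l.z + ∑ k, l.y k * (l.s k - o.s k) - o.z) := by
      simp only [zm_y, zm_s, zm_z, Fin.sum_univ_two, pp]
      ring
    rw [e, abs_mul, abs_of_pos (by positivity : (0:ℝ) < 2 ^ b * 2 ^ b)] at h3
    rw [hb, div_pow, ← mul_div_assoc, le_div_iff₀ (by positivity)]
    calc |l.z + ∑ k, l.y k * (l.s k - o.s k) - o.z| * (2 ^ b) ^ 2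
        = 2 ^ b * 2 ^ b * |l.z + ∑ k, l.y k * (l.s k - o.s k) - o.z| := by ring
      _ ≤ _ := h3

/-- the box of a cell -/
theorem cell_box (hc : 1 ≤ c) (hbR : b ≤ R) (hB : Shp c b R B) {o : Ry} (ho : Bin c B 0 o)
    (hs : 6 * c ^ 2 * (1 / 2 : ℝ) ^ (R - b) ≤ 3 / 4) (p : ℕ) :
    Shp (4 * c) (b + p) R (FL.bxF (FL.fuW B) o (b + p) R) ∧
      ∀ l, Bin c B 0 l → pl p (zm b (cn B) l) = pl p (zm b (cn B) o) →
        Bin (4 * c) (FL.bxF (FL.fuW B) o (b + p) R) 0 l := by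
  have hn := (nv_near hbR hB ho).trans hs
  have hnr : 1 / 2 ≤ FL.nrm ((FL.fuW B).nr o) := by
    rw [nr_eq, FL.nrm]
    apply Real.le_sqrt_of_sq_le
    rw [abs_le] at hn
    linarith [hn.1]
  have hn0 : 0 < FL.nrm ((FL.fuW B).nr o) := by linarith
  have hbp : (0:ℝ) < (1 / 2 : ℝ) ^ (b + p) := by positivity
  have hle : (1 / 2 : ℝ) ^ (b + p) ≤ (1 / 2 : ℝ) ^ b := pow_le_pow_of_le_one (by norm_num) (by norm_num) (by omega)
  have gen : ∀ x : ℝ, |x| * B.u2 ≤ c → |x / FL.nrm ((FL.fuW B).nr o)| * (1 / 2 : ℝ) ^ (b + p) ≤ 4 * c := by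
    intro x hx
    rw [hB.u2] at hx
    rw [abs_div, abs_of_pos hn0, div_mul_eq_mul_div, div_le_iff₀ hn0]
    have h1 : |x| * (1 / 2 : ℝ) ^ (b + p) ≤ |x| * (1 / 2 : ℝ) ^ b := mul_le_mul_of_nonneg_left hle (abs_nonneg _)
    nlinarith
  refine ⟨⟨rfl, rfl, gen _ hB.α2, gen _ hB.κ2⟩, fun l hl hpl => ?_⟩
  obtain ⟨h1, h2, h3⟩ := cell_bd hpl
  obtain ⟨v0, v1⟩ := FL.fuW_close hl ho
  rw [hB.u1] at v0 v1
  have hR : (0:ℝ) < (1 / 2 : ℝ) ^ R := by positivity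
  have hq : 2 * c * (1 / 2 : ℝ) ^ R ≤ 4 * c * (1 / 2 : ℝ) ^ R * FL.nrm ((FL.fuW B).nr o) := by
    have : 0 < c * (1 / 2 : ℝ) ^ R := by positivity
    nlinarith
  refine FL.bin_bxF (4 * c) (FL.fuW B) o l (b + p) R hn0 (fun k => (h1 k).trans ?_) (fun k => (h2 k).trans ?_)
    (h3.trans ?_) (v0.trans hq) (v1.trans hq)
  · nlinarith
  · nlinarith
  · have : (0:ℝ) < ((1 / 2 : ℝ) ^ (b + p)) ^ 2 := by positivity
    nlinarith

theorem bin_mono {c c' : ℝ} {B : Cbx} (h : c ≤ c') (h1 : 0 ≤ B.u1) (h2 : 0 ≤ B.u2) {l : Ry} (hl : Bin c B 0 l) :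
    Bin c' B 0 l := by
  obtain ⟨a1, a2, a3, a4, a5⟩ := hl
  have h3 : 0 ≤ max (B.u2 ^ 2) 0 := le_max_right _ _
  exact ⟨fun k => (a1 k).trans (mul_le_mul_of_nonneg_right h h2), fun k => (a2 k).trans (mul_le_mul_of_nonneg_right h h2),
    a3.trans (mul_le_mul_of_nonneg_right h h3), a4.trans (mul_le_mul_of_nonneg_right h h1),
    a5.trans (mul_le_mul_of_nonneg_right h h1)⟩

end

end Vale.Agent.P106.U.H465
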