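import Vale.Agent.P106.U.CellE

/-!
# P106 / U / H465 : the letter of the cell: normalisation, `Ok`, few values on the side of the ray

(helper661's note 18866, helper205's COMPAT).  `H` = unit-normalised functional of the label, written at the time `sH`;
`(Xc, Nc)` = point of the label at this time; `g` = slope of the line of the step.

* `inv` : `cN² + cV² = ga² + ph² - 2 ka gd - 2 al g`; `un p = (1 + p²)^(-1/2)`; `cN_un` : `|cN - un p| ≤ |cN² + cV² - 1|`.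
* `Num a r H sH Nc Nr g s ga ka al` : the rounded numbers of the step (level `a`, `r` digits); `num_rd` : the rounding.
* `Num.cN` : the coefficient `cN` of the step is that of `H` up to `2^-r`.
* `Hyp`, `ok` : `Pth.Ok`.
* `agrW` : comparison with `H` (hypotheses of helper101's `clo_of_fu`).
* `VS`, `mem_VS`, `vals`, `vals'` : the numerators of the numbers lie in an explicit set of at most `(2 M + 1)³` elements.
-/

set_option autoImplicit false

namespace Vale.Agent.P106.U.H465.PthL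

open Finset Vale.Agent.P127 Vale.Agent.P127.Stk
open Vale.Agent.P127.U.CellD
open Vale.Agent.P106.U.Cell

/-! ### the invariant -/

theorem inv (F : Fu) (l : Ray) (s : ℝ) : F.cN l s ^ 2 + F.cV l s ^ 2 =
    F.ga ^ 2 + F.ph ^ 2 - 2 * F.ka * F.gd l s - 2 * F.al * F.g l s := by
  unfold Fu.cN Fu.cV Fu.gd Fu.g Ray.X Ray.N Ray.Z
  ring

theorem inv_sub (F : Fu) (l l' : Ray) (s : ℝ) :
    (F.cN l' s ^ 2 + F.cV l' s ^ 2) - (F.cN l s ^ 2 + F.cV l s ^ 2) =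
      -2 * F.ka * (F.gd l' s - F.gd l s) - 2 * F.al * (F.g l' s - F.g l s) := by
  rw [inv, inv]; ring

/-- N-coefficient of a unit covector of own slope `p` -/
noncomputable def un (p : ℝ) : ℝ := 1 / Real.sqrt (1 + p ^ 2)

theorem sqrt_ge (p : ℝ) : 1 ≤ Real.sqrt (1 + p ^ 2) := by
  rw [show (1 : ℝ) = Real.sqrt 1 from Real.sqrt_one.symm]
  exact Real.sqrt_le_sqrt (by nlinarith [sq_nonneg p, Real.sqrt_one])

theorem abs_le_sqrt (p : ℝ) : |p| ≤ Real.sqrt (1 + p ^ 2) := by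
  rw [← Real.sqrt_sq_eq_abs]
  exact Real.sqrt_le_sqrt (by linarith)

theorem un_pos (p : ℝ) : 0 < un p := by
  have := sqrt_ge p
  unfold un
  positivity

theorem un_le (p : ℝ) : un p ≤ 1 := by
  have := sqrt_ge p
  unfold un
  rw [div_le_one (by linarith)]
  exact this

theorem un_sq (p : ℝ) : un p ^ 2 * (1 + p ^ 2) = 1 := by
  have h1 := sqrt_ge p
  have h2 : Real.sqrt (1 + p ^ 2) ^ 2 = 1 + p ^ 2 := Real.sq_sqrt (by positivity)
  unfold un
  rw [div_pow, one_pow, h2]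
  have : (1 : ℝ) + p ^ 2 ≠ 0 := by positivity
  field_simp

theorem un_lip (p q : ℝ) : |un p - un q| ≤ |p - q| := by
  have hp := sqrt_ge p
  have hq := sqrt_ge q
  have ap := abs_le_sqrt p
  have aq := abs_le_sqrt q
  have sp : Real.sqrt (1 + p ^ 2) ^ 2 = 1 + p ^ 2 := Real.sq_sqrt (by positivity)
  have sq' : Real.sqrt (1 + q ^ 2) ^ 2 = 1 + q ^ 2 := Real.sq_sqrt (by positivity)
  set A := Real.sqrt (1 + p ^ 2) with hA
  set B := Real.sqrt (1 + q ^ 2) with hB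
  have e1 : un p - un q = (B - A) / (A * B) := by
    unfold un
    rw [← hA, ← hB]
    have : A ≠ 0 := by positivity
    have : B ≠ 0 := by positivity
    field_simp
  have e2 : |B - A| ≤ |p - q| := by
    have e3 : (B - A) * (B + A) = (q - p) * (q + p) := by nlinarith
    have e4 : |B - A| * (B + A) = |q - p| * |q + p| := by
      rw [← abs_of_pos (by linarith : 0 < B + A), ← abs_mul, e3, abs_mul]
    have e5 : |q + p| ≤ B + A := (abs_add_le _ _).trans (add_le_add aq ap)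
    rw [abs_sub_comm q p] at e4
    by_contra hcon
    push Not at hcon
    have := mul_lt_mul_of_pos_right hcon (by linarith : 0 < B + A)
    have := mul_le_mul_of_nonneg_left e5 (abs_nonneg (p - q))
    linarith
  rw [e1, abs_div, abs_of_pos (by positivity : 0 < A * B)]
  refine (div_le_self (abs_nonneg _) ?_).trans e2
  nlinarith

/-- `cN` of a nearly unit covector -/
theorem cN_un {c v ε : ℝ} (hc : 0 < c) (h : |c ^ 2 + v ^ 2 - 1| ≤ ε) : |c - un (v / c)| ≤ ε := by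
  have h1 := un_sq (v / c)
  have h2 := un_pos (v / c)
  have h3 := sqrt_ge (v / c)
  set u := un (v / c) with hu
  have e0 : c ^ 2 * (1 + (v / c) ^ 2) = c ^ 2 + v ^ 2 := by field_simp
  have e1 : (c - u) * ((c + u) * (1 + (v / c) ^ 2)) = c ^ 2 + v ^ 2 - 1 := by
    have : (c - u) * ((c + u) * (1 + (v / c) ^ 2)) = c ^ 2 * (1 + (v / c) ^ 2) - u ^ 2 * (1 + (v / c) ^ 2) := by
      ring
    rw [this, e0, h1]
  have e2 : 1 ≤ (c + u) * (1 + (v / c) ^ 2) := by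
    have : u * (1 + (v / c) ^ 2) = Real.sqrt (1 + (v / c) ^ 2) := by
      rw [hu]
      unfold un
      have h5 : Real.sqrt (1 + (v / c) ^ 2) ^ 2 = 1 + (v / c) ^ 2 := Real.sq_sqrt (by positivity)
      have h6 : Real.sqrt (1 + (v / c) ^ 2) ≠ 0 := by positivity
      rw [one_div, inv_mul_eq_iff_eq_mul₀ h6, ← sq, h5]
    nlinarith [sq_nonneg (v / c)]
  rw [← e1, abs_mul] at h
  have e3 : 1 ≤ |(c + u) * (1 + (v / c) ^ 2)| := e2.trans (le_abs_self _)
  nlinarith [abs_nonneg (c - u)]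

/-! ### the rounded numbers -/

/-- the numbers of a step of level `a`, `r` digits (slope `g` of the line, rounded time `s`) -/
structure Num (a r : ℕ) (H : Fu) (sH Nc Nr g s ga ka al : ℝ) : Prop where
  hal : |al - g| ≤ 2 ^ a * q2 r
  hka : |ka - (H.ka - (s - sH) * g)| ≤ q2 r
  hga : |ga - (H.ga + (g - H.al) * Nc + (al - g) * Nr)| ≤ q2 r
  hNr : |Nr - Nc| ≤ q2 a

/-- rounding -/
theorem num_rd (a r : ℕ) (H : Fu) (sH Nc g s : ℝ) : Num a r H sH Nc (rd a Nc) g s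
    (rd r (H.ga + (g - H.al) * Nc + (2 ^ a * rd r (g / 2 ^ a) - g) * rd a Nc)) (rd r (H.ka - (s - sH) * g))
    (2 ^ a * rd r (g / 2 ^ a)) := by
  refine ⟨?_, rd_err _ _, rd_err _ _, rd_err _ _⟩
  have h := rd_err r (g / 2 ^ a)
  have e : 2 ^ a * rd r (g / 2 ^ a) - g = 2 ^ a * (rd r (g / 2 ^ a) - g / 2 ^ a) := by
    have : (2 : ℝ) ^ a ≠ 0 := by positivity
    field_simp
  rw [e, abs_mul, abs_of_pos (by positivity : (0 : ℝ) < 2 ^ a)]
  exact mul_le_mul_of_nonneg_left h (by positivity)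

lemma q2_one (n : ℕ) : q2 n ≤ 1 := by
  unfold q2
  exact pow_le_one₀ (by norm_num) (by norm_num)

lemma pow_q2 (a : ℕ) : (2 : ℝ) ^ a * q2 a = 1 := q2_mul_pow a

/-- the N-coefficient of the step -/
theorem Num.cN {a r h : ℕ} {H : Fu} {sH Nc Nr g s ga ka al K0 : ℝ} (n : Num a r H sH Nc Nr g s ga ka al) (l : Ray)
    (h0 : 0 ≤ K0) (hs : |s - sH| ≤ q2 a) (hw : |l.w| ≤ 2) (hN : |l.N sH - Nc| ≤ K0 * q2 h) (hah : a ≤ h)
    (hg : |g - H.al| * q2 h ≤ K0 * q2 r) :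
    |(ga - ka * l.w - al * l.N s) - H.cN l sH| ≤ (K0 ^ 2 + K0 + 6) * q2 r := by
  have hr := q2_pos r
  have ha := q2_pos a
  have hq : q2 h ≤ q2 a := q2_le hah
  have eN : l.N s = l.N sH + (s - sH) * l.w := by unfold Ray.N; ring
  have e : (ga - ka * l.w - al * l.N s) - H.cN l sH =
      (g - H.al) * (Nc - l.N sH) + (al - g) * (Nr - l.N s) +
        (ga - (H.ga + (g - H.al) * Nc + (al - g) * Nr)) - (ka - (H.ka - (s - sH) * g)) * l.w := by
    unfold Fu.cN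
    rw [eN]
    ring
  have t1 : |(g - H.al) * (Nc - l.N sH)| ≤ K0 ^ 2 * q2 r := by
    rw [abs_mul, abs_sub_comm Nc]
    calc |g - H.al| * |l.N sH - Nc| ≤ |g - H.al| * (K0 * q2 h) := mul_le_mul_of_nonneg_left hN (abs_nonneg _)
      _ = K0 * (|g - H.al| * q2 h) := by ring
      _ ≤ K0 * (K0 * q2 r) := mul_le_mul_of_nonneg_left hg h0
      _ = K0 ^ 2 * q2 r := by ring
  have t2 : |Nr - l.N s| ≤ (3 + K0) * q2 a := by
    have e2 : Nr - l.N s = (Nr - Nc) - (l.N sH - Nc) - (s - sH) * l.w := by rw [eN]; ring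
    have a1 : |(s - sH) * l.w| ≤ 2 * q2 a := by
      rw [abs_mul]
      nlinarith [abs_nonneg (s - sH), abs_nonneg l.w]
    have a2 : K0 * q2 h ≤ K0 * q2 a := mul_le_mul_of_nonneg_left hq h0
    rw [e2]
    refine (abs_sub _ _).trans ?_
    have := abs_sub (Nr - Nc) (l.N sH - Nc)
    linarith [n.hNr]
  have t3 : |(al - g) * (Nr - l.N s)| ≤ (3 + K0) * q2 r := by
    rw [abs_mul]
    calc |al - g| * |Nr - l.N s| ≤ (2 ^ a * q2 r) * ((3 + K0) * q2 a) :=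
          mul_le_mul n.hal t2 (abs_nonneg _) (by positivity)
      _ = (2 ^ a * q2 a) * ((3 + K0) * q2 r) := by ring
      _ = (3 + K0) * q2 r := by rw [pow_q2, one_mul]
  have t4 : |(ka - (H.ka - (s - sH) * g)) * l.w| ≤ 2 * q2 r := by
    rw [abs_mul]
    nlinarith [abs_nonneg (ka - (H.ka - (s - sH) * g)), abs_nonneg l.w, n.hka]
  rw [e]
  refine (abs_sub _ _).trans ?_
  have b1 := abs_add_le ((g - H.al) * (Nc - l.N sH) + (al - g) * (Nr - l.N s))
    (ga - (H.ga + (g - H.al) * Nc + (al - g) * Nr))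
  have b2 := abs_add_le ((g - H.al) * (Nc - l.N sH)) ((al - g) * (Nr - l.N s))
  have := n.hga
  nlinarith

/-! ### `Ok` -/

section Path

variable {Ω τ : Type}

/-- hypotheses at one outcome: `H` = functional of the label at the time `sH`, level `h` of the label -/
structure Hyp (C : Pth Ω τ) (K0 : ℝ) (h : ℕ) (H : Fu) (sH Nc : ℝ) (Nr g : ℕ → ℝ) (ω : Ω) : Prop where
  v2 : |(C.l ω).v| ≤ 2
  w2 : |(C.l ω).w| ≤ 2
  p1 : |C.p ω| ≤ q2 (2 * C.μ)
  num : ∀ i, Num (C.a i) (C.rk i) H sH Nc (Nr i) (g i) (C.s i ω) (C.ga i (C.T i ω)) (C.ka i (C.T i ω))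
    (C.al i (C.T i ω))
  hs : ∀ i, |C.s i ω - sH| ≤ q2 (C.a i)
  ah : ∀ i, C.a i ≤ h
  g1 : ∀ i, |g i| ≤ K0 * 2 ^ C.a i
  g2 : ∀ i j, i ≤ j → |g j - g i| * q2 (C.a j) ≤ K0 * q2 (C.rk i)
  gH : ∀ i, |g i - H.al| * q2 h ≤ K0 * q2 (C.rk i)
  kH : |H.ka| ≤ K0
  c1 : 1 / 2 ≤ H.cN (C.l ω) sH
  c2 : H.cN (C.l ω) sH ≤ 2
  hN : |(C.l ω).N sH - Nc| ≤ K0 * q2 h
  r0 : (K0 ^ 2 + K0 + 6) * q2 (C.rk 0) ≤ 1 / 4

variable {C : Pth Ω τ} {K0 : ℝ} {h : ℕ} {H : Fu} {sH Nc : ℝ} {Nr g : ℕ → ℝ} {ω : Ω}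

theorem Hyp.cN (y : Hyp C K0 h H sH Nc Nr g ω) (h0 : 0 ≤ K0) (i : ℕ) :
    |(C.F i ω).cN (C.l ω) (C.s i ω) - H.cN (C.l ω) sH| ≤ (K0 ^ 2 + K0 + 6) * q2 (C.rk i) :=
  (y.num i).cN (C.l ω) h0 (y.hs i) y.w2 y.hN (y.ah i) (y.gH i)

/-- the value of the constant -/
theorem K_le (h1 : 1 ≤ K0) : 2 * (K0 ^ 2 + K0 + 6) ≤ 4 * (K0 + 3) ^ 2 := by nlinarith

theorem Hyp.al_ge (y : Hyp C K0 h H sH Nc Nr g ω) (i : ℕ) :
    |(C.F i ω).al - g i| ≤ 2 ^ C.a i * q2 (C.rk i) := (y.num i).hal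

theorem Hyp.ka_ge (y : Hyp C K0 h H sH Nc Nr g ω) (i : ℕ) :
    |(C.F i ω).ka - (H.ka - (C.s i ω - sH) * g i)| ≤ q2 (C.rk i) := (y.num i).hka

/-- **normalisation and compatibility of the slabs of the path** -/
theorem ok (y : Hyp C K0 h H sH Nc Nr g ω) (h1 : 1 ≤ K0) : C.Ok (4 * (K0 + 3) ^ 2) ω := by
  have h0 : 0 ≤ K0 := by linarith
  have hK := K_le h1
  have hC0 : 0 ≤ K0 ^ 2 + K0 + 6 := by positivity
  have hrk : ∀ i, q2 (C.rk i) ≤ q2 (C.rk 0) := fun i => q2_le (C.hk (Nat.zero_le i))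
  have hc : ∀ i, |(C.F i ω).cN (C.l ω) (C.s i ω) - H.cN (C.l ω) sH| ≤ 1 / 4 := fun i =>
    (y.cN h0 i).trans ((mul_le_mul_of_nonneg_left (hrk i) hC0).trans y.r0)
  refine ⟨y.v2, y.w2, y.p1, fun i => ?_, fun i => ?_, fun i => ?_, fun i => ?_, fun i j hij => ?_⟩
  · have := abs_le.1 (hc i)
    nlinarith [y.c1, this.1]
  · have := abs_le.1 (hc i)
    nlinarith [y.c2, this.2]
  · have a1 := y.ka_ge i
    have a2 : |(C.s i ω - sH) * g i| ≤ K0 := by
      rw [abs_mul]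
      calc |C.s i ω - sH| * |g i| ≤ q2 (C.a i) * (K0 * 2 ^ C.a i) :=
            mul_le_mul (y.hs i) (y.g1 i) (abs_nonneg _) (q2_pos _).le
        _ = (2 ^ C.a i * q2 (C.a i)) * K0 := by ring
        _ = K0 := by rw [pow_q2, one_mul]
    have a3 : |(C.F i ω).ka| ≤ |(C.F i ω).ka - (H.ka - (C.s i ω - sH) * g i)| + |H.ka| +
        |(C.s i ω - sH) * g i| := by
      have e : (C.F i ω).ka = ((C.F i ω).ka - (H.ka - (C.s i ω - sH) * g i)) + H.ka -
          (C.s i ω - sH) * g i := by ring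
      calc |(C.F i ω).ka| = |((C.F i ω).ka - (H.ka - (C.s i ω - sH) * g i)) + H.ka -
          (C.s i ω - sH) * g i| := by rw [← e]
        _ ≤ |((C.F i ω).ka - (H.ka - (C.s i ω - sH) * g i)) + H.ka| + |(C.s i ω - sH) * g i| := abs_sub _ _
        _ ≤ _ := add_le_add (abs_add_le _ _) le_rfl
    have := q2_one (C.rk i)
    nlinarith [y.kH]
  · have a1 := y.al_ge i
    have a2 : |(C.F i ω).al| ≤ 2 ^ C.a i * q2 (C.rk i) + K0 * 2 ^ C.a i := by
      have e : (C.F i ω).al = ((C.F i ω).al - g i) + g i := by ring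
      rw [e]
      exact (abs_add_le _ _).trans (add_le_add a1 (y.g1 i))
    have a3 := mul_le_mul_of_nonneg_right a2 (q2_pos (C.a i)).le
    have a4 : (2 ^ C.a i * q2 (C.rk i) + K0 * 2 ^ C.a i) * q2 (C.a i) = q2 (C.rk i) + K0 := by
      have := pow_q2 (C.a i)
      linear_combination (q2 (C.rk i) + K0) * this
    have := q2_one (C.rk i)
    nlinarith
  · have hqr : q2 (C.rk j) ≤ q2 (C.rk i) := q2_le (C.hk hij)
    have hqa : q2 (C.a j) ≤ q2 (C.a i) := q2_le (C.ha hij)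
    have hri := q2_pos (C.rk i)
    have hdT : |C.s j ω - C.s i ω| ≤ q2 (C.a i) := by
      rw [abs_sub_comm]
      exact C.s_near hij ω
    have hm : (2 : ℝ) ^ C.a i * q2 (C.a j) ≤ 1 := by
      rw [← pow_q2 (C.a i)]
      exact mul_le_mul_of_nonneg_left hqa (by positivity)
    refine ⟨?_, ?_, ?_⟩
    · have e : ((C.F i ω).sh (C.s j ω - C.s i ω)).cN (C.l ω) (C.s j ω) = (C.F i ω).cN (C.l ω) (C.s i ω) := by
        have := Fu.cN_sh (C.F i ω) (C.l ω) (C.s i ω) (C.s j ω - C.s i ω)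
        rwa [show C.s i ω + (C.s j ω - C.s i ω) = C.s j ω by ring] at this
      rw [e]
      have b1 := y.cN h0 i
      have b2 := y.cN h0 j
      have b3 : |(C.F j ω).cN (C.l ω) (C.s j ω) - (C.F i ω).cN (C.l ω) (C.s i ω)| ≤
          |(C.F j ω).cN (C.l ω) (C.s j ω) - H.cN (C.l ω) sH| +
            |(C.F i ω).cN (C.l ω) (C.s i ω) - H.cN (C.l ω) sH| := by
        have e3 : (C.F j ω).cN (C.l ω) (C.s j ω) - (C.F i ω).cN (C.l ω) (C.s i ω) =
          ((C.F j ω).cN (C.l ω) (C.s j ω) - H.cN (C.l ω) sH) -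
            ((C.F i ω).cN (C.l ω) (C.s i ω) - H.cN (C.l ω) sH) := by ring
        rw [e3]
        exact abs_sub _ _
      have b4 : (K0 ^ 2 + K0 + 6) * q2 (C.rk j) ≤ (K0 ^ 2 + K0 + 6) * q2 (C.rk i) :=
        mul_le_mul_of_nonneg_left hqr hC0
      have b5 : 2 * (K0 ^ 2 + K0 + 6) * q2 (C.rk i) ≤ 4 * (K0 + 3) ^ 2 * q2 (C.rk i) :=
        mul_le_mul_of_nonneg_right hK hri.le
      linarith
    · show |(C.F j ω).ka - ((C.F i ω).ka - (C.s j ω - C.s i ω) * (C.F i ω).al)| ≤ _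
      have e : (C.F j ω).ka - ((C.F i ω).ka - (C.s j ω - C.s i ω) * (C.F i ω).al) =
          ((C.F j ω).ka - (H.ka - (C.s j ω - sH) * g j)) - ((C.F i ω).ka - (H.ka - (C.s i ω - sH) * g i)) -
            (C.s j ω - sH) * (g j - g i) + (C.s j ω - C.s i ω) * ((C.F i ω).al - g i) := by ring
      have t1 : |(C.s j ω - sH) * (g j - g i)| ≤ K0 * q2 (C.rk i) := by
        rw [abs_mul]
        calc |C.s j ω - sH| * |g j - g i| ≤ q2 (C.a j) * |g j - g i| :=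
              mul_le_mul_of_nonneg_right (y.hs j) (abs_nonneg _)
          _ = |g j - g i| * q2 (C.a j) := by ring
          _ ≤ _ := y.g2 i j hij
      have t2 : |(C.s j ω - C.s i ω) * ((C.F i ω).al - g i)| ≤ q2 (C.rk i) := by
        rw [abs_mul]
        calc |C.s j ω - C.s i ω| * |(C.F i ω).al - g i| ≤ q2 (C.a i) * (2 ^ C.a i * q2 (C.rk i)) :=
              mul_le_mul hdT (y.al_ge i) (abs_nonneg _) (q2_pos _).le
          _ = (2 ^ C.a i * q2 (C.a i)) * q2 (C.rk i) := by ring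
          _ = q2 (C.rk i) := by rw [pow_q2, one_mul]
      rw [e]
      refine (abs_add_le _ _).trans ?_
      have b1 := abs_sub (((C.F j ω).ka - (H.ka - (C.s j ω - sH) * g j)) -
        ((C.F i ω).ka - (H.ka - (C.s i ω - sH) * g i))) ((C.s j ω - sH) * (g j - g i))
      have b2 := abs_sub ((C.F j ω).ka - (H.ka - (C.s j ω - sH) * g j))
        ((C.F i ω).ka - (H.ka - (C.s i ω - sH) * g i))
      have b3 := y.ka_ge i
      have b4 := y.ka_ge j
      have b5 : (3 + K0) * q2 (C.rk i) ≤ 4 * (K0 + 3) ^ 2 * q2 (C.rk i) :=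
        mul_le_mul_of_nonneg_right (by nlinarith) hri.le
      linarith
    · show |(C.F j ω).al - (C.F i ω).al| * q2 (C.a j) ≤ _
      have e : (C.F j ω).al - (C.F i ω).al =
          ((C.F j ω).al - g j) - ((C.F i ω).al - g i) + (g j - g i) := by ring
      have b1 : |(C.F j ω).al - (C.F i ω).al| ≤ 2 ^ C.a j * q2 (C.rk j) + 2 ^ C.a i * q2 (C.rk i) +
          |g j - g i| := by
        rw [e]
        refine (abs_add_le _ _).trans (add_le_add ((abs_sub _ _).trans (add_le_add ?_ ?_)) le_rfl)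
        · exact y.al_ge j
        · exact y.al_ge i
      have b2 := mul_le_mul_of_nonneg_right b1 (q2_pos (C.a j)).le
      have b3 : (2 ^ C.a j * q2 (C.rk j) + 2 ^ C.a i * q2 (C.rk i) + |g j - g i|) * q2 (C.a j) =
          q2 (C.rk j) + (2 ^ C.a i * q2 (C.a j)) * q2 (C.rk i) + |g j - g i| * q2 (C.a j) := by
        have := pow_q2 (C.a j)
        linear_combination q2 (C.rk j) * this
      have b4 := y.g2 i j hij
      have b5 : (2 ^ C.a i * q2 (C.a j)) * q2 (C.rk i) ≤ 1 * q2 (C.rk i) :=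
        mul_le_mul_of_nonneg_right hm hri.le
      have b6 : (2 + K0) * q2 (C.rk i) ≤ 4 * (K0 + 3) ^ 2 * q2 (C.rk i) :=
        mul_le_mul_of_nonneg_right (by nlinarith) hri.le
      linarith

/-- **comparison with the functional of the label**, on the ball of level `A'` -/
theorem agrW (y : Hyp C K0 h H sH Nc Nr g ω) (h1 : 1 ≤ K0) {A' i : ℕ} (hA : C.a i ≤ A')
    (hg : |g i - H.al| * q2 A' ≤ K0 * q2 (C.rk i)) :
    Pth.Agr (4 * (K0 + 3) ^ 2) (C.rk i) A' ((C.F i ω).sh (sH - C.s i ω)) H (C.l ω) sH := by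
  have h0 : 0 ≤ K0 := by linarith
  have hK := K_le h1
  have hC0 : 0 ≤ K0 ^ 2 + K0 + 6 := by positivity
  have hri := q2_pos (C.rk i)
  refine ⟨?_, ?_, ?_⟩
  · have e : ((C.F i ω).sh (sH - C.s i ω)).cN (C.l ω) sH = (C.F i ω).cN (C.l ω) (C.s i ω) := by
      have := Fu.cN_sh (C.F i ω) (C.l ω) (C.s i ω) (sH - C.s i ω)
      rwa [show C.s i ω + (sH - C.s i ω) = sH by ring] at this
    rw [e, abs_sub_comm]
    refine (y.cN h0 i).trans (mul_le_mul_of_nonneg_right (by nlinarith) hri.le)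
  · show |H.ka - ((C.F i ω).ka - (sH - C.s i ω) * (C.F i ω).al)| ≤ _
    have e : H.ka - ((C.F i ω).ka - (sH - C.s i ω) * (C.F i ω).al) =
        -((C.F i ω).ka - (H.ka - (C.s i ω - sH) * g i)) - (C.s i ω - sH) * ((C.F i ω).al - g i) := by ring
    have t2 : |(C.s i ω - sH) * ((C.F i ω).al - g i)| ≤ q2 (C.rk i) := by
      rw [abs_mul]
      calc |C.s i ω - sH| * |(C.F i ω).al - g i| ≤ q2 (C.a i) * (2 ^ C.a i * q2 (C.rk i)) :=
            mul_le_mul (y.hs i) (y.al_ge i) (abs_nonneg _) (q2_pos _).le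
        _ = (2 ^ C.a i * q2 (C.a i)) * q2 (C.rk i) := by ring
        _ = q2 (C.rk i) := by rw [pow_q2, one_mul]
    rw [e]
    refine (abs_sub _ _).trans ?_
    rw [abs_neg]
    have b3 := y.ka_ge i
    have b5 : 2 * q2 (C.rk i) ≤ 4 * (K0 + 3) ^ 2 * q2 (C.rk i) :=
      mul_le_mul_of_nonneg_right (by nlinarith) hri.le
    linarith
  · show |H.al - (C.F i ω).al| * q2 A' ≤ _
    have b1 : |H.al - (C.F i ω).al| ≤ |g i - H.al| + 2 ^ C.a i * q2 (C.rk i) := by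
      have e : H.al - (C.F i ω).al = -(g i - H.al) - ((C.F i ω).al - g i) := by ring
      rw [e]
      refine (abs_sub _ _).trans ?_
      rw [abs_neg]
      exact add_le_add le_rfl (y.al_ge i)
    have b2 := mul_le_mul_of_nonneg_right b1 (q2_pos A').le
    have b3 : (2 : ℝ) ^ C.a i * q2 A' ≤ 1 := by
      rw [← pow_q2 (C.a i)]
      exact mul_le_mul_of_nonneg_left (q2_le hA) (by positivity)
    have b4 : (2 ^ C.a i * q2 (C.rk i)) * q2 A' ≤ q2 (C.rk i) := by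
      calc (2 ^ C.a i * q2 (C.rk i)) * q2 A' = (2 ^ C.a i * q2 A') * q2 (C.rk i) := by ring
        _ ≤ 1 * q2 (C.rk i) := mul_le_mul_of_nonneg_right b3 hri.le
        _ = q2 (C.rk i) := one_mul _
    have b6 : (1 + K0) * q2 (C.rk i) ≤ 4 * (K0 + 3) ^ 2 * q2 (C.rk i) :=
      mul_le_mul_of_nonneg_right (by nlinarith) hri.le
    nlinarith

/-- own slope of the step against the own slope of the label -/
theorem slW (y : Hyp C K0 h H sH Nc Nr g ω) (hp : H.cV (C.l ω) sH = C.p ω * H.cN (C.l ω) sH) (i b : ℕ) :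
    |H.cV (C.l ω) sH - rd (C.rf i) (C.p ω) * H.cN (C.l ω) sH| ≤ 2 * q2 (C.R i b) := by
  have e : H.cV (C.l ω) sH - rd (C.rf i) (C.p ω) * H.cN (C.l ω) sH =
      -((rd (C.rf i) (C.p ω) - C.p ω) * H.cN (C.l ω) sH) := by rw [hp]; ring
  have c0 : 0 ≤ H.cN (C.l ω) sH := by linarith [y.c1]
  rw [e, abs_neg, abs_mul, abs_of_nonneg c0]
  have h1 := rd_err (C.rf i) (C.p ω)
  have h2 : q2 (C.rf i) ≤ q2 (C.R i b) := q2_le (C.R_le_rf i b)
  have h3 := y.c2
  calc |rd (C.rf i) (C.p ω) - C.p ω| * H.cN (C.l ω) sH ≤ q2 (C.R i b) * 2 :=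
        mul_le_mul (h1.trans h2) h3 c0 (q2_pos _).le
    _ = _ := by ring

end Path

/-! ### few values -/

/-- third numerator, centre -/
noncomputable def c3 (a r : ℕ) (l : Ray) (s x3 : ℝ) (n : ℤ × ℤ) : ℤ :=
  fl1 r (x3 + ((n.2 : ℝ) / 2 ^ r) * l.w + (2 ^ a * ((n.1 : ℝ) / 2 ^ r)) * l.N s)

/-- candidates for the numerators of the three numbers -/
noncomputable def VS (a r : ℕ) (M : ℕ) (l : Ray) (s x1 x2 x3 : ℝ) : Finset (ℤ × ℤ × ℤ) :=
  (Finset.Icc (-(M : ℤ)) M ×ˢ Finset.Icc (-(M : ℤ)) M ×ˢ Finset.Icc (-(M : ℤ)) M).image fun m =>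
    (fl1 r (x1 / 2 ^ a) + m.1, fl1 r x2 + m.2.1,
      c3 a r l s x3 (fl1 r (x1 / 2 ^ a) + m.1, fl1 r x2 + m.2.1) + m.2.2)

theorem card_VS (a r M : ℕ) (l : Ray) (s x1 x2 x3 : ℝ) : (VS a r M l s x1 x2 x3).card ≤ (2 * M + 1) ^ 3 := by
  refine card_image_le.trans (le_of_eq ?_)
  rw [card_product, card_product, Int.card_Icc]
  have e : ((M : ℤ) + 1 - -(M : ℤ)).toNat = 2 * M + 1 := by omega
  rw [e]
  ring

/-- integers near a real number -/
theorem near_fl1 {r M : ℕ} {n : ℤ} {x K : ℝ} (h : |(n : ℝ) / 2 ^ r - x| ≤ K * q2 r) (hK : K + 1 ≤ M) :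
    n - fl1 r x ∈ Finset.Icc (-(M : ℤ)) M := by
  have hp : (0 : ℝ) < 2 ^ r := by positivity
  have e : (n : ℝ) / 2 ^ r - x = ((n : ℝ) - 2 ^ r * x) / 2 ^ r := by field_simp
  have e2 : q2 r = 1 / 2 ^ r := by unfold q2; rw [div_pow, one_pow]
  rw [e, abs_div, abs_of_pos hp, e2, mul_one_div, div_le_div_iff_of_pos_right hp] at h
  have h1 : ((fl1 r x : ℤ) : ℝ) ≤ 2 ^ r * x := Int.floor_le _
  have h2 : 2 ^ r * x < ((fl1 r x : ℤ) : ℝ) + 1 := Int.lt_floor_add_one _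
  rw [Finset.mem_Icc]
  obtain ⟨h3, h4⟩ := abs_le.1 h
  constructor
  · have : ((-(M : ℤ) : ℤ) : ℝ) ≤ ((n - fl1 r x : ℤ) : ℝ) := by push_cast; linarith
    exact_mod_cast this
  · have : ((n - fl1 r x : ℤ) : ℝ) ≤ ((M : ℤ) : ℝ) := by push_cast; linarith
    exact_mod_cast this

theorem mem_VS {a r M : ℕ} {l : Ray} {s x1 x2 x3 K : ℝ} {n1 n2 n3 : ℤ}
    (h1 : |2 ^ a * ((n1 : ℝ) / 2 ^ r) - x1| ≤ K * (2 ^ a * q2 r)) (h2 : |(n2 : ℝ) / 2 ^ r - x2| ≤ K * q2 r)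
    (h3 : |((n3 : ℝ) / 2 ^ r - ((n2 : ℝ) / 2 ^ r) * l.w - (2 ^ a * ((n1 : ℝ) / 2 ^ r)) * l.N s) - x3| ≤ K * q2 r)
    (hM : K + 1 ≤ M) : (n1, n2, n3) ∈ VS a r M l s x1 x2 x3 := by
  have ha : (0 : ℝ) < 2 ^ a := by positivity
  have h1' : |(n1 : ℝ) / 2 ^ r - x1 / 2 ^ a| ≤ K * q2 r := by
    have e : 2 ^ a * ((n1 : ℝ) / 2 ^ r) - x1 = 2 ^ a * ((n1 : ℝ) / 2 ^ r - x1 / 2 ^ a) := by field_simp
    rw [e, abs_mul, abs_of_pos ha] at h1
    have : 2 ^ a * |(n1 : ℝ) / 2 ^ r - x1 / 2 ^ a| ≤ 2 ^ a * (K * q2 r) := by linarith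
    exact le_of_mul_le_mul_left this ha
  have h3' : |(n3 : ℝ) / 2 ^ r - (x3 + ((n2 : ℝ) / 2 ^ r) * l.w + (2 ^ a * ((n1 : ℝ) / 2 ^ r)) * l.N s)| ≤
      K * q2 r := by
    have e : (n3 : ℝ) / 2 ^ r - (x3 + ((n2 : ℝ) / 2 ^ r) * l.w + (2 ^ a * ((n1 : ℝ) / 2 ^ r)) * l.N s) =
      ((n3 : ℝ) / 2 ^ r - ((n2 : ℝ) / 2 ^ r) * l.w - (2 ^ a * ((n1 : ℝ) / 2 ^ r)) * l.N s) - x3 := by ring
    rw [e]
    exact h3
  unfold VS
  rw [Finset.mem_image]
  refine ⟨(n1 - fl1 r (x1 / 2 ^ a), n2 - fl1 r x2, n3 - c3 a r l s x3 (n1, n2)), ?_, ?_⟩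
  · rw [Finset.mem_product, Finset.mem_product]
    exact ⟨near_fl1 h1' hM, near_fl1 h2 hM, near_fl1 h3' hM⟩
  · simp only [add_sub_cancel]

/-- **few values on the side of the ray**: own slope `pI`, line `kI + aI (t - sI)` (slope `aI = -al`) -/
theorem vals {a r h M : ℕ} {H : Fu} {sH Nc Nr g s ga ka al K0 M0 p pI kI aI sI : ℝ} {n1 n2 n3 : ℤ}
    (n : Num a r H sH Nc Nr g s ga ka al) (l : Ray) (e1 : al = 2 ^ a * ((n1 : ℝ) / 2 ^ r)) (e2 : ka = (n2 : ℝ) / 2 ^ r)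
    (e3 : ga = (n3 : ℝ) / 2 ^ r)
    (h0 : 0 ≤ K0) (m0 : 1 ≤ M0) (hs : |s - sH| ≤ q2 a) (hw : |l.w| ≤ 2) (hN : |l.N sH - Nc| ≤ K0 * q2 h) (hah : a ≤ h)
    (hg : |g - H.al| * q2 h ≤ K0 * q2 r)
    (hu : |H.cN l sH - un p| ≤ M0 * q2 r) (hp : |p - pI| ≤ M0 * q2 r)
    (hk : |H.ka - (kI + aI * (sH - sI))| ≤ M0 * q2 r) (ha : |g + aI| ≤ M0 * (2 ^ a * q2 r))
    (hM : K0 ^ 2 + K0 + 8 + 2 * M0 ≤ M) :
    (n1, n2, n3) ∈ VS a r M l s (-aI) (kI + aI * (s - sI)) (un pI) := by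
  have hr := q2_pos r
  have hq := pow_q2 a
  refine mem_VS (K := K0 ^ 2 + K0 + 7 + 2 * M0) ?_ ?_ ?_ (by linarith)
  · rw [← e1]
    have e : al - -aI = (al - g) + (g + aI) := by ring
    rw [e]
    refine (abs_add_le _ _).trans ((add_le_add n.hal ha).trans ?_)
    have : 0 < (2 : ℝ) ^ a * q2 r := by positivity
    nlinarith [sq_nonneg K0]
  · rw [← e2]
    have e : ka - (kI + aI * (s - sI)) = (ka - (H.ka - (s - sH) * g)) + (H.ka - (kI + aI * (sH - sI))) -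
        (s - sH) * (g + aI) := by ring
    have t : |(s - sH) * (g + aI)| ≤ M0 * q2 r := by
      rw [abs_mul]
      calc |s - sH| * |g + aI| ≤ q2 a * (M0 * (2 ^ a * q2 r)) := mul_le_mul hs ha (abs_nonneg _) (q2_pos _).le
        _ = (2 ^ a * q2 a) * (M0 * q2 r) := by ring
        _ = M0 * q2 r := by rw [hq, one_mul]
    rw [e]
    refine (abs_sub _ _).trans ?_
    have b1 := abs_add_le (ka - (H.ka - (s - sH) * g)) (H.ka - (kI + aI * (sH - sI)))
    have := n.hka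
    nlinarith [sq_nonneg K0]
  · rw [← e1, ← e2, ← e3]
    have b0 := n.cN l h0 hs hw hN hah hg
    have b1 := un_lip p pI
    have e : (ga - ka * l.w - al * l.N s) - un pI = ((ga - ka * l.w - al * l.N s) - H.cN l sH) +
        (H.cN l sH - un p) + (un p - un pI) := by ring
    rw [e]
    refine (abs_add_le _ _).trans ?_
    have b2 := abs_add_le ((ga - ka * l.w - al * l.N s) - H.cN l sH) (H.cN l sH - un p)
    nlinarith

/-- **number of values given the numbers of the step before** (no hypothesis on the side of the ray): `G` = functional of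
the step before, written at the time `s` of the next step -/
theorem vals' {a r' r M : ℕ} {G : Fu} {s K : ℝ} {F : Fu} {n1 n2 n3 : ℤ} (l : Ray)
    (e1 : F.al = 2 ^ a * ((n1 : ℝ) / 2 ^ r)) (e2 : F.ka = (n2 : ℝ) / 2 ^ r) (e3 : F.ga = (n3 : ℝ) / 2 ^ r)
    (hag : Pth.Agr K r' a G F l s) (hr : r' ≤ r) (hM : K * 2 ^ (r - r') + 1 ≤ M) :
    (n1, n2, n3) ∈ VS a r M l s G.al G.ka (G.cN l s) := by
  have hq : q2 r' = 2 ^ (r - r') * q2 r := by
    obtain ⟨d, rfl⟩ := Nat.exists_eq_add_of_le hr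
    rw [Nat.add_sub_cancel_left, q2_add]
    have := pow_q2 d
    linear_combination (-q2 r') * this
  refine mem_VS (K := K * 2 ^ (r - r')) ?_ ?_ ?_ hM
  · rw [← e1]
    have h := hag.al
    rw [hq] at h
    have ha : (0 : ℝ) < 2 ^ a := by positivity
    have h2 := mul_le_mul_of_nonneg_left h ha.le
    have e : 2 ^ a * (|F.al - G.al| * q2 a) = |F.al - G.al| := by
      have := pow_q2 a
      linear_combination |F.al - G.al| * this
    rw [e] at h2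
    calc |F.al - G.al| ≤ 2 ^ a * (K * (2 ^ (r - r') * q2 r)) := h2
      _ = K * 2 ^ (r - r') * (2 ^ a * q2 r) := by ring
  · rw [← e2]
    have h := hag.ka
    rw [hq] at h
    calc |F.ka - G.ka| ≤ K * (2 ^ (r - r') * q2 r) := h
      _ = K * 2 ^ (r - r') * q2 r := by ring
  · rw [← e1, ← e2, ← e3]
    have h := hag.cN
    rw [hq] at h
    have e : F.ga - F.ka * l.w - F.al * l.N s = F.cN l s := rfl
    rw [e]
    calc |F.cN l s - G.cN l s| ≤ K * (2 ^ (r - r') * q2 r) := h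
      _ = K * 2 ^ (r - r') * q2 r := by ring

end Vale.Agent.P106.U.H465.PthL
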