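import Vale.Agent.P106.U.H465.SubProps

/-!
# P106 / U / H465 : exact identities for functionals of light rays (recentring, scaling, Lorentz products)

* `V5` : ray in coordinates `(y0, y1, s0, s1, z)`; `dif r l` : the ray `l` centred at `r`.
* `F4` : functional `(a, b, κ, α)`; `v0 F l`, `v1 F l` : value at the time `0` and velocity; `F.at r` : recentred functional.
-/

set_option autoImplicit false

namespace Vale.Agent.P106.U.H465

open Vale.Agent.P127 Vale.Agent.P127.Stk Vale.Agent.P127.U Vale.Agent.P106.W Vale.Agent.P106.K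
open Vale.Agent.P122.C2 (fn)

/-- ray, explicit coordinates -/
@[ext] structure V5 where
  y0 : ℝ
  y1 : ℝ
  s0 : ℝ
  s1 : ℝ
  z : ℝ

/-- functional -/
@[ext] structure F4 where
  a : ℝ
  b : ℝ
  κ : ℝ
  α : ℝ

/-- the ray `l` centred at the ray `r` -/
def dif (r l : V5) : V5 :=
  ⟨l.y0 - r.y0, l.y1 - r.y1, l.s0 - r.s0, l.s1 - r.s1, l.z - r.z + r.y0 * (l.s0 - r.s0) + r.y1 * (l.s1 - r.s1)⟩

/-- height at the time `0` -/
def V5.Z (l : V5) : ℝ := l.z + l.y0 * l.s0 + l.y1 * l.s1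

/-- value at the time `0` -/
def v0 (F : F4) (l : V5) : ℝ := F.a * l.y0 + F.b * l.y1 + F.κ * l.Z - F.α * (l.y0 ^ 2 + l.y1 ^ 2)

/-- velocity -/
noncomputable def v1 (F : F4) (l : V5) : ℝ :=
  F.a * l.s0 + F.b * l.s1 + F.κ * (l.s0 ^ 2 + l.s1 ^ 2) / 2 + 2 * F.α * l.z

/-- recentred functional -/
def F4.at (F : F4) (r : V5) : F4 :=
  ⟨F.a + F.κ * r.s0 - 2 * F.α * r.y0, F.b + F.κ * r.s1 - 2 * F.α * r.y1, F.κ, F.α⟩

theorem dif_dif (q r l : V5) : dif (dif q r) (dif q l) = dif r l := by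
  simp only [dif, V5.mk.injEq]
  refine ⟨by ring, by ring, by ring, by ring, by ring⟩

theorem dif_self (r : V5) : dif r r = ⟨0, 0, 0, 0, 0⟩ := by
  simp only [dif, V5.mk.injEq]
  refine ⟨by ring, by ring, by ring, by ring, by ring⟩

/-- recentring, time `0` -/
theorem v0_at (F : F4) (r l : V5) : v0 F l = v0 F r + v0 (F.at r) (dif r l) := by
  simp only [v0, F4.at, dif, V5.Z]
  ring

/-- recentring, velocity -/
theorem v1_at (F : F4) (r l : V5) : v1 F l = v1 F r + v1 (F.at r) (dif r l) := by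
  simp only [v1, F4.at, dif]
  ring

theorem at_at (F : F4) (r l : V5) : (F.at r).at (dif r l) = F.at l := by
  simp only [F4.at, dif, F4.mk.injEq]
  refine ⟨by ring, by ring, trivial, trivial⟩

/-- Lorentz product (at the centre) -/
def F4.dot (F G : F4) : ℝ := F.a * G.a + F.b * G.b

/-- cross product of the normals -/
def F4.crs (F G : F4) : ℝ := F.a * G.b - F.b * G.a

/-- invariance of the Lorentz product -/
theorem dot_at (F G : F4) (r : V5) : (F.at r).dot (G.at r) =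
    F.dot G + F.κ * v1 G r + G.κ * v1 F r - 2 * F.α * v0 G r - 2 * G.α * v0 F r := by
  simp only [F4.dot, F4.at, v1, v0, V5.Z]
  ring

theorem sq_at (F : F4) (r : V5) : (F.at r).dot (F.at r) = F.dot F + 2 * F.κ * v1 F r - 4 * F.α * v0 F r := by
  rw [dot_at]
  ring

theorem dot_crs (F G : F4) : F.dot G ^ 2 + F.crs G ^ 2 = F.dot F * G.dot G := by
  simp only [F4.dot, F4.crs]
  ring

/-- linear combinations -/
def F4.add (F G : F4) (x y : ℝ) : F4 :=
  ⟨x * F.a + y * G.a, x * F.b + y * G.b, x * F.κ + y * G.κ, x * F.α + y * G.α⟩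

theorem v0_add (F G : F4) (x y : ℝ) (l : V5) : v0 (F.add G x y) l = x * v0 F l + y * v0 G l := by
  simp only [v0, F4.add]
  ring

theorem v1_add (F G : F4) (x y : ℝ) (l : V5) : v1 (F.add G x y) l = x * v1 F l + y * v1 G l := by
  simp only [v1, F4.add]
  ring

theorem add_at (F G : F4) (x y : ℝ) (r : V5) : (F.add G x y).at r = (F.at r).add (G.at r) x y := by
  simp only [F4.at, F4.add, F4.mk.injEq]
  refine ⟨by ring, by ring, trivial, trivial⟩

/-- dilation of the rays -/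
noncomputable def V5.sc (u : ℝ) (l : V5) : V5 := ⟨l.y0 / u, l.y1 / u, l.s0 / u, l.s1 / u, l.z / u ^ 2⟩

/-- dilation of the functionals -/
def F4.sc (u : ℝ) (F : F4) : F4 := ⟨F.a, F.b, F.κ * u, F.α * u⟩

theorem v0_sc {u : ℝ} (hu : u ≠ 0) (F : F4) (l : V5) : v0 F l = u * v0 (F.sc u) (l.sc u) := by
  simp only [v0, F4.sc, V5.sc, V5.Z]
  field_simp

theorem v1_sc {u : ℝ} (hu : u ≠ 0) (F : F4) (l : V5) : v1 F l = u * v1 (F.sc u) (l.sc u) := by
  simp only [v1, F4.sc, V5.sc]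
  field_simp

theorem dif_sc {u : ℝ} (hu : u ≠ 0) (r l : V5) : dif (r.sc u) (l.sc u) = (dif r l).sc u := by
  simp only [dif, V5.sc, V5.mk.injEq]
  refine ⟨by field_simp, by field_simp, by field_simp, by field_simp, by field_simp⟩

theorem at_sc {u : ℝ} (hu : u ≠ 0) (F : F4) (r : V5) : (F.at r).sc u = (F.sc u).at (r.sc u) := by
  simp only [F4.at, F4.sc, V5.sc, F4.mk.injEq]
  refine ⟨by field_simp, by field_simp, trivial, trivial⟩

/-! ### boxes -/

/-- the ray in explicit coordinates -/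
def cv (l : Ry) : V5 := ⟨l.y 0, l.y 1, l.s 0, l.s 1, l.z⟩

/-- centre of a box -/
def ctr (B : Cbx) : V5 := ⟨B.p 0, B.p 1, B.v 0, B.v 1, B.ω⟩

/-- functional of a box, centred at `ctr B` -/
noncomputable def fr (B : Cbx) : F4 := ⟨-Real.sin B.θ, Real.cos B.θ, B.κ, B.α⟩

/-- the ray `m` (centred) is in the box of sizes `u1, u2` and functional `F` -/
structure InF (c u1 u2 : ℝ) (F : F4) (m : V5) : Prop where
  y0 : |m.y0| ≤ c * u2
  y1 : |m.y1| ≤ c * u2
  s0 : |m.s0| ≤ c * u2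
  s1 : |m.s1| ≤ c * u2
  z : |m.Z| ≤ c * u2 ^ 2
  v0 : |v0 F m| ≤ c * u1
  v1 : |v1 F m| ≤ c * u1

theorem bin_iff {c : ℝ} {B : Cbx} {l : Ry} : Bin c B 0 l ↔ InF c B.u1 B.u2 (fr B) (dif (ctr B) (cv l)) := by
  have e1 : max (B.u2 ^ 2) 0 = B.u2 ^ 2 := max_eq_left (by positivity)
  unfold Bin
  rw [e1]
  have e2 : (dif (ctr B) (cv l)).Z = l.z + ∑ k, l.y k * (l.s k - B.v k) - B.ω := by
    simp only [dif, V5.Z, ctr, cv, Fin.sum_univ_two]
    ring
  have e3 : v0 (fr B) (dif (ctr B) (cv l)) =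
      fn B.θ (l.y - B.p) + B.κ * (l.z + ∑ k, l.y k * (l.s k - B.v k) - B.ω) - B.α * ∑ k, (l.y k - B.p k) ^ 2 := by
    rw [← e2]
    simp only [v0, dif, ctr, cv, fr, fn, Pi.sub_apply, Fin.sum_univ_two]
  have e4 : v1 (fr B) (dif (ctr B) (cv l)) =
      fn B.θ (l.s - B.v) + B.κ * (∑ k, (l.s k - B.v k) ^ 2) / 2 +
        2 * B.α * (l.z + ∑ k, B.p k * (l.s k - B.v k) - B.ω) := by
    simp only [v1, dif, ctr, cv, fr, fn, Pi.sub_apply, Fin.sum_univ_two]
    ring
  rw [← e3, ← e4, ← e2]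
  constructor
  · rintro ⟨h1, h2, h3, h4, h5⟩
    exact ⟨h1 0, h1 1, h2 0, h2 1, h3, h4, h5⟩
  · rintro ⟨h1, h2, h3, h4, h5, h6, h7⟩
    refine ⟨?_, ?_, h5, h6, h7⟩
    · intro k
      fin_cases k
      · exact h1
      · exact h2
    · intro k
      fin_cases k
      · exact h3
      · exact h4

theorem nrm_eq (B : Cbx) (l : Ry) : nrm B l 0 = ((fr B).at (dif (ctr B) (cv l))).a ∧
    nrm B l 1 = ((fr B).at (dif (ctr B) (cv l))).b := by
  simp [nrm, F4.at, fr, dif, ctr, cv]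

theorem fr_sq (B : Cbx) : (fr B).dot (fr B) = 1 := by
  simp only [fr, F4.dot]
  nlinarith [Real.sin_sq_add_cos_sq B.θ]

theorem InF.sc {c u1 u2 : ℝ} {F : F4} {m : V5} (hu : 0 < u2) (h : InF c u1 u2 F m) :
    InF c (u1 / u2) 1 (F.sc u2) (m.sc u2) := by
  have hu' : u2 ≠ 0 := hu.ne'
  have e : (m.sc u2).Z = m.Z / u2 ^ 2 := by
    simp only [V5.Z, V5.sc]
    field_simp
  constructor
  · simp only [V5.sc]
    rw [abs_div, abs_of_pos hu, mul_one, div_le_iff₀ hu]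
    exact h.y0
  · simp only [V5.sc]
    rw [abs_div, abs_of_pos hu, mul_one, div_le_iff₀ hu]
    exact h.y1
  · simp only [V5.sc]
    rw [abs_div, abs_of_pos hu, mul_one, div_le_iff₀ hu]
    exact h.s0
  · simp only [V5.sc]
    rw [abs_div, abs_of_pos hu, mul_one, div_le_iff₀ hu]
    exact h.s1
  · rw [e, abs_div, abs_of_pos (by positivity : (0:ℝ) < u2 ^ 2), one_pow, mul_one, div_le_iff₀ (by positivity)]
    exact h.z
  · have h1 := h.v0
    rw [v0_sc hu', abs_mul, abs_of_pos hu] at h1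
    rw [← mul_div_assoc, le_div_iff₀ hu]
    linarith
  · have h1 := h.v1
    rw [v1_sc hu', abs_mul, abs_of_pos hu] at h1
    rw [← mul_div_assoc, le_div_iff₀ hu]
    linarith

theorem InF.of_sc {c u1 u2 : ℝ} {F : F4} {m : V5} (hu : 0 < u2) (h : InF c (u1 / u2) 1 (F.sc u2) (m.sc u2)) :
    InF c u1 u2 F m := by
  have hu' : u2 ≠ 0 := hu.ne'
  have e : (m.sc u2).Z = m.Z / u2 ^ 2 := by
    simp only [V5.Z, V5.sc]
    field_simp
  obtain ⟨h1, h2, h3, h4, h5, h6, h7⟩ := h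
  simp only [V5.sc] at h1 h2 h3 h4
  rw [abs_div, abs_of_pos hu, mul_one, div_le_iff₀ hu] at h1 h2 h3 h4
  rw [e, abs_div, abs_of_pos (by positivity : (0:ℝ) < u2 ^ 2), one_pow, mul_one, div_le_iff₀ (by positivity)] at h5
  rw [← mul_div_assoc, le_div_iff₀ hu] at h6 h7
  refine ⟨h1, h2, h3, h4, h5, ?_, ?_⟩
  · rw [v0_sc hu', abs_mul, abs_of_pos hu]
    linarith
  · rw [v1_sc hu', abs_mul, abs_of_pos hu]
    linarith

end Vale.Agent.P106.U.H465
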